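import Vale.Agent.P277.H615.R.HasOrd

/-!
# P277, real coefficients: orders of the functions `s e` from those of `k + 1` combinations
-/

open scoped Manifold ContDiff Topology
open Vale.Agent.P272.K Vale.Agent.P285.H281.FD Vale.Agent.P267.H175 Set Filter Metric

noncomputable section

namespace Vale.Agent.P277.H615

open Vale.Agent.P277 Vale.Agent.P277.T2

/-- `a` and the vectors `a + k e_i` -/
def comb {k : ℕ} (a : Fin k → ℤ) : Option (Fin k) → Fin k → ℤ
  | none => a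
  | some e => fun e' => a e' + if e' = e then (k : ℤ) else 0

theorem prod_comb {k : ℕ} (a : Fin k → ℤ) (e : Fin k) {x : Fin k → ℂ} (hx : ∀ e, x e ≠ 0) :
    ∏ e', x e' ^ comb a (some e) e' = (∏ e', x e' ^ a e') * x e ^ k := by
  have h1 : ∀ e', x e' ^ comb a (some e) e' = x e' ^ a e' * (if e' = e then x e ^ k else 1) := by
    intro e'
    simp only [comb]
    rw [zpow_add₀ (hx e')]
    by_cases h : e' = e
    · subst h; simp
    · simp [h]
  simp only [h1, Finset.prod_mul_distrib, Finset.prod_ite_eq', Finset.mem_univ, if_true]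

theorem sum_comb {k : ℕ} {θ₀ : ℝ} {θ : Fin k → ℝ} (hk : 1 ≤ k) {a x : Fin k → ℝ} {q : Fin k → ℝ}
    (hq : ∀ e, q e = (θ₀ - θ e) / k) (ha : ∑ e, a e * q e = -θ₀) (h0 : 0 ≤ θ₀) (h1 : ∀ e, 0 ≤ θ e)
    (hx : ∀ e, a e ≤ x e ∧ x e ≤ a e + 1) : ∑ e, x e * q e ≤ 0 ∧
      (0 < θ₀ → (∀ e, 0 < θ e) → ∑ e, x e * q e < 0) := by
  have hk0 : (0 : ℝ) < k := by exact_mod_cast hk
  set s : ℝ := ∑ e, (x e - a e) with hs
  have hsk : s ≤ k := by
    calc s ≤ ∑ _e : Fin k, (1 : ℝ) := Finset.sum_le_sum fun e _ => by linarith [(hx e).2]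
      _ = k := by simp
  have hs0 : 0 ≤ s := Finset.sum_nonneg fun e _ => by linarith [(hx e).1]
  have h2 : ∑ e, x e * q e = -θ₀ * (1 - s / k) - ∑ e, (x e - a e) * θ e / k := by
    have h3 : ∑ e, x e * q e = ∑ e, a e * q e + ∑ e, (x e - a e) * q e := by
      rw [← Finset.sum_add_distrib]
      exact Finset.sum_congr rfl fun e _ => by ring
    have h4 : ∑ e, (x e - a e) * q e = s * θ₀ / k - ∑ e, (x e - a e) * θ e / k := by
      rw [hs, Finset.sum_mul, Finset.sum_div, ← Finset.sum_sub_distrib]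
      exact Finset.sum_congr rfl fun e _ => by rw [hq]; ring
    rw [h3, ha, h4]
    ring
  have h5 : 0 ≤ 1 - s / k := by
    rw [sub_nonneg, div_le_one hk0]; exact hsk
  have h6 : ∀ e ∈ Finset.univ, 0 ≤ (x e - a e) * θ e / k := fun e _ =>
    div_nonneg (mul_nonneg (by linarith [(hx e).1]) (h1 e)) hk0.le
  have h7 := Finset.sum_nonneg h6
  refine ⟨by rw [h2]; nlinarith, fun hp hpe => ?_⟩
  rw [h2]
  rcases h5.eq_or_lt with h8 | h8
  · -- `s = k`
    have h9 : s = k := by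
      have : s / k = 1 := by linarith
      rwa [div_eq_one_iff_eq hk0.ne'] at this
    have h10 : 0 < ∑ e, (x e - a e) * θ e / k := by
      obtain ⟨e, -, he⟩ : ∃ e ∈ Finset.univ, 0 < x e - a e := by
        by_contra hcon
        push Not at hcon
        have : s ≤ 0 := Finset.sum_nonpos hcon
        linarith
      exact Finset.sum_pos' h6 ⟨e, Finset.mem_univ e, div_pos (mul_pos he (hpe e)) hk0⟩
    rw [← h8]
    linarith
  · have : 0 < θ₀ * (1 - s / k) := mul_pos hp h8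
    linarith

theorem ord_comb {k : ℕ} (hk : 1 ≤ k) {D : Set (Cm 4)} {w₁ : Cm 4} (h0 : w₁ 0 = 0)
    (hD : DenseNear D w₁) {s : Fin k → Cm 4 → ℂ}
    (hs : ∀ᶠ w in 𝓝 w₁, w ∈ D → w 0 ≠ 0 → ∀ e, s e w ≠ 0) {a : Fin k → ℤ}
    {κ : Option (Fin k) → ℕ} {H : Option (Fin k) → Cm 4 → ℂ} (hκ : ∀ l, 1 ≤ κ l)
    (hH : ∀ l, AnalyticAt ℂ (H l) w₁)
    (hHs : ∀ l, ∀ᶠ w in 𝓝 w₁, w ∈ D → w 0 ≠ 0 → H l w * (∏ e, s e w ^ comb a l e) ^ κ l = 1) :
    ∃ q : Fin k → ℚ, (∀ e, HasOrd D w₁ (s e) (q e)) ∧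
      ∀ x : Fin k → ℝ, (∀ e, (a e : ℝ) ≤ x e ∧ x e ≤ a e + 1) → ∑ e, x e * q e ≤ 0 ∧
        ((∀ l, ∀ᶠ w in 𝓝 w₁, w 0 = 0 → H l w = 0) → ∑ e, x e * q e < 0) := by
  have hs' : ∀ e, ∀ᶠ w in 𝓝 w₁, w ∈ D → w 0 ≠ 0 → s e w ≠ 0 := fun e =>
    hs.mono fun w hw h1 h2 => hw h1 h2 e
  have hnz : ∀ l, ¬ ∀ᶠ w in 𝓝 w₁, H l w = 0 := by
    intro l hz
    obtain ⟨w, ⟨h1, h2⟩, h3, h4⟩ := hD.freq (hz.and (hHs l))
    have h5 := h2 h3 h4
    rw [h1, zero_mul] at h5
    exact zero_ne_one h5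
  choose μ hμ hμ1 using fun l => HasOrd.of_analytic (D := D) h0 (hH l) (hnz l)
  have hHne : ∀ l, ∀ᶠ w in 𝓝 w₁, w ∈ D → w 0 ≠ 0 → H l w ≠ 0 := fun l =>
    (hHs l).mono fun w hw h1 h2 => left_ne_zero_of_mul (by rw [hw h1 h2]; exact one_ne_zero)
  -- the orders of the combinations
  have ht : ∀ l, HasOrd D w₁ (fun w => ∏ e, s e w ^ comb a l e) (-(μ l : ℚ) / κ l) := by
    intro l
    refine HasOrd.of_pow (hκ l) ?_
    refine ((hμ l).inv (hHne l)).congr ?_
    filter_upwards [hHs l] with w hw h1 h2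
    have h3 := hw h1 h2
    exact eq_inv_of_mul_eq_one_right h3
  have htne : ∀ l, ∀ᶠ w in 𝓝 w₁, w ∈ D → w 0 ≠ 0 → ∏ e, s e w ^ comb a l e ≠ 0 := fun l =>
    hs.mono fun w hw h1 h2 => Finset.prod_ne_zero_iff.2 fun e _ => zpow_ne_zero _ (hw h1 h2 e)
  set θ : Option (Fin k) → ℚ := fun l => μ l / κ l with hθ
  have hse : ∀ e, HasOrd D w₁ (s e) ((θ none - θ (some e)) / k) := by
    intro e
    refine HasOrd.of_pow hk ?_
    have h1 := (ht (some e)).mul h0 ((ht none).inv (htne none))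
    have h2 : -(μ (some e) : ℚ) / κ (some e) + -(-(μ none : ℚ) / κ none) =
        θ none - θ (some e) := by
      simp only [hθ]; ring
    rw [h2] at h1
    refine h1.congr ?_
    filter_upwards [hs, htne none] with w hw hw' h3 h4
    have h5 := prod_comb a e (hw h3 h4)
    have h6 := hw' h3 h4
    rw [h5]
    have h7 : (∏ e', s e' w ^ comb a none e') = ∏ e', s e' w ^ a e' := rfl
    rw [h7] at h6 ⊢
    field_simp
  have hk0 : (0 : ℝ) < k := by exact_mod_cast hk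
  refine ⟨fun e => (θ none - θ (some e)) / k, hse, fun x hx => ?_⟩
  have hsum : (∑ e, (a e : ℚ) * ((θ none - θ (some e)) / k)) = -θ none := by
    have h1 := HasOrd.prod h0 Finset.univ fun e => (hse e).zpow (hs' e) (a e)
    have h2 := h1.unique h0 hD (htne none) (ht none)
    rw [Finset.sum_congr rfl fun e _ => mul_comm (a e : ℚ) _, h2]
    simp only [hθ]; ring
  have hθ0 : ∀ l, 0 ≤ θ l := fun l => div_nonneg (Nat.cast_nonneg _) (Nat.cast_nonneg _)
  have key := sum_comb (θ₀ := (θ none : ℝ)) (θ := fun e => (θ (some e) : ℝ)) hk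
    (a := fun e => (a e : ℝ)) (x := x) (q := fun e => (((θ none - θ (some e)) / k : ℚ) : ℝ))
    (fun e => by push_cast; ring) (by exact_mod_cast hsum) (by exact_mod_cast hθ0 none)
    (fun e => by exact_mod_cast hθ0 (some e)) hx
  refine ⟨key.1, fun hz => key.2 ?_ fun e => ?_⟩
  · have h1 := hμ1 none (hz none)
    have h2 : 0 < θ none := div_pos (by exact_mod_cast h1) (by exact_mod_cast hκ none)
    exact_mod_cast h2
  · have h1 := hμ1 (some e) (hz (some e))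
    have h2 : 0 < θ (some e) := div_pos (by exact_mod_cast h1) (by exact_mod_cast hκ (some e))
    exact_mod_cast h2

/-- the choice of `a` -/
theorem exists_comb {k : ℕ} {x : Fin k → ℝ} {ε : ℝ} {C : Fin k → ℕ} (hε : 0 < ε) :
    ∃ (d : ℕ) (a : Fin k → ℤ), 1 ≤ d ∧ (∀ e, (a e : ℝ) ≤ d * x e ∧ d * x e ≤ a e + 1) ∧
      ∀ l e, |((comb a l e * C e : ℤ) : ℝ) / d - x e * C e| < ε := by
  obtain ⟨d, hd⟩ := exists_nat_gt (∑ e, (k + 1) * (C e : ℝ) / ε)
  have hsum0 : 0 ≤ ∑ e, (k + 1) * (C e : ℝ) / ε := Finset.sum_nonneg fun e _ => by positivity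
  have hd0 : (0 : ℝ) < d := hsum0.trans_lt hd
  have hd1 : 1 ≤ d := by
    have : 0 < d := by exact_mod_cast hd0
    omega
  refine ⟨d, fun e => ⌊d * x e⌋, hd1, fun e => ⟨Int.floor_le _, (Int.lt_floor_add_one _).le⟩, ?_⟩
  intro l e
  have h1 : |((comb (fun e => ⌊d * x e⌋) l e : ℤ) : ℝ) - d * x e| ≤ k + 1 := by
    have h2 := Int.floor_le ((d : ℝ) * x e)
    have h3 := Int.lt_floor_add_one ((d : ℝ) * x e)
    have hk : (0 : ℝ) ≤ k := Nat.cast_nonneg k
    rw [abs_le]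
    cases l with
    | none => simp only [comb]; constructor <;> linarith
    | some e' =>
      simp only [comb]
      split_ifs
      · push_cast
        constructor <;> linarith
      · push_cast
        constructor <;> linarith
  have h4 : ((comb (fun e => ⌊d * x e⌋) l e * C e : ℤ) : ℝ) / d - x e * C e =
      (((comb (fun e => ⌊d * x e⌋) l e : ℤ) : ℝ) - d * x e) * (C e / d) := by
    push_cast
    field_simp
  rw [h4, abs_mul, abs_of_nonneg (a := (C e : ℝ) / d) (by positivity)]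
  refine (mul_le_mul_of_nonneg_right h1 (by positivity)).trans_lt ?_
  have h5 : (k + 1) * (C e : ℝ) / ε ≤ ∑ e, (k + 1) * (C e : ℝ) / ε :=
    Finset.single_le_sum (f := fun e => (k + 1) * (C e : ℝ) / ε) (fun e _ => by positivity)
      (Finset.mem_univ e)
  have h6 : (k + 1) * (C e : ℝ) / ε < d := h5.trans_lt hd
  rw [div_lt_iff₀ hε] at h6
  rw [← mul_div_assoc, div_lt_iff₀ hd0]
  linarith

end Vale.Agent.P277.H615
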