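import Vale.Agent.P277.Stmts10
import Vale.Agent.P277.H615.D0
import Vale.Agent.P277.H615.R.Comb

/-!
# P277, real coefficients: a flip of an `ℝ`-divisor is a flip of `k + 1` combinations
-/

open scoped Manifold ContDiff Topology
open Vale.Agent.P272.K Vale.Agent.P285.H281.FD Vale.Agent.P267.H175 Set Filter Metric

noncomputable section

namespace Vale.Agent.P277.H615

open Vale.Agent.P277 Vale.Agent.P277.T2

variable {X Z X' : CSp} {f : X.pt → Z.pt} {f' : X'.pt → Z.pt} {A : Set Z.pt} {k : ℕ}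

theorem hol_zpow {g : X.pt → ℂ} {x : X.pt} (hg : X.Hol g x) (h0 : g x ≠ 0) (n : ℤ) :
    X.Hol (fun y => g y ^ n) x := by
  obtain ⟨n, rfl | rfl⟩ := n.eq_nat_or_neg
  · simpa using hol_pow hg n
  · simpa using hol_inv (hol_pow hg n) (pow_ne_zero n h0)

theorem IsLBx.lin {L : Fin k → Bd X.pt} (hL : ∀ e, IsLBx X (L e)) (n : Fin k → ℤ) :
    IsLBx X (Bd.lin L n) where
  isOpen i := by
    have h1 : (Bd.lin L n).U i = ⋂ e, (L e).U (i e) := by
      ext x; simp [Bd.lin]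
    rw [h1]
    exact isOpen_iInter_of_finite fun e => (hL e).isOpen _
  cover x := by
    choose i hi using fun e => (hL e).cover x
    exact ⟨i, hi⟩
  holo i j x hi hj := by
    show X.Hol (fun x => ∏ e, (L e).g (i e) (j e) x ^ n e) x
    exact hol_prod _ fun e _ =>
      hol_zpow ((hL e).holo _ _ x (hi e) (hj e)) ((hL e).ne_zero _ _ x (hi e) (hj e)) _
  ne_zero i j x hi hj := by
    show (∏ e, (L e).g (i e) (j e) x ^ n e) ≠ 0
    exact Finset.prod_ne_zero_iff.2 fun e _ =>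
      zpow_ne_zero _ ((hL e).ne_zero _ _ x (hi e) (hj e))
  cocycle i j l x hi hj hl := by
    show (∏ e, (L e).g (i e) (j e) x ^ n e) * (∏ e, (L e).g (j e) (l e) x ^ n e) =
      ∏ e, (L e).g (i e) (l e) x ^ n e
    rw [← Finset.prod_mul_distrib]
    refine Finset.prod_congr rfl fun e _ => ?_
    rw [← mul_zpow, (hL e).cocycle _ _ _ x (hi e) (hj e) (hl e)]

theorem IsIso.lin {L : Fin k → Bd X.pt} {L' : Fin k → Bd X'.pt}
    {s : ∀ e, (L e).ι → (L' e).ι → Z.pt → ℂ} (hs : ∀ e, IsIso f f' A (L e) (L' e) (s e))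
    (n : Fin k → ℤ) : IsIso f f' A (Bd.lin L n) (Bd.lin L' n)
      (fun i j z => ∏ e, s e (i e) (j e) z ^ n e) where
  holo x x' i j hx hx' hi hj := ⟨hol_prod _ fun e _ =>
    hol_zpow ((hs e).holo x x' _ _ hx hx' (hi e) (hj e)).1
      ((hs e).holo x x' _ _ hx hx' (hi e) (hj e)).2 _, Finset.prod_ne_zero_iff.2 fun e _ =>
    zpow_ne_zero _ ((hs e).holo x x' _ _ hx hx' (hi e) (hj e)).2⟩
  change x x' i i₁ j j₁ hx hx' hi hi₁ hj hj₁ := by
    show (∏ e, s e (i₁ e) (j₁ e) (f x) ^ n e) = (∏ e, (L e).g (i e) (i₁ e) x ^ n e) *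
      (∏ e, s e (i e) (j e) (f x) ^ n e) * ∏ e, (L' e).g (j₁ e) (j e) x' ^ n e
    rw [← Finset.prod_mul_distrib, ← Finset.prod_mul_distrib]
    refine Finset.prod_congr rfl fun e _ => ?_
    rw [← mul_zpow, ← mul_zpow,
      (hs e).change x x' _ _ _ _ hx hx' (hi e) (hi₁ e) (hj e) (hj₁ e)]

theorem lin_pow (L : Fin k → Bd X.pt) (p : Fin k → ℕ) (n : Fin k → ℤ) :
    Bd.lin (fun e => (L e).pow (p e)) n = Bd.lin L (fun e => n e * p e) := by
  have h1 : ∀ (i j : ∀ e, (L e).ι) (x : X.pt),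
      (∏ e, ((L e).g (i e) (j e) x ^ p e) ^ n e) = ∏ e, (L e).g (i e) (j e) x ^ (n e * p e) := by
    intro i j x
    refine Finset.prod_congr rfl fun e _ => ?_
    rw [← zpow_natCast, ← zpow_mul, mul_comm]
  show Bd.mk _ _ _ = Bd.mk _ _ _
  congr 1
  funext i j x
  exact h1 i j x

/-- an isomorphism extends to the complement of the minimal exceptional set -/
theorem iso_amin {L : Bd X.pt} {L' : Bd X'.pt} (hZ : IsNormal 4 Z) (hsm : IsSmall X Z f A)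
    (h2 : IsSmall X Z f (Amin f)) (h2' : IsSmall X' Z f' (Amin f)) (hlb : IsLBx X L)
    (hlb' : IsLBx X' L') {t : L.ι → L'.ι → Z.pt → ℂ} (ht : IsIso f f' A L L' t) :
    ∃ T, IsIso f f' (Amin f) L L' T := by
  -- the domain
  let D : L.ι → L'.ι → Set Z.pt := fun i j =>
    {z | z ∉ Amin f ∧ h2.sec z ∈ L.U i ∧ h2'.sec z ∈ L'.U j}
  have hD : ∀ i j, IsOpen (D i j) := by
    intro i j
    rw [isOpen_iff_mem_nhds]
    rintro z ⟨hz, hzi, hzj⟩
    have n1 : ∀ᶠ w in 𝓝 z, w ∉ Amin f := h2.isClosed.isOpen_compl.mem_nhds hz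
    have n2 : ∀ᶠ w in 𝓝 z, h2.sec w ∈ L.U i :=
      (h2.holMap_sec hz).1.eventually_mem ((hlb.isOpen i).mem_nhds hzi)
    have n3 : ∀ᶠ w in 𝓝 z, h2'.sec w ∈ L'.U j :=
      (h2'.holMap_sec hz).1.eventually_mem ((hlb'.isOpen j).mem_nhds hzj)
    filter_upwards [n1, n2, n3] with w w1 w2 w3
    exact ⟨w1, w2, w3⟩
  have htD : ∀ i j, ∀ z ∈ D i j, z ∉ A → Z.Hol (t i j) z ∧ t i j z ≠ 0 := by
    rintro i j z ⟨hz, hzi, hzj⟩ hzA
    have h3 := ht.holo (h2.sec z) (h2'.sec z) i j (by rw [h2.sec_eq]; exact hzA)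
      (by rw [h2.sec_eq, h2'.sec_eq]) hzi hzj
    rwa [h2.sec_eq] at h3
  have hA2 : ∀ i j, DimLe Z 2 (D i j ∩ A) := fun i j => (dimLe_A hsm).mono inter_subset_right
  choose T hT1 hT2 using fun i j => hZ.ext (D i j) A (hD i j)
    (hsm.an.mono (subset_univ _)) (hA2 i j) (t i j) fun z hz => (htD i j z hz.1 hz.2).1
  choose U hU1 hU2 using fun i j => hZ.ext (D i j) A (hD i j)
    (hsm.an.mono (subset_univ _)) (hA2 i j) (fun z => (t i j z)⁻¹) fun z hz =>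
      hol_inv (htD i j z hz.1 hz.2).1 (htD i j z hz.1 hz.2).2
  have hdA : Dense Aᶜ := dense_A hZ hsm
  have hTU : ∀ i j, ∀ z ∈ D i j, T i j z * U i j z = 1 := by
    intro i j
    refine eqOn_of_dense (hD i j) hdA
      (hol_continuousOn fun z hz => hol_mul (hT1 i j z hz) (hU1 i j z hz)) continuousOn_const ?_
    intro z hz hzA
    rw [hT2 i j z ⟨hz, hzA⟩, hU2 i j z ⟨hz, hzA⟩]
    exact mul_inv_cancel₀ (htD i j z hz hzA).2
  have hmem : ∀ x x' i j, f x ∉ Amin f → f' x' = f x → x ∈ L.U i → x' ∈ L'.U j → f x ∈ D i j := by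
    intro x x' i j hx hxx' hi hj
    refine ⟨hx, ?_, ?_⟩
    · rw [h2.sec_apply hx]; exact hi
    · rw [← hxx', h2'.sec_apply (by rw [hxx']; exact hx)]; exact hj
  refine ⟨T, ⟨?_, ?_⟩⟩
  · intro x x' i j hx hxx' hi hj
    have h3 := hmem x x' i j hx hxx' hi hj
    exact ⟨hT1 i j _ h3, left_ne_zero_of_mul (by rw [hTU i j _ h3]; exact one_ne_zero)⟩
  · intro x x' i i₁ j j₁ hx hxx' hi hi₁ hj hj₁
    have h3 := hmem x x' i j hx hxx' hi hj
    have h4 := hmem x x' i₁ j₁ hx hxx' hi₁ hj₁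
    have h5 : ∀ z ∈ D i j ∩ D i₁ j₁,
        T i₁ j₁ z = L.g i i₁ (h2.sec z) * T i j z * L'.g j₁ j (h2'.sec z) := by
      refine eqOn_of_dense ((hD i j).inter (hD i₁ j₁)) hdA
        (hol_continuousOn fun z hz => hT1 i₁ j₁ z hz.2)
        (hol_continuousOn (g := fun z => L.g i i₁ (h2.sec z) * T i j z * L'.g j₁ j (h2'.sec z))
          fun z hz => ?_) ?_
      · have a1 : Z.Hol (L.g i i₁ ∘ h2.sec) z :=
          (h2.holMap_sec hz.1.1).2 _ (hlb.holo i i₁ _ hz.1.2.1 hz.2.2.1)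
        have a2 : Z.Hol (L'.g j₁ j ∘ h2'.sec) z :=
          (h2'.holMap_sec hz.1.1).2 _ (hlb'.holo j₁ j _ hz.2.2.2 hz.1.2.2)
        exact hol_mul (hol_mul a1 (hT1 i j z hz.1)) a2
      · rintro z ⟨hz1, hz2⟩ hzA
        have b1 := ht.change (h2.sec z) (h2'.sec z) i i₁ j j₁ (by rw [h2.sec_eq]; exact hzA)
          (by rw [h2.sec_eq, h2'.sec_eq]) hz1.2.1 hz2.2.1 hz1.2.2 hz2.2.2
        rw [h2.sec_eq] at b1
        rw [hT2 i₁ j₁ z ⟨hz2, hzA⟩, hT2 i j z ⟨hz1, hzA⟩, b1]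
    have h6 := h5 (f x) ⟨h3, h4⟩
    rwa [h2.sec_apply hx, ← hxx', h2'.sec_apply (by rw [hxx']; exact hx), hxx'] at h6

/-- the data of a flip used below -/
structure FlipD {X Z X' : CSp} {k : ℕ} (f : X.pt → Z.pt) (f' : X'.pt → Z.pt)
    (L : Fin k → Bd X.pt) (L' : Fin k → Bd X'.pt) (p q : Fin k → ℕ)
    (s : ∀ e, (L e).ι → (L' e).ι → Z.pt → ℂ) (a : Fin k → ℤ) : Prop where
  normal : IsNormal 4 X
  normalZ : IsNormal 4 Z
  normal' : IsNormal 4 X'
  small : IsSmall X Z f (Amin f)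
  small' : IsSmall X' Z f' (Amin f)
  lb : ∀ e, IsLBx X (L e)
  lb' : ∀ e, IsLBx X' (L' e)
  hp : ∀ e, 1 ≤ p e
  hq : ∀ e, 1 ≤ q e
  iso : ∀ e, IsIso f f' (Amin f) ((L e).pow (p e)) ((L' e).pow (q e)) (s e)
  flip : ∀ l, IsFlip X Z X' f f' (Amin f) (Bd.lin (fun e => (L e).pow (p e)) (comb a l))
    (Bd.lin (fun e => (L' e).pow (q e)) (comb a l))

theorem exists_flipD {L : Fin k → Bd X.pt} {L' : Fin k → Bd X'.pt} {c c' : Fin k → ℕ}
    {ρ : Fin k → ℝ} (h : IsFlipR X Z X' f f' A L L' c c' ρ) (hc : ∀ e, 1 ≤ c e) :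
    ∃ (p q : Fin k → ℕ) (s : ∀ e, (L e).ι → (L' e).ι → Z.pt → ℂ) (d : ℕ) (a : Fin k → ℤ),
      1 ≤ d ∧ (∀ e, c e * p e = c' e * q e) ∧ FlipD f f' L L' p q s a ∧
      ∀ e, (a e : ℝ) ≤ d * (ρ e / (c e * p e)) ∧ d * (ρ e / (c e * p e)) ≤ a e + 1 := by
  choose p q hp hq hcpq t ht using h.iso
  obtain ⟨ε, hε, hamp⟩ := h.ample
  obtain ⟨ε', hε', hamp'⟩ := h.ample'
  obtain ⟨d, a, hd, hda, hcomb⟩ := exists_comb (x := fun e => ρ e / (c e * p e))
    (C := fun e => c e * p e) (lt_min hε hε')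
  have hxC : ∀ e, ρ e / (c e * p e) * ((c e * p e : ℕ) : ℝ) = ρ e := by
    intro e
    have h1 : (c e : ℝ) ≠ 0 := by exact_mod_cast (Nat.one_le_iff_ne_zero.1 (hc e))
    have h2 : (p e : ℝ) ≠ 0 := by exact_mod_cast (Nat.one_le_iff_ne_zero.1 (hp e))
    push_cast
    field_simp
  have hflip : ∀ l, IsFlip X Z X' f f' A (Bd.lin (fun e => (L e).pow (p e)) (comb a l))
      (Bd.lin (fun e => (L' e).pow (q e)) (comb a l)) := by
    intro l
    refine ⟨h.normal, h.normalZ, h.normal', h.small, h.small', h.ninj, h.ninj',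
      IsLBx.lin (fun e => IsLBx.pow (h.lb e) _) _, IsLBx.lin (fun e => IsLBx.pow (h.lb' e) _) _,
      ⟨_, IsIso.lin ht _⟩, ?_, ?_⟩
    · rw [lin_pow]
      refine hamp _ d hd fun e => ?_
      have h1 := (hcomb l e).trans_le (min_le_left _ _)
      rw [hxC e] at h1
      have h2 : ((comb a l e * p e : ℤ) : ℝ) * c e =
          ((comb a l e * ((c e * p e : ℕ) : ℤ) : ℤ) : ℝ) := by
        push_cast
        ring
      rw [h2]
      exact h1
    · rw [lin_pow]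
      refine hamp' _ d hd fun e => ?_
      have h1 := (hcomb l e).trans_le (min_le_right _ _)
      rw [hxC e] at h1
      have h2 : ((comb a l e * q e : ℤ) : ℝ) * c' e =
          ((comb a l e * ((c e * p e : ℕ) : ℤ) : ℤ) : ℝ) := by
        rw [hcpq e]
        push_cast
        ring
      rw [h2]
      exact h1
  have h0 := fun l => (stD0 _ _ _ _ _ _ _ _ (hflip l)).1
  choose s hs using fun e => iso_amin h.normalZ h.small (h0 none).small (h0 none).small'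
    (IsLBx.pow (h.lb e) (p e)) (IsLBx.pow (h.lb' e) (q e)) (ht e)
  exact ⟨p, q, s, d, a, hd, hcpq, ⟨h.normal, h.normalZ, h.normal', (h0 none).small,
    (h0 none).small', h.lb, h.lb', hp, hq, hs, h0⟩, hda⟩

end Vale.Agent.P277.H615
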