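import Vale.Agent.P277.H615.TBr
import Vale.Agent.P277.H615.R.FlipD

/-!
# P277, real coefficients: lifting wedges through a flip, with the orders of the functions `s e`
-/

open scoped Manifold ContDiff Topology
open Vale.Agent.P272.K Vale.Agent.P285.H281.FD Vale.Agent.P267.H175 Set Filter Metric

noncomputable section

namespace Vale.Agent.P277.H615

open Vale.Agent.P277 Vale.Agent.P277.T2

variable {X Z X' : CSp} {f : X.pt → Z.pt} {f' : X'.pt → Z.pt} {A : Set Z.pt} {k : ℕ}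

/-- maps which agree on a dense subset of an open set -/
theorem eqOn_of_closure {T S : Type} [TopologicalSpace T] [TopologicalSpace S] [T2Space S]
    {W D : Set T} {γ γ₁ : T → S} (hW : IsOpen W) (hγ : ∀ w ∈ W, ContinuousAt γ w)
    (hγ₁ : ∀ w ∈ W, ContinuousAt γ₁ w) (hd : W ⊆ closure (W ∩ D)) (h : ∀ w ∈ W, w ∈ D → γ w = γ₁ w) :
    ∀ w ∈ W, γ w = γ₁ w := by
  intro w hw
  have hne : (𝓝 w ⊓ 𝓟 (W ∩ D)).NeBot := mem_closure_iff_clusterPt.1 (hd hw)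
  have h1 : Tendsto γ (𝓝 w ⊓ 𝓟 (W ∩ D)) (𝓝 (γ w)) := (hγ w hw).mono_left inf_le_left
  have h2 : Tendsto γ₁ (𝓝 w ⊓ 𝓟 (W ∩ D)) (𝓝 (γ₁ w)) := (hγ₁ w hw).mono_left inf_le_left
  refine tendsto_nhds_unique h1 (h2.congr' ?_)
  have h3 : ∀ᶠ z in 𝓝 w ⊓ 𝓟 (W ∩ D), z ∈ W ∩ D := mem_inf_of_right (mem_principal_self _)
  filter_upwards [h3] with z hz
  exact (h z hz.1 hz.2).symm

theorem denseNear_of {W D : Set (Cm 4)} (hW : IsOpen W) (hD : IsOpen (W ∩ D))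
    (hd : W ⊆ closure (W ∩ D)) {w₁ : Cm 4} (hw₁ : w₁ ∈ W) : DenseNear D w₁ := by
  filter_upwards [hW.mem_nhds hw₁] with w hw
  rw [mem_closure_iff_nhds]
  intro U hU
  obtain ⟨U', hU'U, hU', hwU'⟩ := _root_.mem_nhds_iff.1 hU
  obtain ⟨w', hw'1, hw'2⟩ := mem_closure_iff_nhds.1 (hd hw) U' (hU'.mem_nhds hwU')
  obtain ⟨w'', h1, h2⟩ := H19.exists_ne_zero ((hU'.inter hD).mem_nhds ⟨hw'1, hw'2⟩)
  exact ⟨w'', hU'U h1.1, h1.2.2, h2⟩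

theorem tbrV {ι : Type} [Fintype ι] (l₀ : ι) (hA : A = Amin f) {L : ι → Bd X.pt}
    {L' : ι → Bd X'.pt} {t : ∀ l, (L l).ι → (L' l).ι → Z.pt → ℂ}
    (hf : ∀ l, IsFlip X Z X' f f' A (L l) (L' l)) (ht : ∀ l, IsIso f f' A (L l) (L' l) (t l))
    {W : Set (Cm 4)} (hW : IsOpen W) {w₀ : Cm 4} (hw₀ : w₀ ∈ W) (h0 : w₀ 0 = 0)
    {γ' : Cm 4 → X'.pt} (hγ' : ∀ w ∈ W, HolAt X' γ' w)
    (hd : W ⊆ closure {w | w ∈ W ∧ f' (γ' w) ∉ A}) :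
    ∃ (r : ℝ) (g : Cm 4 → ℂ), 0 < r ∧ ball w₀ r ⊆ W ∧ (∀ w ∈ ball w₀ r, AnalyticAt ℂ g w) ∧
      (∃ w₁ ∈ ball w₀ r, w₁ 0 = 0 ∧ g w₁ ≠ 0) ∧
      ∀ w₁ ∈ ball w₀ r, w₁ 0 = 0 → g w₁ ≠ 0 →
        ∃ (W₁ : Set (Cm 4)) (γ : Cm 4 → X.pt) (κ : ι → ℕ), IsOpen W₁ ∧ w₁ ∈ W₁ ∧
        W₁ ⊆ W ∧ (∀ w ∈ W₁, HolAt X γ w ∧ f (γ w) = f' (γ' w)) ∧ ∀ l, 1 ≤ κ l ∧
        ∀ i j, γ w₁ ∈ (L l).U i → γ' w₁ ∈ (L' l).U j →
          ∃ H : Cm 4 → ℂ, AnalyticAt ℂ H w₁ ∧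
            (∀ᶠ w in 𝓝 w₁, f (γ w) ∉ A → H w * t l i j (f (γ w)) ^ κ l = 1) ∧
            ((∀ w ∈ W, w 0 = 0 → f' (γ' w) ∈ A) → ∀ᶠ w in 𝓝 w₁, w 0 = 0 → H w = 0) := by
  choose r g hr hs hg hne hgood using fun l => stTBr X Z X' f f' A (L l) (L' l) (hf l) hA (t l)
    (ht l) W hW w₀ hw₀ h0 γ' hγ' hd
  set ρ : ℝ := Finset.univ.inf' ⟨l₀, Finset.mem_univ l₀⟩ r with hρ
  have hρ0 : 0 < ρ := (Finset.lt_inf'_iff _).2 fun l _ => hr l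
  have hρr : ∀ l, ρ ≤ r l := fun l => Finset.inf'_le _ (Finset.mem_univ l)
  have hsub : ∀ l, ball w₀ ρ ⊆ ball w₀ (r l) := fun l => ball_subset_ball (hρr l)
  have hw₀ρ : w₀ ∈ ball w₀ ρ := mem_ball_self hρ0
  refine ⟨ρ, fun w => ∏ l, g l w, hρ0, (hsub l₀).trans (hs l₀),
    fun w hw => Finset.analyticAt_fun_prod _ fun l _ => hg l w (hsub l hw), ?_, ?_⟩
  · have h1 := freq_prod h0 Finset.univ (A := g) (fun l => hg l w₀ (hsub l hw₀ρ)) fun l => by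
      obtain ⟨w₁, k1, k2, k3⟩ := hne l
      exact freq_ne h0 (hg l) k1 k2 (hsub l hw₀ρ) h0 k3
    obtain ⟨w₁, ⟨k1, k2⟩, k3⟩ := (h1.and_eventually (ball_mem_nhds w₀ hρ0)).exists
    exact ⟨w₁, k3, k1, Finset.prod_ne_zero_iff.2 k2⟩
  intro w₁ hw₁ hw₁0 hgw₁
  choose W₁ γ κ hW₁ hw₁W₁ hW₁W hγ hκ hH using fun l => hgood l w₁ (hsub l hw₁) hw₁0
    (Finset.prod_ne_zero_iff.1 hgw₁ l (Finset.mem_univ l))
  set V : Set (Cm 4) := ⋂ l, W₁ l with hV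
  have hVo : IsOpen V := isOpen_iInter_of_finite hW₁
  have hw₁V : w₁ ∈ V := mem_iInter.2 hw₁W₁
  have hVW : ∀ l, V ⊆ W₁ l := fun l => iInter_subset _ l
  have hVd : V ⊆ closure (V ∩ {w | f' (γ' w) ∉ A}) := by
    intro w hw
    rw [mem_closure_iff_nhds]
    intro U hU
    obtain ⟨w', h1, h2⟩ := mem_closure_iff_nhds.1 (hd (hW₁W l₀ (hVW l₀ hw))) (U ∩ V)
      (inter_mem hU (hVo.mem_nhds hw))
    exact ⟨w', h1.1, h1.2, h2.2⟩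
  have hag : ∀ l, ∀ w ∈ V, γ l w = γ l₀ w := by
    intro l
    refine eqOn_of_closure hVo (fun w hw => (hγ l w (hVW l hw)).1.1)
      (fun w hw => (hγ l₀ w (hVW l₀ hw)).1.1) hVd fun w hw hwA => ?_
    have h1 := (hγ l w (hVW l hw)).2
    have h2 := (hγ l₀ w (hVW l₀ hw)).2
    exact (hf l₀).small.inj _ _ (by rw [h2]; exact hwA) (by rw [h1, h2])
  refine ⟨V, γ l₀, κ, hVo, hw₁V, (hVW l₀).trans (hW₁W l₀), fun w hw => hγ l₀ w (hVW l₀ hw),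
    fun l => ⟨hκ l, fun i j hi hj => ?_⟩⟩
  have hc : ContinuousAt (γ l₀) w₁ := (hγ l₀ w₁ (hVW l₀ hw₁V)).1.1
  have hc' : ContinuousAt γ' w₁ := (hγ' w₁ (hW₁W l₀ (hVW l₀ hw₁V))).1
  have hev : ∀ᶠ w in 𝓝 w₁, w ∈ V ∧ γ l₀ w ∈ (L l).U i ∧ γ' w ∈ (L' l).U j :=
    (hVo.eventually_mem hw₁V).and ((hc.eventually_mem (((hf l).lb.isOpen i).mem_nhds hi)).and
      (hc'.eventually_mem (((hf l).lb'.isOpen j).mem_nhds hj)))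
  obtain ⟨W₂, hW₂, hW₂o, hw₁W₂⟩ := _root_.mem_nhds_iff.1 hev
  obtain ⟨H, hHa, hHt, hH0⟩ := hH l W₂ (fun w hw => hVW l (hW₂ hw).1) i j
    (fun w hw => by rw [hag l w (hW₂ hw).1]; exact (hW₂ hw).2.1) (fun w hw => (hW₂ hw).2.2)
  refine ⟨H, hHa w₁ hw₁W₂, ?_, fun hAll => ?_⟩
  · filter_upwards [hW₂o.mem_nhds hw₁W₂] with w hw hwA
    have h1 := hHt w hw (by rw [hag l w (hW₂ hw).1]; exact hwA)
    rwa [hag l w (hW₂ hw).1] at h1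
  · filter_upwards [hW₂o.mem_nhds hw₁W₂] with w hw hw0
    exact hH0 hAll w hw hw0

/-- the conclusion of `FlipD.down` and `FlipD.up` at a point `w₁` -/
def OrdAt {X₁ : CSp} (a : Fin k → ℤ) (σs : Fin k → Cm 4 → ℂ) (D : Set (Cm 4)) (w₁ : Cm 4)
    (C : Prop) (_ : Cm 4 → X₁.pt) : Prop :=
  ∃ σ : Fin k → ℚ, (∀ e, HasOrd D w₁ (σs e) (σ e)) ∧
    ∀ x : Fin k → ℝ, (∀ e, (a e : ℝ) ≤ x e ∧ x e ≤ a e + 1) →
      ∑ e, x e * σ e ≤ 0 ∧ (C → ∑ e, x e * σ e < 0)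

variable {L : Fin k → Bd X.pt} {L' : Fin k → Bd X'.pt} {p q : Fin k → ℕ}
  {s : ∀ e, (L e).ι → (L' e).ι → Z.pt → ℂ} {a : Fin k → ℤ}

/-- wedges of `X'` lift to `X` -/
theorem FlipD.down (h : FlipD f f' L L' p q s a) (hk : 1 ≤ k) {W : Set (Cm 4)} (hW : IsOpen W)
    {w₀ : Cm 4} (hw₀ : w₀ ∈ W) (h0 : w₀ 0 = 0) {γ' : Cm 4 → X'.pt}
    (hγ' : ∀ w ∈ W, HolAt X' γ' w) (hd : W ⊆ closure {w | w ∈ W ∧ f' (γ' w) ∉ Amin f}) :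
    ∃ (r : ℝ) (g : Cm 4 → ℂ), 0 < r ∧ ball w₀ r ⊆ W ∧ (∀ w ∈ ball w₀ r, AnalyticAt ℂ g w) ∧
      (∃ w₁ ∈ ball w₀ r, w₁ 0 = 0 ∧ g w₁ ≠ 0) ∧
      ∀ w₁ ∈ ball w₀ r, w₁ 0 = 0 → g w₁ ≠ 0 →
        ∃ (W₁ : Set (Cm 4)) (γ : Cm 4 → X.pt), IsOpen W₁ ∧ w₁ ∈ W₁ ∧ W₁ ⊆ W ∧
        (∀ w ∈ W₁, HolAt X γ w ∧ f (γ w) = f' (γ' w)) ∧
        ∀ (i : ∀ e, (L e).ι) (j : ∀ e, (L' e).ι), (∀ e, γ w₁ ∈ (L e).U (i e)) →
          (∀ e, γ' w₁ ∈ (L' e).U (j e)) →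
          OrdAt a (fun e w => s e (i e) (j e) (f (γ w))) {w | f (γ w) ∉ Amin f} w₁
            (∀ w ∈ W, w 0 = 0 → f' (γ' w) ∈ Amin f) γ := by
  obtain ⟨r, g, hr, hs, hg, hne, hgood⟩ := tbrV (none : Option (Fin k)) rfl h.flip
    (fun l => IsIso.lin h.iso (comb a l)) hW hw₀ h0 hγ' hd
  refine ⟨r, g, hr, hs, hg, hne, fun w₁ hw₁ hw₁0 hgw₁ => ?_⟩
  obtain ⟨W₁, γ, κ, hW₁, hw₁W₁, hW₁W, hγ, hH⟩ := hgood w₁ hw₁ hw₁0 hgw₁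
  refine ⟨W₁, γ, hW₁, hw₁W₁, hW₁W, hγ, fun i j hi hj => ?_⟩
  choose H hHa hHs hH0 using fun l => (hH l).2 i j hi hj
  have hcγ : ContinuousOn (fun w => f (γ w)) W₁ := fun w hw =>
    ((h.small.cont.continuousAt (x := γ w)).comp (hγ w hw).1.1).continuousWithinAt
  have hDo : IsOpen (W₁ ∩ {w | f (γ w) ∉ Amin f}) :=
    hcγ.isOpen_inter_preimage hW₁ h.small.isClosed.isOpen_compl
  have hDd : W₁ ⊆ closure (W₁ ∩ {w | f (γ w) ∉ Amin f}) := by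
    intro w hw
    rw [mem_closure_iff_nhds]
    intro U hU
    obtain ⟨w', h1, h2⟩ := mem_closure_iff_nhds.1 (hd (hW₁W hw)) (U ∩ W₁)
      (inter_mem hU (hW₁.mem_nhds hw))
    refine ⟨w', h1.1, h1.2, ?_⟩
    show f (γ w') ∉ Amin f
    rw [(hγ w' h1.2).2]; exact h2.2
  have hdn := denseNear_of hW₁ hDo hDd hw₁W₁
  have hsne : ∀ᶠ w in 𝓝 w₁, w ∈ {w | f (γ w) ∉ Amin f} → w 0 ≠ 0 →
      ∀ e, s e (i e) (j e) (f (γ w)) ≠ 0 := by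
    have hev : ∀ᶠ w in 𝓝 w₁, w ∈ W₁ ∧ (∀ e, γ w ∈ (L e).U (i e)) ∧ ∀ e, γ' w ∈ (L' e).U (j e) := by
      refine (hW₁.eventually_mem hw₁W₁).and (Filter.Eventually.and ?_ ?_)
      · rw [eventually_all]
        exact fun e => (hγ w₁ hw₁W₁).1.1.eventually_mem (((h.lb e).isOpen (i e)).mem_nhds (hi e))
      · rw [eventually_all]
        exact fun e => (hγ' w₁ (hW₁W hw₁W₁)).1.eventually_mem
          (((h.lb' e).isOpen (j e)).mem_nhds (hj e))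
    filter_upwards [hev] with w ⟨m1, m2, m3⟩ hwD _ e
    exact ((h.iso e).holo (γ w) (γ' w) (i e) (j e) hwD (hγ w m1).2.symm (m2 e) (m3 e)).2
  obtain ⟨σ, hσ, hsum⟩ := ord_comb hk hw₁0 hdn (s := fun e w => s e (i e) (j e) (f (γ w))) hsne
    (κ := κ) (H := H) (fun l => (hH l).1) hHa (fun l => (hHs l).mono fun w hw hwD _ => hw hwD)
  exact ⟨σ, hσ, fun x hx => ⟨(hsum x hx).1, fun hC => (hsum x hx).2 fun l => hH0 l hC⟩⟩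

/-- wedges of `X` lift to `X'` -/
theorem FlipD.up (h : FlipD f f' L L' p q s a) (hk : 1 ≤ k) {W : Set (Cm 4)} (hW : IsOpen W)
    {w₀ : Cm 4} (hw₀ : w₀ ∈ W) (h0 : w₀ 0 = 0) {γ : Cm 4 → X.pt}
    (hγ : ∀ w ∈ W, HolAt X γ w) (hd : W ⊆ closure {w | w ∈ W ∧ f (γ w) ∉ Amin f}) :
    ∃ (r : ℝ) (g : Cm 4 → ℂ), 0 < r ∧ ball w₀ r ⊆ W ∧ (∀ w ∈ ball w₀ r, AnalyticAt ℂ g w) ∧
      (∃ w₁ ∈ ball w₀ r, w₁ 0 = 0 ∧ g w₁ ≠ 0) ∧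
      ∀ w₁ ∈ ball w₀ r, w₁ 0 = 0 → g w₁ ≠ 0 →
        ∃ (W₁ : Set (Cm 4)) (γ' : Cm 4 → X'.pt), IsOpen W₁ ∧ w₁ ∈ W₁ ∧ W₁ ⊆ W ∧
        (∀ w ∈ W₁, HolAt X' γ' w ∧ f' (γ' w) = f (γ w)) ∧
        ∀ (i : ∀ e, (L e).ι) (j : ∀ e, (L' e).ι), (∀ e, γ w₁ ∈ (L e).U (i e)) →
          (∀ e, γ' w₁ ∈ (L' e).U (j e)) →
          OrdAt a (fun e w => s e (i e) (j e) (f (γ w))) {w | f (γ w) ∉ Amin f} w₁
            (∀ w ∈ W, w 0 = 0 → f (γ w) ∈ Amin f) γ' := by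
  have hA' : Amin f = Amin f' := amin_eq (h.flip none)
  obtain ⟨r, g, hr, hs, hg, hne, hgood⟩ := tbrV (none : Option (Fin k)) hA'
    (fun l => IsFlip.symm (h.flip l))
    (fun l => IsIso.inv (IsIso.symm (h.flip l).lb (h.flip l).lb' (IsIso.lin h.iso (comb a l))))
    hW hw₀ h0 hγ hd
  refine ⟨r, g, hr, hs, hg, hne, fun w₁ hw₁ hw₁0 hgw₁ => ?_⟩
  obtain ⟨W₁, γ', κ, hW₁, hw₁W₁, hW₁W, hγ', hH⟩ := hgood w₁ hw₁ hw₁0 hgw₁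
  refine ⟨W₁, γ', hW₁, hw₁W₁, hW₁W, hγ', fun i j hi hj => ?_⟩
  choose H hHa hHs hH0 using fun l => (hH l).2 j i hj hi
  have hcγ : ContinuousOn (fun w => f (γ w)) W := fun w hw =>
    ((h.small.cont.continuousAt (x := γ w)).comp (hγ w hw).1).continuousWithinAt
  have hDo : IsOpen (W ∩ {w | f (γ w) ∉ Amin f}) :=
    hcγ.isOpen_inter_preimage hW h.small.isClosed.isOpen_compl
  have hdn := denseNear_of hW hDo hd (hW₁W hw₁W₁)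
  have hsne : ∀ᶠ w in 𝓝 w₁, w ∈ {w | f (γ w) ∉ Amin f} → w 0 ≠ 0 →
      ∀ e, s e (i e) (j e) (f (γ w)) ≠ 0 := by
    have hev : ∀ᶠ w in 𝓝 w₁, w ∈ W₁ ∧ (∀ e, γ w ∈ (L e).U (i e)) ∧ ∀ e, γ' w ∈ (L' e).U (j e) := by
      refine (hW₁.eventually_mem hw₁W₁).and (Filter.Eventually.and ?_ ?_)
      · rw [eventually_all]
        exact fun e => (hγ w₁ (hW₁W hw₁W₁)).1.eventually_mem
          (((h.lb e).isOpen (i e)).mem_nhds (hi e))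
      · rw [eventually_all]
        exact fun e => (hγ' w₁ hw₁W₁).1.1.eventually_mem
          (((h.lb' e).isOpen (j e)).mem_nhds (hj e))
    filter_upwards [hev] with w ⟨m1, m2, m3⟩ hwD _ e
    exact ((h.iso e).holo (γ w) (γ' w) (i e) (j e) hwD (hγ' w m1).2 (m2 e) (m3 e)).2
  obtain ⟨σ, hσ, hsum⟩ := ord_comb hk hw₁0 hdn (s := fun e w => s e (i e) (j e) (f (γ w))) hsne
    (κ := κ) (H := H) (fun l => (hH l).1) hHa (fun l => by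
      filter_upwards [hHs l, hW₁.eventually_mem hw₁W₁] with w hw hwW hwD _
      have h1 := hw (by rw [(hγ' w hwW).2]; exact hwD)
      simp only [inv_inv] at h1
      rwa [(hγ' w hwW).2] at h1)
  exact ⟨σ, hσ, fun x hx => ⟨(hsum x hx).1, fun hC => (hsum x hx).2 fun l => hH0 l hC⟩⟩

end Vale.Agent.P277.H615
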