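import Vale.Agent.P277.H615.Tw2
import Vale.Agent.P277.H615.R.TBrV

/-!
# P277, real coefficients: the tower of flips over a resolution `Y` of `X 0`
-/

open scoped Manifold ContDiff Topology
open Vale.Agent.P272.K Vale.Agent.P285.H281.FD Vale.Agent.P267.H175 Set Filter Metric

noncomputable section

namespace Vale.Agent.P277.H615

open Vale.Agent.P277 Vale.Agent.P277.T2 Vale.Agent.P277.H335

variable {Y : Type} [TopologicalSpace Y] [ChartedSpace (Cm 4) Y]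

section one

variable {V X Z X' : CSp} {vV : Y → V.pt} {D : Set Y} {N : Bd Y} {L : Bd X.pt} {O : Set Y}
  {v : Y → X.pt} {P Q : ℕ} {T : L.ι → N.ι → Y → ℂ} {L' : Bd X'.pt} {f : X.pt → Z.pt}
  {f' : X'.pt → Z.pt} {A : Set Z.pt} {p q : ℕ} {s : L.ι → L'.ι → Z.pt → ℂ}

theorem stT_eq' (h : IsIsoY O v (L.pow P) (N.pow Q) T) (hP : IsLBx X (L.pow P))
    (hsm' : IsSmall X' Z f' A) (hlb : IsLBx X (L.pow p))
    (hlb' : IsLBx X' (L'.pow q)) (hs : IsIso f f' A (L.pow p) (L'.pow q) s)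
    {a : X.pt → L.ι} (ha : ∀ x, x ∈ L.U (a x)) {y : Y} (hy : y ∈ O) (hyA : f (v y) ∉ A)
    {a₁ : L.ι} {b : L'.ι} {c : N.ι} (h1 : v y ∈ L.U a₁) (h2 : hsm'.sec (f (v y)) ∈ L'.U b)
    (h3 : y ∈ N.U c) : stT v f P p T s a b c y = comp1 v f P p T s a₁ b c y :=
  comp1_indep h hP hs hlb hlb' hy hyA (hsm'.sec_eq _) h1 (ha _) h2 h3

theorem iso_step' (hemb : IsOpenEmb X O v) (hP : IsLBx X (L.pow P))
    (hiso : IsIsoY O v (L.pow P) (N.pow Q) T) (hN : ∀ c, IsOpen (N.U c))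
    (hsm : IsSmall X Z f A) (hsm' : IsSmall X' Z f' A) (hlb : IsLBx X (L.pow p))
    (hlb' : IsLBx X' (L'.pow q)) (hs : IsIso f f' A (L.pow p) (L'.pow q) s)
    {a : X.pt → L.ι} (ha' : ∀ x, x ∈ L.U (a x)) :
    IsIsoY {y | y ∈ O ∧ f (v y) ∉ A} (fun y => hsm'.sec (f (v y))) (L'.pow (q * P))
      (N.pow (Q * p)) (stT v f P p T s a) := by
  set O' : Set Y := {y | y ∈ O ∧ f (v y) ∉ A} with hO'
  set v' : Y → X'.pt := fun y => hsm'.sec (f (v y)) with hv'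
  have hf'v' : ∀ y, f' (v' y) = f (v y) := fun y => hsm'.sec_eq _
  set T' : L'.ι → N.ι → Y → ℂ := stT v f P p T s a with hT'
  have hembX' : IsOpenEmb X' O' v' := hemb.flip hsm hsm'
  have hindep : ∀ y ∈ O', ∀ (a₁ : L.ι) (b : L'.ι) (c : N.ι), v y ∈ L.U a₁ → v' y ∈ L'.U b →
      y ∈ N.U c → T' b c y = comp1 v f P p T s a₁ b c y := fun y hy a₁ b c h1 h2 h3 =>
    stT_eq' hiso hP hsm' hlb hlb' hs ha' hy.1 hy.2 h1 h2 h3
  refine ⟨?_, ?_⟩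
  · intro y hy b c e he hb hc
    have hb' : v' y ∈ L'.U b := hb
    have hc' : y ∈ N.U c := hc
    have h1 := hiso.holo y hy.1 (a (v y)) c e he (ha' _) hc'
    have h2 := hs.holo (v y) (v' y) (a (v y)) b hy.2 (hf'v' y) (ha' _) hb'
    have h3 : AnalyticAt ℂ (fun z => s (a (v y)) b (f (v (e.symm z)))) (e y) :=
      (hemb.hol_iff hy.1 he).1 (hsm.holo _ _ h2.1)
    have h3' : s (a (v y)) b (f (v (e.symm (e y)))) ≠ 0 := by rw [e.left_inv he.2]; exact h2.2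
    refine ⟨?_, ?_⟩
    · have h4 : AnalyticAt ℂ (fun z => comp1 v f P p T s (a (v y)) b c (e.symm z)) (e y) :=
        (h1.1.pow p).div (h3.pow P) (pow_ne_zero _ h3')
      refine h4.congr ?_
      have h5 : ContinuousAt e.symm (e y) := e.continuousAt_symm (e.map_source he.2)
      have h6 : ContinuousAt (fun z => v (e.symm z)) (e y) := by
        refine ContinuousAt.comp (g := v) ?_ h5
        rw [e.left_inv he.2]; exact hemb.continuousAt hy.1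
      have h7 : ContinuousAt (fun z => v' (e.symm z)) (e y) := by
        refine ContinuousAt.comp (g := v') ?_ h5
        rw [e.left_inv he.2]; exact hembX'.continuousAt hy
      have e1 : ∀ᶠ z in 𝓝 (e y), e.symm z ∈ O' := h5.eventually_mem (by
        rw [e.left_inv he.2]; exact hembX'.isOpen.mem_nhds hy)
      have e2 : ∀ᶠ z in 𝓝 (e y), v (e.symm z) ∈ L.U (a (v y)) := h6.eventually_mem (by
        rw [e.left_inv he.2]; exact (hlb.isOpen _).mem_nhds (ha' _))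
      have e3 : ∀ᶠ z in 𝓝 (e y), v' (e.symm z) ∈ L'.U b := h7.eventually_mem (by
        rw [e.left_inv he.2]; exact (hlb'.isOpen _).mem_nhds hb')
      have e4 : ∀ᶠ z in 𝓝 (e y), e.symm z ∈ N.U c := h5.eventually_mem (by
        rw [e.left_inv he.2]; exact (hN c).mem_nhds hc')
      filter_upwards [e1, e2, e3, e4] with z z1 z2 z3 z4
      exact (hindep _ z1 _ b c z2 z3 z4).symm
    · exact div_ne_zero (pow_ne_zero _ h1.2) (pow_ne_zero _ h2.2)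
  · intro y hy b b₁ c c₁ hb hb₁ hc hc₁
    have hb' : v' y ∈ L'.U b := hb
    have hb₁' : v' y ∈ L'.U b₁ := hb₁
    have k1 : T (a (v y)) c₁ y = L.g (a (v y)) (a (v y)) (v y) ^ P * T (a (v y)) c y *
        N.g c₁ c y ^ Q := hiso.change y hy.1 _ _ c c₁ (ha' _) (ha' _) hc hc₁
    have k2 : L.g (a (v y)) (a (v y)) (v y) ^ P = 1 := lb_self hP (ha' _)
    have k3 : s (a (v y)) b₁ (f (v y)) = L.g (a (v y)) (a (v y)) (v y) ^ p *
        s (a (v y)) b (f (v y)) * L'.g b₁ b (v' y) ^ q :=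
      hs.change (v y) (v' y) _ _ b b₁ hy.2 (hf'v' y) (ha' _) (ha' _) hb' hb₁'
    have k4 : L.g (a (v y)) (a (v y)) (v y) ^ p = 1 := lb_self hlb (ha' _)
    have k5 : L'.g b b₁ (v' y) ^ q * L'.g b₁ b (v' y) ^ q = L'.g b b (v' y) ^ q :=
      hlb'.cocycle b b₁ b _ hb' hb₁' hb'
    have k6 : L'.g b b (v' y) ^ q = 1 := lb_self hlb' hb'
    have k7 : s (a (v y)) b (f (v y)) ≠ 0 :=
      (hs.holo (v y) (v' y) (a (v y)) b hy.2 (hf'v' y) (ha' _) hb').2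
    have k8 : L'.g b₁ b (v' y) ^ q ≠ 0 := hlb'.ne_zero b₁ b _ hb₁' hb'
    rw [k6] at k5
    rw [k2, one_mul] at k1
    rw [k4, one_mul] at k3
    show T (a (v y)) c₁ y ^ p / s (a (v y)) b₁ (f (v y)) ^ P =
      L'.g b b₁ (v' y) ^ (q * P) * (T (a (v y)) c y ^ p / s (a (v y)) b (f (v y)) ^ P) *
        N.g c₁ c y ^ (Q * p)
    rw [k1, k3, pow_mul, pow_mul, mul_pow, mul_pow]
    have k9 : L'.g b b₁ (v' y) ^ q = (L'.g b₁ b (v' y) ^ q)⁻¹ := eq_inv_of_mul_eq_one_left k5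
    rw [k9]
    generalize L'.g b₁ b (v' y) ^ q = u at *
    generalize N.g c₁ c y ^ Q = w at *
    generalize T (a (v y)) c y ^ p = r at *
    generalize s (a (v y)) b (f (v y)) ^ P = r' at *
    rw [inv_pow]
    have k10 : u ^ P ≠ 0 := pow_ne_zero _ k8
    generalize u ^ P = u' at *
    generalize w ^ p = w' at *
    by_cases hr : r' = 0
    · simp [hr]
    · field_simp

/-- The step for `Tw0`. -/
theorem Tw0.step' (hN : ∀ c, IsOpen (N.U c)) (hvV : IsOpenEmb V univ vV)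
    (h : Tw0 vV D N X L O v P Q T) (hp : 1 ≤ p) (hq : 1 ≤ q)
    (hsm : IsSmall X Z f A) (hsm' : IsSmall X' Z f' A) (hlb : IsLBx X (L.pow p))
    (hlb' : IsLBx X' (L'.pow q)) (hs : IsIso f f' A (L.pow p) (L'.pow q) s)
    {a : X.pt → L.ι} (ha : ∀ x, x ∈ L.U (a x)) :
    Tw0 vV D N X' L' {y | y ∈ O ∧ f (v y) ∉ A} (fun y => hsm'.sec (f (v y))) (q * P) (Q * p)
      (stT v f P p T s a) where
  emb := h.emb.flip hsm hsm'
  dim := dimLe_compl_flip hsm hsm' h.dim hsm'.dim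
  sub := fun y hy => h.sub hy.1
  thin := thin_step hvV h.emb h.thin hsm.dim
  hP := Nat.mul_pos hq h.hP
  hQ := Nat.mul_pos h.hQ hp
  lb := lb_pow hlb' P
  iso := iso_step' h.emb h.lb h.iso hN hsm hsm' hlb hlb' hs ha

end one

/-- Wedges of `X` lift to `Y`; the functions `T e` have orders `q e` along the wedge, with
`0 ≤ ∑ e, ρ e * q e`, and `0 < ∑ e, ρ e * q e` if the wedge is centred in `S`. -/
def ChainV {k : ℕ} (N : Fin k → Bd Y) (X : CSp) (L : Fin k → Bd X.pt) (O : Set Y) (v : Y → X.pt)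
    (T : ∀ e, (L e).ι → (N e).ι → Y → ℂ) (ρ : Fin k → ℝ) (S : Set X.pt) : Prop :=
  ∀ (W : Set (Cm 4)) (w₀ : Cm 4) (γ' : Cm 4 → X.pt) (i : ∀ e, (L e).ι), IsOpen W → w₀ ∈ W →
    w₀ 0 = 0 → (∀ w ∈ W, HolAt X γ' w) → W ⊆ closure {w | w ∈ W ∧ γ' w ∈ v '' O} →
    (∀ w ∈ W, ∀ e, γ' w ∈ (L e).U (i e)) →
    ∃ w₁ ∈ W, w₁ 0 = 0 ∧ ∃ (W₁ : Set (Cm 4)) (γ₀ : Cm 4 → Y) (ch : Chart 4 Y)
      (c : ∀ e, (N e).ι) (q : Fin k → ℚ), IsOpen W₁ ∧ w₁ ∈ W₁ ∧ W₁ ⊆ W ∧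
      (∀ w ∈ W₁, ContinuousAt γ₀ w ∧ At ch (γ₀ w) ∧ AnalyticAt ℂ (fun w => ch (γ₀ w)) w ∧
        ∀ e, γ₀ w ∈ (N e).U (c e)) ∧
      (∀ w ∈ W₁, γ' w ∈ v '' O → γ₀ w ∈ O) ∧ (∀ w ∈ W₁, γ₀ w ∈ O → v (γ₀ w) = γ' w) ∧
      (∀ e, HasOrd {w | γ₀ w ∈ O} w₁ (fun w => T e (i e) (c e) (γ₀ w)) (q e)) ∧
      0 ≤ ∑ e, ρ e * q e ∧ ((∀ w ∈ W, w 0 = 0 → γ' w ∈ S) → 0 < ∑ e, ρ e * q e)

/-- the data on a space `X` obtained from `X₀` by flips -/
structure TwV {k : ℕ} {V : CSp} (vV : Y → V.pt) (D : Set Y) (N : Fin k → Bd Y) (X : CSp)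
    (L : Fin k → Bd X.pt) (c : Fin k → ℕ) (O : Set Y) (v : Y → X.pt) (P Q : Fin k → ℕ)
    (T : ∀ e, (L e).ι → (N e).ι → Y → ℂ) (ρ : Fin k → ℝ) (S : Set X.pt) : Prop where
  tw : ∀ e, Tw0 vV D (N e) X (L e) O v (P e) (Q e) (T e)
  lb : ∀ e, IsLBx X (L e)
  mult : ∀ e, c e * P e = Q e
  chain : ChainV N X L O v T (fun e => ρ e / Q e) S

section

variable {k : ℕ} {V X Z X' : CSp} {vV : Y → V.pt} {D : Set Y} {N : Fin k → Bd Y}
  {L : Fin k → Bd X.pt} {L' : Fin k → Bd X'.pt} {c c' : Fin k → ℕ} {O : Set Y}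
  {v : Y → X.pt} {P Q : Fin k → ℕ} {T : ∀ e, (L e).ι → (N e).ι → Y → ℂ} {ρ : Fin k → ℝ}
  {S : Set X.pt} {f : X.pt → Z.pt} {f' : X'.pt → Z.pt} {p q : Fin k → ℕ}
  {s : ∀ e, (L e).ι → (L' e).ι → Z.pt → ℂ} {a : Fin k → ℤ}

/-- the change of the weighted sum of the orders under a flip -/
theorem sum_step {d : ℕ} (hd : 1 ≤ d) (hP : ∀ e, 1 ≤ P e) (hQ : ∀ e, 1 ≤ Q e)
    (hp : ∀ e, 1 ≤ p e) (hmult : ∀ e, c e * P e = Q e) (ρ : Fin k → ℝ) (x σ : Fin k → ℚ) :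
    ∑ e, ρ e / ((Q e * p e : ℕ) : ℝ) * ((x e * p e - σ e * P e : ℚ) : ℝ) =
      ∑ e, ρ e / Q e * x e - (∑ e, d * (ρ e / (c e * p e)) * σ e) / d := by
  have hd0 : (d : ℝ) ≠ 0 := by exact_mod_cast (Nat.one_le_iff_ne_zero.1 hd)
  rw [Finset.sum_div, ← Finset.sum_sub_distrib]
  refine Finset.sum_congr rfl fun e _ => ?_
  have h1 : (P e : ℝ) ≠ 0 := by exact_mod_cast (Nat.one_le_iff_ne_zero.1 (hP e))
  have h2 : (Q e : ℝ) ≠ 0 := by exact_mod_cast (Nat.one_le_iff_ne_zero.1 (hQ e))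
  have h3 : (p e : ℝ) ≠ 0 := by exact_mod_cast (Nat.one_le_iff_ne_zero.1 (hp e))
  have h4 : (c e : ℝ) * P e = Q e := by exact_mod_cast hmult e
  have h5 : (c e : ℝ) ≠ 0 := fun h => h2 (by rw [← h4, h, zero_mul])
  push_cast
  rw [← h4]
  field_simp

/-- The step: from the tower on `X` to the tower on `X'`. -/
theorem TwV.step (hk : 1 ≤ k) (hN : ∀ e c, IsOpen ((N e).U c)) (hvV : IsOpenEmb V univ vV)
    (h : TwV vV D N X L c O v P Q T ρ S) (hf : FlipD f f' L L' p q s a) {d : ℕ} (hd : 1 ≤ d)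
    (hc : ∀ e, c e * p e = c' e * q e)
    (hda : ∀ e, (a e : ℝ) ≤ d * (ρ e / (c e * p e)) ∧ d * (ρ e / (c e * p e)) ≤ a e + 1)
    {b : ∀ e, X.pt → (L e).ι} (hb : ∀ e x, x ∈ (L e).U (b e x)) :
    TwV vV D N X' L' c' {y | y ∈ O ∧ f (v y) ∉ Amin f} (fun y => hf.small'.sec (f (v y)))
      (fun e => q e * P e) (fun e => Q e * p e)
      (fun e => stT v f (P e) (p e) (T e) (s e) (b e)) ρ (f' ⁻¹' Amin f) where
  tw e := (h.tw e).step' (hN e) hvV (hf.hp e) (hf.hq e) hf.small hf.small'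
    (IsLBx.pow (hf.lb e) _) (IsLBx.pow (hf.lb' e) _) (hf.iso e) (hb e)
  lb := hf.lb'
  mult e := by
    calc c' e * (q e * P e) = (c' e * q e) * P e := by ring
      _ = (c e * p e) * P e := by rw [← hc e]
      _ = (c e * P e) * p e := by ring
      _ = Q e * p e := by rw [h.mult e]
  chain := by
    intro W w₀ γ' j hW hw₀ hw₀0 hγ' hdd hj
    set O' : Set Y := {y | y ∈ O ∧ f (v y) ∉ Amin f} with hO'
    set v' : Y → X'.pt := fun y => hf.small'.sec (f (v y)) with hv'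
    have hf'v' : ∀ y, f' (v' y) = f (v y) := fun y => hf.small'.sec_eq _
    have hd' : W ⊆ closure {w | w ∈ W ∧ f' (γ' w) ∉ Amin f} := by
      refine hdd.trans (closure_mono ?_)
      rintro w ⟨hw, y, hy, hyw⟩
      refine ⟨hw, ?_⟩
      rw [← hyw]
      exact (hf'v' y).symm ▸ hy.2
    obtain ⟨r, g, hr, hs, hg, ⟨w₁, hw₁, hw₁0, hgw₁⟩, hgood⟩ := hf.down hk hW hw₀ hw₀0 hγ' hd'
    obtain ⟨W₁, γ, hW₁, hw₁W₁, hW₁W, hγ, hord⟩ := hgood w₁ hw₁ hw₁0 hgw₁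
    choose i hi using fun e => (hf.lb e).cover (γ w₁)
    obtain ⟨σ, hσ, hsum⟩ := hord i j hi (hj w₁ (hW₁W hw₁W₁))
    have hev : ∀ᶠ w in 𝓝 w₁, w ∈ W₁ ∧ (∀ e, γ w ∈ (L e).U (i e)) ∧ ∀ e, w 0 = 0 →
        HasOrd {w | f (γ w) ∉ Amin f} w (fun w => s e (i e) (j e) (f (γ w))) (σ e) := by
      refine (hW₁.eventually_mem hw₁W₁).and (Filter.Eventually.and ?_ ?_)
      · rw [eventually_all]
        exact fun e => (hγ w₁ hw₁W₁).1.1.eventually_mem (((hf.lb e).isOpen (i e)).mem_nhds (hi e))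
      · rw [eventually_all]
        exact fun e => (hσ e).eventually hw₁0
    obtain ⟨W₂, hW₂s, hW₂, hw₁W₂⟩ := _root_.mem_nhds_iff.1 hev
    have key : ∀ w ∈ W₁, ∀ y ∈ O', v' y = γ' w → γ w = v y := by
      intro w hw y hy hyw
      have h1 : f (γ w) = f (v y) := by rw [(hγ w hw).2, ← hyw, hf'v']
      exact hf.small.inj _ _ hy.2 h1
    have hd₁ : W₂ ⊆ closure {w | w ∈ W₂ ∧ γ w ∈ v '' O} := by
      refine (subset_closure_of_open (D := {w | γ' w ∈ v' '' O'}) hW₂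
        (fun w hw => hW₁W (hW₂s hw).1) hdd).trans (closure_mono ?_)
      rintro w ⟨hw, y, hy, hyw⟩
      exact ⟨hw, y, hy.1, (key w (hW₂s hw).1 y hy hyw).symm⟩
    obtain ⟨w₂, hw₂W, hw₂0, W₃, γ₀, ch, c₀, x, hW₃, hw₂, hW₃W, hγ₀, hO1, hO2, hT, hx0, -⟩ :=
      h.chain W₂ w₁ γ i hW₂ hw₁W₂ hw₁0 (fun w hw => (hγ w (hW₂s hw).1).1) hd₁
        (fun w hw => (hW₂s hw).2.1)
    have hO2' : ∀ w ∈ W₃, γ₀ w ∈ O' → v' (γ₀ w) = γ' w := by
      intro w hw hy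
      have h1 : v (γ₀ w) = γ w := hO2 w hw hy.1
      have h2 := (hW₂s (hW₃W hw)).1
      refine hf.small'.inj _ _ ?_ ?_
      · rw [← (hγ w h2).2, ← h1]; exact hy.2
      · rw [hf'v', h1, (hγ w h2).2]
    have hD' : ∀ᶠ w in 𝓝 w₂, w ∈ {w | γ₀ w ∈ O'} →
        w ∈ {w | γ₀ w ∈ O} ∧ w ∈ {w | f (γ w) ∉ Amin f} := by
      filter_upwards [hW₃.mem_nhds hw₂] with w hw hwO
      refine ⟨hwO.1, ?_⟩
      show f (γ w) ∉ Amin f
      rw [← hO2 w hw hwO.1]; exact hwO.2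
    have hsne : ∀ e, ∀ᶠ w in 𝓝 w₂, w ∈ {w | γ₀ w ∈ O'} → w 0 ≠ 0 →
        s e (i e) (j e) (f (γ w)) ≠ 0 := by
      intro e
      filter_upwards [hD', hW₃.mem_nhds hw₂] with w hw hwW hwO _
      have h2 := hW₂s (hW₃W hwW)
      exact ((hf.iso e).holo (γ w) (γ' w) (i e) (j e) (hw hwO).2 (hγ w h2.1).2.symm (h2.2.1 e)
        (hj w (hW₁W h2.1) e)).2
    refine ⟨w₂, hW₁W (hW₂s hw₂W).1, hw₂0, W₃, γ₀, ch, c₀, fun e => x e * p e - σ e * P e, hW₃, hw₂,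
      fun w hw => hW₁W (hW₂s (hW₃W hw)).1, hγ₀, ?_, hO2', ?_, ?_⟩
    · rintro w hw ⟨y, hy, hyw⟩
      have h1 : γ w = v y := key w (hW₂s (hW₃W hw)).1 y hy hyw
      have h2 : γ₀ w ∈ O := hO1 w hw ⟨y, hy.1, h1.symm⟩
      have h3 : γ₀ w = y := (h.tw ⟨0, hk⟩).emb.inj h2 hy.1 (by rw [hO2 w hw h2, h1])
      rw [h3]; exact hy
    · intro e
      have h1 := ((hT e).pow (p e)).mono (hD'.mono fun w hw hwO => (hw hwO).1)
      have h2 := (((hW₂s hw₂W).2.2 e hw₂0).mono (hD'.mono fun w hw hwO => (hw hwO).2)).pow (P e)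
      have h3 := h1.mul hw₂0 (h2.inv ((hsne e).mono fun w hw m1 m2 => pow_ne_zero _ (hw m1 m2)))
      rw [← sub_eq_add_neg] at h3
      refine h3.congr ?_
      filter_upwards [hW₃.mem_nhds hw₂] with w hw hwO _
      have h4 : v (γ₀ w) = γ w := hO2 w hw hwO.1
      have h5 := hW₂s (hW₃W hw)
      have h6 := stT_eq' (h.tw e).iso (h.tw e).lb hf.small' (IsLBx.pow (hf.lb e) (p e))
        (IsLBx.pow (hf.lb' e) (q e)) (hf.iso e) (hb e) hwO.1 hwO.2 (a₁ := i e) (b := j e)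
        (c := c₀ e) (by rw [h4]; exact h5.2.1 e)
        (by
          have h7 : hf.small'.sec (f (v (γ₀ w))) = γ' w := hO2' w hw hwO
          rw [h7]; exact hj w (hW₁W h5.1) e) ((hγ₀ w hw).2.2.2 e)
      rw [h6]
      show T e (i e) (c₀ e) (γ₀ w) ^ p e / s e (i e) (j e) (f (v (γ₀ w))) ^ P e = _
      rw [h4, div_eq_mul_inv]
    · have h1 := sum_step (c := c) hd (fun e => (h.tw e).hP) (fun e => (h.tw e).hQ) hf.hp h.mult ρ
        x σ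
      have h2 := hsum (fun e => d * (ρ e / (c e * p e))) hda
      have hd0 : (0 : ℝ) < d := by exact_mod_cast hd
      rw [h1]
      refine ⟨?_, fun hC => ?_⟩
      · have h3 := div_nonpos_of_nonpos_of_nonneg h2.1 hd0.le
        linarith
      · have h3 := div_neg_of_neg_of_pos (h2.2 hC) hd0
        linarith

end

end Vale.Agent.P277.H615
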