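import Vale.Agent.P277.H615.Nice
import Vale.Agent.P277.H615.R.ChainV

/-!
# P277, real coefficients: the vector of orders along an exceptional divisor
-/

open scoped Manifold ContDiff Topology
open Vale.Agent.P272.K Vale.Agent.P285.H281.FD Vale.Agent.P267.H175 Set Filter Metric

noncomputable section

namespace Vale.Agent.P277.H615

open Vale.Agent.P277 Vale.Agent.P277.T2 Vale.Agent.P277.H335
open Vale.Agent.P277.H19 (exists_div)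

/-- change of coordinates -/
theorem HasOrd.comp {D : Set (Cm 4)} {w₁ w₂ : Cm 4} {τ : Cm 4 → ℂ} {q : ℚ}
    (h : HasOrd D w₂ τ q) {ψ ψ' : Cm 4 → Cm 4} {C : ℝ} (h1 : w₁ 0 = 0)
    (hψ : AnalyticAt ℂ ψ w₁) (hψ0 : ψ w₁ = w₂)
    (hb : ∀ᶠ w in 𝓝 w₁, ‖ψ w 0‖ ≤ C * ‖w 0‖ ∧ ‖w 0‖ ≤ C * ‖ψ w 0‖)
    (hψ' : Tendsto ψ' (𝓝 w₂) (𝓝 w₁)) (hψψ : ∀ᶠ w in 𝓝 w₂, ψ (ψ' w) = w ∧ (w 0 = 0 → ψ' w 0 = 0)) :
    HasOrd (ψ ⁻¹' D) w₁ (fun w => τ (ψ w)) q := by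
  have ht : Tendsto ψ (𝓝 w₁) (𝓝 w₂) := by
    have := hψ.continuousAt.tendsto
    rwa [hψ0] at this
  have hz : ∀ᶠ w in 𝓝 w₁, w 0 = 0 → ψ w 0 = 0 := by
    filter_upwards [hb] with w hw h0
    have := hw.1
    rw [h0, norm_zero, mul_zero] at this
    exact norm_le_zero_iff.1 this
  obtain ⟨g, hg, hgψ⟩ := exists_div ((analyticAt_pi_iff.1 hψ) 0) h1 hz
  have hg0 : g w₁ ≠ 0 := by
    intro hg0
    have h2 : ∀ᶠ w in 𝓝 w₁, C * ‖g w‖ < 1 := by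
      have h3 : ContinuousAt (fun w => C * ‖g w‖) w₁ := continuousAt_const.mul hg.continuousAt.norm
      refine h3.eventually_lt_const ?_
      simp [hg0]
    obtain ⟨w, ⟨h3, h4, h5⟩, hw0⟩ := H19.exists_ne_zero (h2.and (hgψ.and hb))
    have h6 := h5.2
    rw [h4, norm_mul] at h6
    have h7 : 0 < ‖w 0‖ := norm_pos_iff.2 hw0
    nlinarith
  have hgne := hg.continuousAt.eventually_ne hg0
  have hfreq : ∀ {A : Cm 4 → ℂ}, (∃ᶠ w in 𝓝 w₂, w 0 = 0 ∧ A w ≠ 0) →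
      ∃ᶠ w in 𝓝 w₁, w 0 = 0 ∧ A (ψ w) ≠ 0 := by
    intro A hA
    have h3 : ∃ᶠ w in 𝓝 w₂, ψ' w 0 = 0 ∧ A (ψ (ψ' w)) ≠ 0 :=
      (hA.and_eventually hψψ).mono fun w hw => ⟨hw.2.2 hw.1.1, by rw [hw.2.1]; exact hw.1.2⟩
    exact hψ'.frequently h3
  obtain ⟨K, ν, A, B, g1, g2, g3, g4, g5, g6, g7⟩ := h
  have hA : AnalyticAt ℂ (fun w => A (ψ w)) w₁ :=
    AnalyticAt.fun_comp (g := A) (by rw [hψ0]; exact g3) hψ
  have hB : AnalyticAt ℂ (fun w => B (ψ w)) w₁ :=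
    AnalyticAt.fun_comp (g := B) (by rw [hψ0]; exact g4) hψ
  have hgν : AnalyticAt ℂ (fun w => g w ^ ν) w₁ := hg.zpow hg0
  refine ⟨K, ν, fun w => g w ^ ν * A (ψ w), fun w => B (ψ w), g1, g2, hgν.mul hA, hB, ?_,
    hfreq g6, ?_⟩
  · exact ((hfreq g5).and_eventually hgne).mono fun w hw =>
      ⟨hw.1.1, mul_ne_zero (zpow_ne_zero _ hw.2) hw.1.2⟩
  · filter_upwards [ht.eventually g7, hgψ, hgne] with w m1 m2 m3 hwD hw0
    have m4 : ψ w 0 = w 0 * g w := m2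
    have m5 : ψ w 0 ≠ 0 := by rw [m4]; exact mul_ne_zero hw0 m3
    rw [m1 hwD m5, m4, mul_zpow]
    ring

variable {Y : Type} [TopologicalSpace Y] [ChartedSpace (Cm 4) Y]

/-- `ξ` is a parametrisation of `Y` and `G`, `γ` is the extension of the map `v ∘ ξ`, and the
functions `T e`, in the frames `i` and `c`, have the orders `q e` along `G`. -/
structure NiceAtV {k : ℕ} {X : CSp} {N : Fin k → Bd Y} {L : Fin k → Bd X.pt} (O : Set Y)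
    (v : Y → X.pt) (T : ∀ e, (L e).ι → (N e).ι → Y → ℂ) (G : Set Y) (ξ : Cm 4 → Y) (w₀ : Cm 4)
    (r : ℝ) (γ : Cm 4 → X.pt) (i : ∀ e, (L e).ι) (c : ∀ e, (N e).ι) (q : Fin k → ℚ) : Prop where
  par : IsPar G ξ w₀ r
  hol : ∀ w ∈ ball w₀ r, HolAt X γ w
  memU : ∀ w ∈ ball w₀ r, ∀ e, γ w ∈ (L e).U (i e)
  memN : ∀ w ∈ ball w₀ r, ∀ e, ξ w ∈ (N e).U (c e)
  eq : ∀ w ∈ ball w₀ r, ξ w ∈ O → γ w = v (ξ w)
  ord : ∀ w ∈ ball w₀ r, w 0 = 0 → ∀ e,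
    HasOrd {w | ξ w ∈ O} w (fun w => T e (i e) (c e) (ξ w)) (q e)

theorem _root_.Vale.Agent.P277.T2.IsPar.denseNear {G O : Set Y} {ξ : Cm 4 → Y} {w₀ : Cm 4} {r : ℝ}
    (h : IsPar G ξ w₀ r) (hO : Dense O) (hOG : Disjoint O G) {w : Cm 4} (hw : w ∈ ball w₀ r) :
    DenseNear {w | ξ w ∈ O} w := by
  filter_upwards [isOpen_ball.mem_nhds hw] with z hz
  rw [mem_closure_iff_nhds]
  intro U hU
  obtain ⟨w', k1, k2, k3⟩ := IsPar.dense h hO hz hU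
  exact ⟨w', k1, k3, fun h0 => disjoint_left.1 hOG k3 ((h.mem w' k2).2 h0)⟩

section

variable {k : ℕ} {V X Z X' : CSp} {vV : Y → V.pt} {D : Set Y} {N : Fin k → Bd Y}
  {L : Fin k → Bd X.pt} {L' : Fin k → Bd X'.pt} {c c' : Fin k → ℕ} {O : Set Y}
  {v : Y → X.pt} {P Q : Fin k → ℕ} {T : ∀ e, (L e).ι → (N e).ι → Y → ℂ} {ρ : Fin k → ℝ}
  {S : Set X.pt} {f : X.pt → Z.pt} {f' : X'.pt → Z.pt} {p q : Fin k → ℕ}
  {s : ∀ e, (L e).ι → (L' e).ι → Z.pt → ℂ} {a : Fin k → ℤ}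
  {G : Set Y} {ξ ξ' : Cm 4 → Y} {w₀ w₀' : Cm 4} {r r' : ℝ} {γ γ' : Cm 4 → X.pt}
  {i i' : ∀ e, (L e).ι} {n n' : ∀ e, (N e).ι} {x x' : Fin k → ℚ}

theorem NiceAtV.restrict (h : NiceAtV O v T G ξ w₀ r γ i n x) {w₁ : Cm 4} {r₁ : ℝ}
    (h0 : w₁ 0 = 0) (hr : 0 < r₁) (hs : ball w₁ r₁ ⊆ ball w₀ r) :
    NiceAtV O v T G ξ w₁ r₁ γ i n x where
  par := h.par.restrict h0 hr hs
  hol w hw := h.hol w (hs hw)
  memU w hw := h.memU w (hs hw)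
  memN w hw := h.memN w (hs hw)
  eq w hw := h.eq w (hs hw)
  ord w hw := h.ord w (hs hw)

theorem NiceAtV.at (h : NiceAtV O v T G ξ w₀ r γ i n x) {w : Cm 4} (hw : w ∈ ball w₀ r)
    (hG : ξ w ∈ G) : ∃ r₁, ball w r₁ ⊆ ball w₀ r ∧ NiceAtV O v T G ξ w r₁ γ i n x := by
  obtain ⟨r₁, hr₁, hs⟩ := Metric.isOpen_iff.1 isOpen_ball w hw
  exact ⟨r₁, hs, h.restrict ((h.par.mem w hw).1 hG) hr₁ hs⟩

theorem NiceAtV.isOpen_image (h : NiceAtV O v T G ξ w₀ r γ i n x) : IsOpen (ξ '' ball w₀ r) :=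
  h.par.openMap _ subset_rfl isOpen_ball

theorem T_ne (h : TwV vV D N X L c O v P Q T ρ S) {y : Y} (hy : y ∈ O) (e : Fin k)
    (hi : v y ∈ (L e).U (i e)) (hn : y ∈ (N e).U (n e)) : T e (i e) (n e) y ≠ 0 :=
  ((h.tw e).iso.holo y hy (i e) (n e) _ (H19.at_chartAt y) hi hn).2

/-- uniqueness of the orders -/
theorem NiceAtV.unique (hO : Dense O) (hOG : Disjoint O G) (hTw : TwV vV D N X L c O v P Q T ρ S)
    (hN : ∀ e, CtBd (N e))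
    (h : NiceAtV O v T G ξ w₀ r γ i n x) (h' : NiceAtV O v T G ξ' w₀' r' γ' i' n' x')
    (heq : ξ w₀ = ξ' w₀') : x = x' := by
  have hw₀ : w₀ ∈ ball w₀ r := mem_ball_self h.par.pos
  have hw₀' : w₀' ∈ ball w₀' r' := mem_ball_self h'.par.pos
  obtain ⟨ψ, C, hψ, hψ0, hψξ, hC, hb⟩ := exists_trans' h.par h'.par heq
  obtain ⟨ψ', C', hψ', hψ0', hψξ', hC', hb'⟩ := exists_trans' h'.par h.par heq.symm
  have htψ : Tendsto ψ (𝓝 w₀) (𝓝 w₀') := by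
    have := hψ.continuousAt.tendsto
    rwa [hψ0] at this
  have htψ' : Tendsto ψ' (𝓝 w₀') (𝓝 w₀) := by
    have := hψ'.continuousAt.tendsto
    rwa [hψ0'] at this
  have h1 : ∀ᶠ w in 𝓝 w₀', ψ (ψ' w) = w ∧ (w 0 = 0 → ψ' w 0 = 0) := by
    have h2 : Tendsto (fun w => ψ (ψ' w)) (𝓝 w₀') (𝓝 w₀') := htψ.comp htψ'
    filter_upwards [h2.eventually (isOpen_ball.mem_nhds hw₀'), isOpen_ball.mem_nhds hw₀',
      hψξ', htψ'.eventually hψξ, hb'] with w k1 k2 k3 k4 k5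
    refine ⟨h'.par.inj k1 k2 (by rw [k4, k3]), fun h0 => ?_⟩
    have := k5.1
    rw [h0, norm_zero, mul_zero] at this
    exact norm_le_zero_iff.1 this
  -- near `w₀`
  have hev : ∀ᶠ w in 𝓝 w₀, w ∈ ball w₀ r ∧ ψ w ∈ ball w₀' r' ∧ ξ' (ψ w) = ξ w ∧
      ContinuousAt ψ w := by
    filter_upwards [isOpen_ball.mem_nhds hw₀, htψ.eventually (isOpen_ball.mem_nhds hw₀'), hψξ,
      hψ.eventually_analyticAt] with w k1 k2 k3 k4
    exact ⟨k1, k2, k3, k4.continuousAt⟩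
  obtain ⟨W, hWs, hW, hw₀W⟩ := _root_.mem_nhds_iff.1 hev
  have hag : ∀ w ∈ W, γ w = γ' (ψ w) := by
    refine eqOn_of_closure (D := {w | ξ w ∈ O}) hW (fun w hw => (h.hol w (hWs hw).1).1)
      (fun w hw => ContinuousAt.comp (g := γ') (f := ψ) (h'.hol _ (hWs hw).2.1).1 (hWs hw).2.2.2)
      ?_ ?_
    · intro w hw
      rw [mem_closure_iff_nhds]
      intro U hU
      obtain ⟨w', k1, k2, k3⟩ := IsPar.dense h.par hO (hWs hw).1 (inter_mem hU (hW.mem_nhds hw))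
      exact ⟨w', k1.1, k1.2, k3⟩
    · intro w hw hwO
      obtain ⟨g1, g2, g3, -⟩ := hWs hw
      rw [h.eq w g1 hwO, h'.eq (ψ w) g2 (by rw [g3]; exact hwO), g3]
  funext e
  have hord := h.ord w₀ hw₀ h.par.zero e
  have hord' := (h'.ord w₀' hw₀' h'.par.zero e).comp (C := C) h.par.zero hψ hψ0 hb htψ' h1
  refine hord.unique' (τ' := fun w => T e (i' e) (n' e) (ξ' (ψ w))) h.par.zero
    (h.par.denseNear hO hOG hw₀) ?_ ?_
    (u := fun w => (L e).g (i e) (i' e) (γ w) ^ P e * (N e).g (n' e) (n e) (ξ w) ^ Q e) ?_ ?_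
  · filter_upwards [isOpen_ball.mem_nhds hw₀] with w hw hwO _
    refine T_ne hTw hwO e ?_ (h.memN w hw e)
    rw [← h.eq w hw hwO]; exact h.memU w hw e
  · refine hord'.mono ?_
    filter_upwards [hW.mem_nhds hw₀W] with w hw hwO
    show ξ' (ψ w) ∈ O
    rw [(hWs hw).2.2.1]; exact hwO
  · filter_upwards [hW.mem_nhds hw₀W] with w hw
    obtain ⟨g1, g2, g3, g4⟩ := hWs hw
    have k1 : γ w ∈ (L e).U (i' e) := by rw [hag w hw]; exact h'.memU _ g2 e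
    have k2 : ξ w ∈ (N e).U (n' e) := by rw [← g3]; exact h'.memN _ g2 e
    have k3 := (hTw.lb e).holo (i e) (i' e) (γ w) (h.memU w g1 e) k1
    have k4 : ContinuousAt (fun w => (L e).g (i e) (i' e) (γ w)) w :=
      ((h.hol w g1).analyticAt k3).continuousAt
    have k5 : ContinuousAt (fun w => (N e).g (n' e) (n e) (ξ w)) w :=
      ContinuousAt.comp (g := (N e).g (n' e) (n e)) ((hN e).cont _ _ _ k2 (h.memN w g1 e))
        (h.par.cont w g1)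
    exact ⟨(k4.pow _).mul (k5.pow _), mul_ne_zero (pow_ne_zero _ ((hTw.lb e).ne_zero _ _ _
      (h.memU w g1 e) k1)) (pow_ne_zero _ ((hN e).ne_zero _ _ _ k2 (h.memN w g1 e)))⟩
  · filter_upwards [hW.mem_nhds hw₀W] with w hw hwO _
    obtain ⟨g1, g2, g3, g4⟩ := hWs hw
    have k1 : γ w ∈ (L e).U (i' e) := by rw [hag w hw]; exact h'.memU _ g2 e
    have k2 : ξ w ∈ (N e).U (n' e) := by rw [← g3]; exact h'.memN _ g2 e
    have k3 := h.eq w g1 hwO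
    have k4 : T e (i' e) (n' e) (ξ w) = (L e).g (i e) (i' e) (v (ξ w)) ^ P e *
        T e (i e) (n e) (ξ w) * (N e).g (n' e) (n e) (ξ w) ^ Q e :=
      (hTw.tw e).iso.change (ξ w) hwO (i e) (i' e) (n e) (n' e)
        (by rw [← k3]; exact h.memU w g1 e) (by rw [← k3]; exact k1) (h.memN w g1 e) k2
    rw [g3, k4, k3]
    ring

/-- extension through a flip -/
theorem nice_upV (hk : 1 ≤ k) (hTw : TwV vV D N X L c O v P Q T ρ S)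
    (hf : FlipD f f' L L' p q s a) {d : ℕ} (hd : 1 ≤ d)
    (hda : ∀ e, (a e : ℝ) ≤ d * (ρ e / (c e * p e)) ∧ d * (ρ e / (c e * p e)) ≤ a e + 1)
    {b : ∀ e, X.pt → (L e).ι} (hb : ∀ e x, x ∈ (L e).U (b e x))
    (hO' : Dense {y | y ∈ O ∧ f (v y) ∉ Amin f}) (h : NiceAtV O v T G ξ w₀ r γ i n x) :
    ∃ (r₁ : ℝ) (g : Cm 4 → ℂ), 0 < r₁ ∧ ball w₀ r₁ ⊆ ball w₀ r ∧
      (∀ w ∈ ball w₀ r₁, AnalyticAt ℂ g w) ∧ (∃ w₁ ∈ ball w₀ r₁, w₁ 0 = 0 ∧ g w₁ ≠ 0) ∧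
      ∀ w₁ ∈ ball w₀ r₁, w₁ 0 = 0 → g w₁ ≠ 0 →
        ∃ (r₂ : ℝ) (γ₁ : Cm 4 → X'.pt) (j : ∀ e, (L' e).ι) (x₁ : Fin k → ℚ),
          ball w₁ r₂ ⊆ ball w₀ r ∧
          NiceAtV {y | y ∈ O ∧ f (v y) ∉ Amin f} (fun y => hf.small'.sec (f (v y)))
            (fun e => stT v f (P e) (p e) (T e) (s e) (b e)) G ξ w₁ r₂ γ₁ j n x₁ ∧
          (∀ w ∈ ball w₁ r₂, f' (γ₁ w) = f (γ w)) ∧
          ∑ e, ρ e / Q e * x e ≤ ∑ e, ρ e / ((Q e * p e : ℕ) : ℝ) * x₁ e ∧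
          ((∀ w ∈ ball w₀ r, w 0 = 0 → f (γ w) ∈ Amin f) →
            ∑ e, ρ e / Q e * x e < ∑ e, ρ e / ((Q e * p e : ℕ) : ℝ) * x₁ e) := by
  set O' : Set Y := {y | y ∈ O ∧ f (v y) ∉ Amin f} with hO'def
  have hγA : ∀ w ∈ ball w₀ r, ξ w ∈ O' → f (γ w) ∉ Amin f := by
    intro w hw hwO
    rw [h.eq w hw hwO.1]; exact hwO.2
  have hdense : ball w₀ r ⊆ closure {w | w ∈ ball w₀ r ∧ f (γ w) ∉ Amin f} := by
    intro w hw
    rw [mem_closure_iff_nhds]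
    intro U hU
    obtain ⟨w', k1, k2, k3⟩ := IsPar.dense h.par hO' hw hU
    exact ⟨w', k1, k2, hγA w' k2 k3⟩
  obtain ⟨r₁, g, hr₁, hsub, hg, hgne, hgood⟩ := hf.up hk isOpen_ball (mem_ball_self h.par.pos)
    h.par.zero h.hol hdense
  refine ⟨r₁, g, hr₁, hsub, hg, hgne, ?_⟩
  intro w₁ hw₁ hw₁0 hgw₁
  obtain ⟨W₁, γ₁, hW₁, hw₁W₁, hW₁s, hγ₁, hord⟩ := hgood w₁ hw₁ hw₁0 hgw₁
  choose j hj using fun e => (hf.lb' e).cover (γ₁ w₁)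
  obtain ⟨σ, hσ, hsum⟩ := hord i j (h.memU w₁ (hsub hw₁)) hj
  have hev : ∀ᶠ w in 𝓝 w₁, w ∈ W₁ ∧ (∀ e, γ₁ w ∈ (L' e).U (j e)) ∧ ∀ e, w 0 = 0 →
      HasOrd {w | f (γ w) ∉ Amin f} w (fun w => s e (i e) (j e) (f (γ w))) (σ e) := by
    refine (hW₁.eventually_mem hw₁W₁).and (Filter.Eventually.and ?_ ?_)
    · rw [eventually_all]
      exact fun e => (hγ₁ w₁ hw₁W₁).1.1.eventually_mem (((hf.lb' e).isOpen (j e)).mem_nhds (hj e))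
    · rw [eventually_all]
      exact fun e => (hσ e).eventually hw₁0
  obtain ⟨r₂, hr₂, hball⟩ := Metric.eventually_nhds_iff_ball.1 hev
  have hs2 : ball w₁ r₂ ⊆ ball w₀ r := fun w hw => hW₁s (hball w hw).1
  have hsec : ∀ w ∈ ball w₁ r₂, ξ w ∈ O' → hf.small'.sec (f (v (ξ w))) = γ₁ w := by
    intro w hw hwO
    have k3 : γ w = v (ξ w) := h.eq w (hs2 hw) hwO.1
    refine hf.small'.inj _ _ ?_ ?_
    · rw [(hγ₁ w (hball w hw).1).2, k3]; exact hwO.2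
    · rw [hf.small'.sec_eq, (hγ₁ w (hball w hw).1).2, k3]
  refine ⟨r₂, γ₁, j, fun e => x e * p e - σ e * P e, hs2, ⟨h.par.restrict hw₁0 hr₂ hs2,
    fun w hw => (hγ₁ w (hball w hw).1).1, fun w hw => (hball w hw).2.1,
    fun w hw => h.memN w (hs2 hw), fun w hw hwO => (hsec w hw hwO).symm, ?_⟩,
    fun w hw => (hγ₁ w (hball w hw).1).2, ?_⟩
  · intro w hw hw0 e
    have hnb : ∀ᶠ z in 𝓝 w, z ∈ ball w₁ r₂ := isOpen_ball.mem_nhds hw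
    have hD' : ∀ᶠ z in 𝓝 w, z ∈ {w | ξ w ∈ O'} →
        z ∈ {w | ξ w ∈ O} ∧ z ∈ {w | f (γ w) ∉ Amin f} :=
      hnb.mono fun z hz hzO => ⟨hzO.1, hγA z (hs2 hz) hzO⟩
    have hsne : ∀ᶠ z in 𝓝 w, z ∈ {w | ξ w ∈ O'} → z 0 ≠ 0 → s e (i e) (j e) (f (γ z)) ≠ 0 := by
      filter_upwards [hnb] with z hz hzO _
      exact ((hf.iso e).holo (γ z) (γ₁ z) (i e) (j e) (hγA z (hs2 hz) hzO)
        (hγ₁ z (hball z hz).1).2 (h.memU z (hs2 hz) e) ((hball z hz).2.1 e)).2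
    have h1 := ((h.ord w (hs2 hw) hw0 e).pow (p e)).mono (hD'.mono fun w hw hwO => (hw hwO).1)
    have h2 := (((hball w hw).2.2 e hw0).mono (hD'.mono fun w hw hwO => (hw hwO).2)).pow (P e)
    have h3 := h1.mul hw0 (h2.inv (hsne.mono fun w hw m1 m2 => pow_ne_zero _ (hw m1 m2)))
    rw [← sub_eq_add_neg] at h3
    refine h3.congr ?_
    filter_upwards [hnb] with z hz hzO _
    have k3 : γ z = v (ξ z) := h.eq z (hs2 hz) hzO.1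
    have h6 := stT_eq' (hTw.tw e).iso (hTw.tw e).lb hf.small' (IsLBx.pow (hf.lb e) (p e))
      (IsLBx.pow (hf.lb' e) (q e)) (hf.iso e) (hb e) hzO.1 hzO.2 (a₁ := i e) (b := j e)
      (c := n e) (by rw [← k3]; exact h.memU z (hs2 hz) e)
      (by rw [hsec z hz hzO]; exact (hball z hz).2.1 e) (h.memN z (hs2 hz) e)
    rw [h6]
    show T e (i e) (n e) (ξ z) ^ p e / s e (i e) (j e) (f (v (ξ z))) ^ P e = _
    rw [k3, div_eq_mul_inv]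
  · have h1 := sum_step (c := c) hd (fun e => (hTw.tw e).hP) (fun e => (hTw.tw e).hQ) hf.hp
      hTw.mult ρ x σ
    have h2 := hsum (fun e => d * (ρ e / (c e * p e))) hda
    have hd0 : (0 : ℝ) < d := by exact_mod_cast hd
    rw [h1]
    refine ⟨?_, fun hC => ?_⟩
    · have h3 := div_nonpos_of_nonpos_of_nonneg h2.1 hd0.le
      linarith
    · have h3 := div_neg_of_neg_of_pos (h2.2 hC) hd0
      linarith

end

end Vale.Agent.P277.H615
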