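import Vale.Agent.P277.Stmts11
import Vale.Agent.P277.H615.R.NiceV
import Vale.Agent.P277.H615.R.BaseV

/-!
# P277, boundary: wedges of `Y`, and the vector of orders along a wedge (statements)
-/

open scoped Manifold ContDiff Topology
open Vale.Agent.P272.K Vale.Agent.P285.H281.FD Vale.Agent.P267.H175 Set Filter Metric

noncomputable section

namespace Vale.Agent.P277.H615

open Vale.Agent.P277 Vale.Agent.P277.T2 Vale.Agent.P277.H335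

section defs

variable {Y : Type} [TopologicalSpace Y] [ChartedSpace (Cm 4) Y]

/-- `Γ` is a wedge of `Y`, defined on `D`, with the connected centre `{w ∈ D | w 0 = 0}`. -/
structure IsWg (Γ : Cm 4 → Y) (D : Set (Cm 4)) : Prop where
  isOpen : IsOpen D
  ne : ∃ w ∈ D, w 0 = 0
  conn : IsPreconnected {w | w ∈ D ∧ w 0 = 0}
  cont : ∀ w ∈ D, ContinuousAt Γ w
  an : ∀ w ∈ D, ∀ e : Chart 4 Y, At e (Γ w) → AnalyticAt ℂ (fun w => e (Γ w)) w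
  dense : ∀ O : Set Y, IsOpen O → Dense O → D ⊆ closure {w | w ∈ D ∧ Γ w ∈ O}

/-- On the ball around `w₀` the wedge `v ∘ Γ` of `X` extends to `γ`, and the functions `T e`, in the
frames `i` and `c`, have the orders `q e`. -/
structure NiceW {k : ℕ} {X : CSp} {N : Fin k → Bd Y} {L : Fin k → Bd X.pt} (O : Set Y)
    (v : Y → X.pt) (T : ∀ e, (L e).ι → (N e).ι → Y → ℂ) (Γ : Cm 4 → Y) (D : Set (Cm 4))
    (w₀ : Cm 4) (r : ℝ) (γ : Cm 4 → X.pt) (i : ∀ e, (L e).ι) (c : ∀ e, (N e).ι)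
    (q : Fin k → ℚ) : Prop where
  zero : w₀ 0 = 0
  pos : 0 < r
  sub : ball w₀ r ⊆ D
  hol : ∀ w ∈ ball w₀ r, HolAt X γ w
  memU : ∀ w ∈ ball w₀ r, ∀ e, γ w ∈ (L e).U (i e)
  memN : ∀ w ∈ ball w₀ r, ∀ e, Γ w ∈ (N e).U (c e)
  eq : ∀ w ∈ ball w₀ r, Γ w ∈ O → γ w = v (Γ w)
  ord : ∀ w ∈ ball w₀ r, w 0 = 0 → ∀ e,
    HasOrd {w | Γ w ∈ O} w (fun w => T e (i e) (c e) (Γ w)) (q e)

/-- the order vector `α` of a wedge -/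
structure OrdW {k : ℕ} {X : CSp} {N : Fin k → Bd Y} {L : Fin k → Bd X.pt} (O : Set Y)
    (v : Y → X.pt) (T : ∀ e, (L e).ι → (N e).ι → Y → ℂ) (Q : Fin k → ℕ) (Γ : Cm 4 → Y)
    (D : Set (Cm 4)) (α : Fin k → ℚ) : Prop where
  thin : ∃ (Ω : ℕ → Set (Cm 2)) (g : ℕ → Cm 2 → Cm 4), (∀ l, IsOpen (Ω l)) ∧
    (∀ l, ∀ p ∈ Ω l, AnalyticAt ℂ (g l) p) ∧
    {w | w ∈ D ∧ w 0 = 0 ∧ ¬ ∃ r γ i c x, NiceW O v T Γ D w r γ i c x} ⊆ ⋃ l, g l '' Ω l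
  ord : ∀ w₀ r γ i c x, NiceW O v T Γ D w₀ r γ i c x → ∀ e, x e = α e * Q e

end defs

/-- (A1 base) -/
def StWgBase : Prop :=
  ∀ (Y : Type) [TopologicalSpace Y] [T2Space Y] [CompactSpace Y] [ChartedSpace (Cm 4) Y]
    [IsManifold 𝓘(ℂ, Cm 4) ω Y] (k : ℕ) (W X : CSp) (r : ℕ) (v : Y → W.pt) (p : W.pt → X.pt)
    (P : Bd W.pt) (G : Fin r → Set Y) (_ : IsRes v p P G) (N : Fin k → Bd Y)
    (_ : ∀ e, CtBd (N e)) (L : Fin k → Bd X.pt) (c : Fin k → ℕ) (n : Fin k → Fin r → ℤ)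
    (t : ∀ e, (L e).ι → (N e).ι → Y → ℂ)
    (_ : IsCmpV (fun y => p (v y)) L (fun e => (N e).pow (c e)) G n t) (ρ : Fin k → ℝ)
    (_ : TwV v (⋃ l, G l) N X L c (⋃ l, G l)ᶜ (fun y => p (v y)) (fun _ => 1) c t ρ ∅)
    (_ : Dense (⋃ l, G l)ᶜ) (Γ : Cm 4 → Y) (D : Set (Cm 4)) (_ : IsWg Γ D),
    ∃ α, OrdW (⋃ l, G l)ᶜ (fun y => p (v y)) t c Γ D α

/-- (A1 step) -/
def StWgStep : Prop :=
  ∀ (Y : Type) [TopologicalSpace Y] [T2Space Y] [CompactSpace Y] [ChartedSpace (Cm 4) Y]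
    [IsManifold 𝓘(ℂ, Cm 4) ω Y] (k : ℕ) (_ : 1 ≤ k) (V X Z X' : CSp) (vV : Y → V.pt)
    (_ : IsOpenEmb V univ vV) (G₀ : Set Y) (N : Fin k → Bd Y) (_ : ∀ e, CtBd (N e))
    (L : Fin k → Bd X.pt) (L' : Fin k → Bd X'.pt) (c c' : Fin k → ℕ) (O : Set Y)
    (v : Y → X.pt) (P Q : Fin k → ℕ) (T : ∀ e, (L e).ι → (N e).ι → Y → ℂ) (ρ : Fin k → ℝ)
    (S : Set X.pt) (_ : TwV vV G₀ N X L c O v P Q T ρ S) (f : X.pt → Z.pt) (f' : X'.pt → Z.pt)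
    (p q : Fin k → ℕ) (s : ∀ e, (L e).ι → (L' e).ι → Z.pt → ℂ) (a : Fin k → ℤ)
    (hf : FlipD f f' L L' p q s a) (d : ℕ) (_ : 1 ≤ d) (_ : ∀ e, c e * p e = c' e * q e)
    (_ : ∀ e, (a e : ℝ) ≤ d * (ρ e / (c e * p e)) ∧ d * (ρ e / (c e * p e)) ≤ a e + 1)
    (b : ∀ e, X.pt → (L e).ι) (_ : ∀ e x, x ∈ (L e).U (b e x))
    (_ : Dense {y | y ∈ O ∧ f (v y) ∉ Amin f}) (Γ : Cm 4 → Y) (D : Set (Cm 4)) (_ : IsWg Γ D)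
    (α : Fin k → ℚ) (_ : OrdW O v T Q Γ D α),
    ∃ α' : Fin k → ℚ, OrdW {y | y ∈ O ∧ f (v y) ∉ Amin f} (fun y => hf.small'.sec (f (v y)))
      (fun e => stT v f (P e) (p e) (T e) (s e) (b e)) (fun e => Q e * p e) Γ D α' ∧
      ∑ e, ρ e * α e ≤ ∑ e, ρ e * α' e ∧
      ((∃ w₀ r γ i n x, NiceW {y | y ∈ O ∧ f (v y) ∉ Amin f}
        (fun y => hf.small'.sec (f (v y))) (fun e => stT v f (P e) (p e) (T e) (s e) (b e)) Γ D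
          w₀ r γ i n x ∧ ∀ w ∈ ball w₀ r, w 0 = 0 → f' (γ w) ∈ Amin f) →
        ∑ e, ρ e * α e < ∑ e, ρ e * α' e)

/-- (A1 transfer) -/
def StWgTrans : Prop :=
  ∀ (Y : Type) [TopologicalSpace Y] [T2Space Y] [CompactSpace Y] [ChartedSpace (Cm 4) Y]
    [IsManifold 𝓘(ℂ, Cm 4) ω Y] (k : ℕ) (_ : 1 ≤ k) (V X : CSp) (vV : Y → V.pt)
    (_ : IsOpenEmb V univ vV) (G₀ : Set Y) (N : Fin k → Bd Y) (_ : ∀ e, CtBd (N e))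
    (L : Fin k → Bd X.pt) (c : Fin k → ℕ) (O : Set Y) (_ : Dense O)
    (v : Y → X.pt) (P Q : Fin k → ℕ) (T : ∀ e, (L e).ι → (N e).ι → Y → ℂ) (ρ : Fin k → ℝ)
    (S : Set X.pt) (_ : TwV vV G₀ N X L c O v P Q T ρ S)
    (Γ Γ' : Cm 4 → Y) (D D' : Set (Cm 4)) (_ : IsWg Γ D) (_ : IsWg Γ' D')
    (α α' : Fin k → ℚ) (_ : OrdW O v T Q Γ D α) (_ : OrdW O v T Q Γ' D' α')
    (w₁ : Cm 4) (_ : w₁ ∈ D) (_ : w₁ 0 = 0) (χ : Cm 4 → Cm 4) (_ : T3.LocIso χ w₁)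
    (_ : χ w₁ ∈ D') (_ : ∀ᶠ w in 𝓝 w₁, (χ w 0 = 0 ↔ w 0 = 0) ∧ Γ' (χ w) = Γ w), α = α'

end Vale.Agent.P277.H615
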