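import Vale.Agent.P277.Stmts9
import Vale.Agent.P277.H615.R.WgDef

/-!
# P277, boundary: adapted wedges (statements)
-/

open scoped Manifold ContDiff Topology
open Vale.Agent.P272.K Vale.Agent.P285.H281.FD Vale.Agent.P267.H175 Set Filter Metric

noncomputable section

namespace Vale.Agent.P277.H615

open Vale.Agent.P277 Vale.Agent.P277.T2 Vale.Agent.P277.H335

section defs

variable {Y : Type} [TopologicalSpace Y] [ChartedSpace (Cm 4) Y]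

/-- In the local coordinate system `Ψ` the smooth hypersurface `E` is `{z 0 = 0}`, and the smooth
surface `V ⊆ E` is `{z 0 = z 1 = 0}`. -/
structure IsAd (E V : Set Y) (Ψ : Cm 4 → Y) (c : Cm 4) (r : ℝ) : Prop where
  par : IsPar E Ψ c r
  one : c 1 = 0
  mem : ∀ z ∈ ball c r, Ψ z ∈ V ↔ z 0 = 0 ∧ z 1 = 0

/-- `V` is a smooth surface in the smooth hypersurface `E`. -/
def IsSf (E V : Set Y) : Prop := ∀ y ∈ V, ∃ Ψ c r, IsAd E V Ψ c r ∧ Ψ c = y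

/-- the wedges `γ` (at `w`) and `γ'` (at `w'`) agree up to a local isomorphism -/
def WgRel (γ γ' : Cm 4 → Y) (w w' : Cm 4) : Prop :=
  ∃ χ : Cm 4 → Cm 4, T3.LocIso χ w ∧ χ w = w' ∧
    ∀ᶠ z in 𝓝 w, (χ z 0 = 0 ↔ z 0 = 0) ∧ γ' (χ z) = γ z

end defs

/-- (A4') local coordinate systems are wedges -/
def StWgPar : Prop :=
  ∀ (Y : Type) [TopologicalSpace Y] [T2Space Y] [ChartedSpace (Cm 4) Y]
    [IsManifold 𝓘(ℂ, Cm 4) ω Y] (G : Set Y) (ξ : Cm 4 → Y) (c : Cm 4) (r : ℝ)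
    (_ : IsPar G ξ c r), IsWg ξ (ball c r)

/-- (A4'') adapted wedges are wedges -/
def StWgAd : Prop :=
  ∀ (Y : Type) [TopologicalSpace Y] [T2Space Y] [ChartedSpace (Cm 4) Y]
    [IsManifold 𝓘(ℂ, Cm 4) ω Y] (G : Set Y) (Ψ : Cm 4 → Y) (c : Cm 4) (r : ℝ)
    (_ : IsPar G Ψ c r) (_ : c 1 = 0) (g : ℕ) (_ : 1 ≤ g),
    IsWg (fun w => Ψ (T3.bet g w)) {w | T3.bet g w ∈ ball c r}

/-- (A4) classification of the germs of wedges with centre in `E` (`J` the order of the Jacobian,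
`g` the order of the local equation of `E`); `O` an open subset of `Y`. -/
def StClass : Prop :=
  ∀ (Y : Type) [TopologicalSpace Y] [T2Space Y] [ChartedSpace (Cm 4) Y]
    [IsManifold 𝓘(ℂ, Cm 4) ω Y] (E O : Set Y) (_ : IsHyp E) (_ : IsOpen O)
    (W : Set (Cm 4)) (_ : IsOpen W) (w₂ : Cm 4) (_ : w₂ ∈ W) (_ : w₂ 0 = 0)
    (γ : Cm 4 → Y) (ch : Chart 4 Y) (_ : ∀ w ∈ W, ContinuousAt γ w ∧ At ch (γ w) ∧
      AnalyticAt ℂ (fun w => ch (γ w)) w) (_ : ∀ w ∈ W, w 0 = 0 → γ w ∉ O)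
    (J g : ℕ) (_ : 1 ≤ g) (ΦJ Φg : Cm 4 → ℂ) (ζ : Y → ℂ) (_ : IsLEq E (γ w₂) ζ)
    (_ : AnalyticAt ℂ ΦJ w₂) (_ : ΦJ w₂ ≠ 0) (_ : AnalyticAt ℂ Φg w₂) (_ : Φg w₂ ≠ 0)
    (_ : ∀ᶠ w in 𝓝 w₂, (fderiv ℂ (fun w => ch (γ w)) w).det = w 0 ^ J * ΦJ w)
    (_ : ∀ᶠ w in 𝓝 w₂, ζ (γ w) = w 0 ^ g * Φg w),
    g ≤ J + 1 ∧
      (J + 1 = g → ∃ U : Set Y, IsOpen U ∧ (U ∩ E).Nonempty ∧
        U ∩ E ⊆ γ '' {w | w ∈ W ∧ w 0 = 0}) ∧
      (J = g → ∃ w₃ ∈ W, w₃ 0 = 0 ∧ ∃ Ψ c r w', IsPar E Ψ c r ∧ c 1 = 0 ∧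
        T3.bet g w' = c ∧ w' 0 = 0 ∧ WgRel γ (fun w => Ψ (T3.bet g w)) w₃ w' ∧
        ∀ z ∈ ball c r, z 0 = 0 → z 1 = 0 → Ψ z ∉ O)

/-- (A5) adapted wedges through the same point are related -/
def StAdRel : Prop :=
  ∀ (Y : Type) [TopologicalSpace Y] [T2Space Y] [ChartedSpace (Cm 4) Y]
    [IsManifold 𝓘(ℂ, Cm 4) ω Y] (E V : Set Y) (Ψ Ψ' : Cm 4 → Y) (c c' : Cm 4) (r r' : ℝ)
    (_ : IsAd E V Ψ c r) (_ : IsAd E V Ψ' c' r') (_ : Ψ c = Ψ' c') (g : ℕ) (_ : 1 ≤ g),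
    ∃ w w', w 0 = 0 ∧ T3.bet g w ∈ ball c r ∧ T3.bet g w' ∈ ball c' r' ∧
      WgRel (fun w => Ψ (T3.bet g w)) (fun w => Ψ' (T3.bet g w)) w w'

/-- (A5') local coordinate systems through the same point of `G` are related -/
def StParRel : Prop :=
  ∀ (Y : Type) [TopologicalSpace Y] [T2Space Y] [ChartedSpace (Cm 4) Y]
    [IsManifold 𝓘(ℂ, Cm 4) ω Y] (G : Set Y) (Ψ Ψ' : Cm 4 → Y) (c c' : Cm 4) (r r' : ℝ)
    (_ : IsPar G Ψ c r) (_ : IsPar G Ψ' c' r') (_ : Ψ c = Ψ' c'), WgRel Ψ Ψ' c c'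

/-- (A5'') constancy: `a` assigns a value to wedges, equal for wedges which are related. Then it is
the same for all adapted wedges of a connected surface (and for all local coordinate systems of a
connected hypersurface). -/
def StConst' : Prop :=
  ∀ (Y : Type) [TopologicalSpace Y] [T2Space Y] [ChartedSpace (Cm 4) Y]
    [IsManifold 𝓘(ℂ, Cm 4) ω Y] (α : Type) (a : (Cm 4 → Y) → Set (Cm 4) → α)
    (_ : ∀ γ γ' D D' w w', IsWg γ D → IsWg γ' D' → w ∈ D → w 0 = 0 → w' ∈ D' → w' 0 = 0 →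
      WgRel γ γ' w w' → a γ D = a γ' D'),
    (∀ (E V : Set Y) (_ : IsSf E V) (_ : IsPreconnected V) (g : ℕ) (_ : 1 ≤ g)
      (Ψ Ψ' : Cm 4 → Y) (c c' : Cm 4) (r r' : ℝ) (_ : IsAd E V Ψ c r) (_ : IsAd E V Ψ' c' r'),
      a (fun w => Ψ (T3.bet g w)) {w | T3.bet g w ∈ ball c r} =
        a (fun w => Ψ' (T3.bet g w)) {w | T3.bet g w ∈ ball c' r'}) ∧
    ∀ (G : Set Y) (_ : IsHyp G) (_ : IsPreconnected G) (Ψ Ψ' : Cm 4 → Y) (c c' : Cm 4) (r r' : ℝ)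
      (_ : IsPar G Ψ c r) (_ : IsPar G Ψ' c' r'), a Ψ (ball c r) = a Ψ' (ball c' r')

/-- (A6') a surface germ in `E \ O` agrees at some point with one of the finitely many surfaces
`V l`. -/
def StMatch : Prop :=
  ∀ (Y : Type) [TopologicalSpace Y] [T2Space Y] [CompactSpace Y] [ChartedSpace (Cm 4) Y]
    [IsManifold 𝓘(ℂ, Cm 4) ω Y] (E O : Set Y) (q : ℕ) (V : Fin q → Set Y)
    (_ : ∀ l, IsSf E (V l)) (_ : T3.ThinM 4 1 ((E \ O) \ ⋃ l, V l)) (Ψ : Cm 4 → Y) (c : Cm 4)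
    (r : ℝ) (_ : IsPar E Ψ c r) (_ : c 1 = 0) (_ : ∀ z ∈ ball c r, z 0 = 0 → z 1 = 0 → Ψ z ∉ O),
    ∃ l, ∃ z ∈ ball c r, ∃ r', ball z r' ⊆ ball c r ∧ IsAd E (V l) Ψ z r'

/-- (A6) finiteness of the surfaces: if only finitely many surfaces of the smooth hypersurface
`range ι` are contracted, they are contained in the union of finitely many connected surfaces. -/
def StFinV : Prop :=
  ∀ (Y : Type) [TopologicalSpace Y] [T2Space Y] [CompactSpace Y] [ChartedSpace (Cm 4) Y]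
    [IsManifold 𝓘(ℂ, Cm 4) ω Y] (W : CSp) (X Z : ℕ → CSp) (r : ℕ) (v₀ : Y → W.pt)
    (p : W.pt → (X 0).pt) (P : Bd W.pt) (G : Fin r → Set Y) (_ : T2.IsRes v₀ p P G)
    (f : ∀ j, (X j).pt → (Z j).pt) (f' : ∀ j, (X (j + 1)).pt → (Z j).pt)
    (A : ∀ j, Set (Z j).pt) (L : ∀ j, Bd (X j).pt) (L' : ∀ j, Bd (X (j + 1)).pt)
    (_ : ∀ j, IsFlip (X j) (Z j) (X (j + 1)) (f j) (f' j) (A j) (L j) (L' j))
    (O : ℕ → Set Y) (v : ∀ j, Y → (X j).pt) (_ : T3.IsSeq X Z f f' A O v)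
    (_ : O 0 = (⋃ l, G l)ᶜ) (_ : v 0 = fun y => p (v₀ y))
    (H : Type) [TopologicalSpace H] [T2Space H] [CompactSpace H] [ConnectedSpace H]
    [ChartedSpace (Cm 3) H] [IsManifold 𝓘(ℂ, Cm 3) ω H] (ι : H → Y) (_ : T3.IsSub ι)
    (_ : (ι ⁻¹' O 0).Nonempty)
    (_ : ∃ J, ∀ j ≥ J, T3.ThinM 3 1 (ι ⁻¹' O j \ ι ⁻¹' O (j + 1))),
    ∃ (J q : ℕ) (V : Fin q → Set Y), (∀ l, IsPreconnected (V l)) ∧ (∀ l, IsSf (range ι) (V l)) ∧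
      ∀ j ≥ J, T3.ThinM 4 1 ((range ι \ O j) \ ⋃ l, V l)

end Vale.Agent.P277.H615
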