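import Vale.Agent.P277.H371.C.Cnt
import Vale.Agent.P277.H29.Ad1
import Vale.Agent.P277.H615.R.AdDef

/-!
# P277, T3: counting the places
-/

open scoped Manifold ContDiff Topology
open Vale.Agent.P272.K Vale.Agent.P285.H281.FD Vale.Agent.P267.H175 Set Filter Metric

noncomputable section

namespace Vale.Agent.P277.H615

open Vale.Agent.P277 Vale.Agent.P277.T2 Vale.Agent.P277.H335

variable {Y : Type} [TopologicalSpace Y] [T2Space Y] [ChartedSpace (Cm 4) Y]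
  [IsManifold 𝓘(ℂ, Cm 4) ω Y]

omit [T2Space Y] [IsManifold 𝓘(ℂ, Cm 4) ω Y] in
theorem wgRel_id {γ : Cm 4 → Y} (w : Cm 4) : WgRel γ γ w w := by
  refine ⟨fun z => z, ⟨analyticAt_id, ?_⟩, rfl, Eventually.of_forall fun z => ⟨Iff.rfl, rfl⟩⟩
  have h1 : fderiv ℂ (fun z : Cm 4 => z) w = ContinuousLinearMap.id ℂ (Cm 4) := fderiv_id'
  rw [h1, H19.det_id]
  exact one_ne_zero

theorem bet_point {g : ℕ} (hg : 1 ≤ g) {z : Cm 4} (h0 : z 0 = 0) (h1 : z 1 = 0) :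
    T3.bet g ![0, 0, z 2, z 3] = z := by
  funext i
  fin_cases i
  · show (0 : ℂ) ^ g * 0 = z 0
    rw [mul_zero, h0]
  · show (0 : ℂ) = z 1
    rw [h1]
  · rfl
  · rfl

/-- the counting argument -/
theorem count_core {r s : ℕ} {G : Fin r → Set Y} (hG : ∀ l, IsHyp (G l))
    (hGc : ∀ l, IsPreconnected (G l)) {E : Fin s → Set Y} {q : Fin s → ℕ}
    {V : ∀ b, Fin (q b) → Set Y} (hV : ∀ b l, IsSf (E b) (V b l))
    (hVc : ∀ b l, IsPreconnected (V b l)) (val : (Cm 4 → Y) → Set (Cm 4) → ℕ → ℝ)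
    (hmono : ∀ Γ D, IsWg Γ D → ∀ j, val Γ D j ≤ val Γ D (j + 1))
    (hrel : ∀ γ γ' D D' w w', IsWg γ D → IsWg γ' D' → w ∈ D → w 0 = 0 → w' ∈ D' → w' 0 = 0 →
      WgRel γ γ' w w' → val γ D = val γ' D') (gm : ℕ) {F : Set ℝ} (hF : F.Finite) (B : Set ℕ)
    (hB : ∀ j ∈ B, ∃ Γ D, IsWg Γ D ∧ val Γ D j < val Γ D (j + 1) ∧ val Γ D (j + 1) ∈ F ∧
      ((∃ l w₁ r₁, IsPar (G l) Γ w₁ r₁ ∧ w₁ ∈ D) ∨
        ∃ (b : Fin s) (g : ℕ), 1 ≤ g ∧ g ≤ gm ∧ ∃ w₁ ∈ D, w₁ 0 = 0 ∧ ∃ Ψ c r w',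
          IsPar (E b) Ψ c r ∧ c 1 = 0 ∧ T3.bet g w' = c ∧ w' 0 = 0 ∧
          WgRel Γ (fun w => Ψ (T3.bet g w)) w₁ w' ∧
          ∃ l, ∃ z ∈ ball c r, ∃ r', ball z r' ⊆ ball c r ∧ IsAd (E b) (V b l) Ψ z r')) :
    B.Finite := by
  classical
  obtain ⟨hc1, hc2⟩ := stConst' Y (ℕ → ℝ) val hrel
  set x : (Fin r ⊕ (Σ b : Fin s, Fin (q b) × Fin (gm + 1))) → ℕ → ℝ := fun τ =>
    match τ with
    | Sum.inl l => if h : ∃ a : (Cm 4 → Y) × Cm 4 × ℝ, IsPar (G l) a.1 a.2.1 a.2.2 then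
        val h.choose.1 (ball h.choose.2.1 h.choose.2.2) else 0
    | Sum.inr ⟨b, l, g⟩ => if h : 1 ≤ (g : ℕ) ∧ ∃ a : (Cm 4 → Y) × Cm 4 × ℝ,
        IsAd (E b) (V b l) a.1 a.2.1 a.2.2 then
        val (fun w => h.2.choose.1 (T3.bet g w))
          {w | T3.bet g w ∈ ball h.2.choose.2.1 h.2.choose.2.2} else 0 with hx
  refine H371.C.finite_bad x id ?_ (fun _ => F) (fun _ => hF) B ?_
  · rintro (l | ⟨b, l, g⟩) j
    · simp only [hx, id]
      split_ifs with h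
      · exact hmono _ _ (stWgPar Y (G l) _ _ _ h.choose_spec) j
      · exact le_rfl
    · simp only [hx, id]
      split_ifs with h
      · exact hmono _ _ (stWgAd Y (E b) _ _ _ h.2.choose_spec.par h.2.choose_spec.one _ h.1) j
      · exact le_rfl
  · intro j hj
    obtain ⟨Γ, D, hw, h1, h2, hcase⟩ := hB j hj
    rcases hcase with ⟨l, w₁, r₁, hpar, hw₁D⟩ | ⟨b, g, hg1, hgm, w₁, hw₁D, hw₁0, Ψ, c, r', w', hpar,
      hc0, hbw, hw'0, hWR, l, z, hz, r'', hsub, had⟩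
    · have hex : ∃ a : (Cm 4 → Y) × Cm 4 × ℝ, IsPar (G l) a.1 a.2.1 a.2.2 := ⟨(Γ, w₁, r₁), hpar⟩
      have h3 : x (Sum.inl l) = val Γ D := by
        have e1 : x (Sum.inl l) = val hex.choose.1 (ball hex.choose.2.1 hex.choose.2.2) := by
          simp only [hx]
          rw [dif_pos hex]
        rw [e1, hc2 (G l) (hG l) (hGc l) _ Γ _ w₁ _ r₁ hex.choose_spec hpar]
        exact hrel _ _ _ _ w₁ w₁ (stWgPar Y (G l) _ _ _ hpar) hw (mem_ball_self hpar.pos) hpar.zero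
          hw₁D hpar.zero (wgRel_id w₁)
      refine ⟨Sum.inl l, ?_, ?_⟩
      · rw [h3]; exact h1
      · rw [h3]; exact h2
    · have hlt : g < gm + 1 := by omega
      have hex : 1 ≤ ((⟨g, hlt⟩ : Fin (gm + 1)) : ℕ) ∧ ∃ a : (Cm 4 → Y) × Cm 4 × ℝ,
        IsAd (E b) (V b l) a.1 a.2.1 a.2.2 := ⟨hg1, (Ψ, z, r''), had⟩
      have h3 : x (Sum.inr ⟨b, l, ⟨g, hlt⟩⟩) = val Γ D := by
        have e1 : x (Sum.inr ⟨b, l, ⟨g, hlt⟩⟩) = val (fun w => hex.2.choose.1 (T3.bet g w))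
          {w | T3.bet g w ∈ ball hex.2.choose.2.1 hex.2.choose.2.2} := by
          simp only [hx]
          rw [dif_pos hex]
        have hW1 := stWgAd Y (E b) Ψ c r' hpar hc0 g hg1
        have hW2 := stWgAd Y (E b) Ψ z r'' had.par had.one g hg1
        have hz2 : T3.bet g ![0, 0, z 2, z 3] = z := bet_point hg1 had.par.zero had.one
        rw [e1, hc1 (E b) (V b l) (hV b l) (hVc b l) g hg1 _ Ψ _ z _ r'' hex.2.choose_spec had]
        have e2 : val (fun w => Ψ (T3.bet g w)) {w | T3.bet g w ∈ ball z r''} =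
            val (fun w => Ψ (T3.bet g w)) {w | T3.bet g w ∈ ball c r'} := by
          refine hrel _ _ _ _ ![0, 0, z 2, z 3] ![0, 0, z 2, z 3] hW2 hW1 ?_ rfl ?_ rfl
            (wgRel_id _)
          · show T3.bet g ![0, 0, z 2, z 3] ∈ ball z r''
            rw [hz2]; exact mem_ball_self had.par.pos
          · show T3.bet g ![0, 0, z 2, z 3] ∈ ball c r'
            rw [hz2]; exact hz
        rw [e2]
        refine (hrel _ _ _ _ w₁ w' hw hW1 hw₁D hw₁0 ?_ hw'0 hWR).symm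
        show T3.bet g w' ∈ ball c r'
        rw [hbw]; exact mem_ball_self hpar.pos
      refine ⟨Sum.inr ⟨b, l, ⟨g, hlt⟩⟩, ?_, ?_⟩
      · rw [h3]; exact h1
      · rw [h3]; exact h2

end Vale.Agent.P277.H615
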