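import Vale.Agent.P277.H615.Par

/-!
# P277, real coefficients: the order of a function along `{w 0 = 0}`
-/

open scoped Manifold ContDiff Topology
open Vale.Agent.P272.K Vale.Agent.P285.H281.FD Vale.Agent.P267.H175 Set Filter Metric

noncomputable section

namespace Vale.Agent.P277.H615

open Vale.Agent.P277 Vale.Agent.P277.T2
open Vale.Agent.P277.H19 (exists_max_pow)

/-- `τ`, considered on `D` minus `{w 0 = 0}`, has the order `q` along `{w 0 = 0}` near `w₁`. -/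
def HasOrd (D : Set (Cm 4)) (w₁ : Cm 4) (τ : Cm 4 → ℂ) (q : ℚ) : Prop :=
  ∃ (K : ℕ) (ν : ℤ) (A B : Cm 4 → ℂ), 1 ≤ K ∧ (ν : ℚ) = q * K ∧ AnalyticAt ℂ A w₁ ∧
    AnalyticAt ℂ B w₁ ∧ (∃ᶠ w in 𝓝 w₁, w 0 = 0 ∧ A w ≠ 0) ∧ (∃ᶠ w in 𝓝 w₁, w 0 = 0 ∧ B w ≠ 0) ∧
    ∀ᶠ w in 𝓝 w₁, w ∈ D → w 0 ≠ 0 → B w * τ w ^ K = w 0 ^ ν * A w

variable {D : Set (Cm 4)} {w₁ : Cm 4} {τ τ' : Cm 4 → ℂ} {q q' : ℚ}

/-- products -/
theorem freq_mul' (h0 : w₁ 0 = 0) {A A' : Cm 4 → ℂ} (hA : AnalyticAt ℂ A w₁)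
    (hA' : AnalyticAt ℂ A' w₁) (h : ∃ᶠ w in 𝓝 w₁, w 0 = 0 ∧ A w ≠ 0)
    (h' : ∃ᶠ w in 𝓝 w₁, w 0 = 0 ∧ A' w ≠ 0) : ∃ᶠ w in 𝓝 w₁, w 0 = 0 ∧ A w * A' w ≠ 0 :=
  (freq_mul h0 hA hA' h h').mono fun _ hw => ⟨hw.1, mul_ne_zero hw.2.1 hw.2.2⟩

theorem freq_pow {A : Cm 4 → ℂ} (h : ∃ᶠ w in 𝓝 w₁, w 0 = 0 ∧ A w ≠ 0) (n : ℕ) :
    ∃ᶠ w in 𝓝 w₁, w 0 = 0 ∧ A w ^ n ≠ 0 :=
  h.mono fun _ hw => ⟨hw.1, pow_ne_zero _ hw.2⟩

theorem freq_prod (h0 : w₁ 0 = 0) {ι : Type} (s : Finset ι) {A : ι → Cm 4 → ℂ}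
    (hA : ∀ i, AnalyticAt ℂ (A i) w₁) (h : ∀ i, ∃ᶠ w in 𝓝 w₁, w 0 = 0 ∧ A i w ≠ 0) :
    ∃ᶠ w in 𝓝 w₁, w 0 = 0 ∧ ∀ i ∈ s, A i w ≠ 0 := by
  classical
  have key : ∀ s : Finset ι, AnalyticAt ℂ (fun w => ∏ i ∈ s, A i w) w₁ ∧
      ∃ᶠ w in 𝓝 w₁, w 0 = 0 ∧ ∏ i ∈ s, A i w ≠ 0 := by
    intro s
    refine ⟨Finset.analyticAt_fun_prod s fun i _ => hA i, ?_⟩
    induction s using Finset.induction_on with
    | empty =>
      have h1 : ∃ᶠ w in 𝓝 w₁, w = w₁ := by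
        rw [Filter.frequently_iff]
        intro U hU
        exact ⟨w₁, mem_of_mem_nhds hU, rfl⟩
      exact h1.mono fun w hw => ⟨by rw [hw]; exact h0, by simp⟩
    | insert i s hi ih =>
      have h2 := freq_mul' h0 (hA i) (Finset.analyticAt_fun_prod s fun i _ => hA i) (h i) ih
      exact h2.mono fun w hw => ⟨hw.1, by rw [Finset.prod_insert hi]; exact hw.2⟩
  exact (key s).2.mono fun w hw => ⟨hw.1, fun i hi => (Finset.prod_ne_zero_iff.1 hw.2) i hi⟩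

theorem freq_one (h0 : w₁ 0 = 0) {A : Cm 4 → ℂ} (hA : ContinuousAt A w₁) (hne : A w₁ ≠ 0) :
    ∃ᶠ w in 𝓝 w₁, w 0 = 0 ∧ A w ≠ 0 := by
  have h1 : ∃ᶠ w in 𝓝 w₁, w = w₁ := by
    rw [Filter.frequently_iff]
    intro U hU
    exact ⟨w₁, mem_of_mem_nhds hU, rfl⟩
  exact h1.mono fun w hw => by rw [hw]; exact ⟨h0, hne⟩

theorem HasOrd.congr (h : HasOrd D w₁ τ q) (hτ : ∀ᶠ w in 𝓝 w₁, w ∈ D → w 0 ≠ 0 → τ' w = τ w) :
    HasOrd D w₁ τ' q := by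
  obtain ⟨K, ν, A, B, h1, h2, h3, h4, h5, h6, h7⟩ := h
  refine ⟨K, ν, A, B, h1, h2, h3, h4, h5, h6, ?_⟩
  filter_upwards [h7, hτ] with w g1 g2 hD h0
  rw [g2 hD h0]; exact g1 hD h0

theorem HasOrd.mono {D' : Set (Cm 4)} (h : HasOrd D w₁ τ q) (hD : ∀ᶠ w in 𝓝 w₁, w ∈ D' → w ∈ D) :
    HasOrd D' w₁ τ q := by
  obtain ⟨K, ν, A, B, h1, h2, h3, h4, h5, h6, h7⟩ := h
  refine ⟨K, ν, A, B, h1, h2, h3, h4, h5, h6, ?_⟩
  filter_upwards [h7, hD] with w g1 g2 hD' h0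
  exact g1 (g2 hD') h0

/-- larger exponents -/
theorem HasOrd.raise (h : HasOrd D w₁ τ q) : ∃ K₀ : ℕ, 1 ≤ K₀ ∧ ∀ n : ℕ, 1 ≤ n →
    ∃ (ν : ℤ) (A B : Cm 4 → ℂ), (ν : ℚ) = q * (K₀ * n : ℕ) ∧ AnalyticAt ℂ A w₁ ∧
    AnalyticAt ℂ B w₁ ∧ (∃ᶠ w in 𝓝 w₁, w 0 = 0 ∧ A w ≠ 0) ∧ (∃ᶠ w in 𝓝 w₁, w 0 = 0 ∧ B w ≠ 0) ∧
    ∀ᶠ w in 𝓝 w₁, w ∈ D → w 0 ≠ 0 → B w * τ w ^ (K₀ * n) = w 0 ^ ν * A w := by
  obtain ⟨K, ν, A, B, h1, h2, h3, h4, h5, h6, h7⟩ := h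
  refine ⟨K, h1, fun n hn => ⟨ν * n, fun w => A w ^ n, fun w => B w ^ n, ?_, h3.pow n, h4.pow n,
    freq_pow h5 n, freq_pow h6 n, ?_⟩⟩
  · push_cast
    rw [h2]
    ring
  · filter_upwards [h7] with w g1 hD h0
    have := congrArg (· ^ n) (g1 hD h0)
    simp only [mul_pow] at this
    rw [pow_mul, this, zpow_mul, zpow_natCast]

theorem HasOrd.mul (h0 : w₁ 0 = 0) (h : HasOrd D w₁ τ q) (h' : HasOrd D w₁ τ' q') :
    HasOrd D w₁ (fun w => τ w * τ' w) (q + q') := by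
  obtain ⟨K, hK, H⟩ := h.raise
  obtain ⟨K', hK', H'⟩ := h'.raise
  obtain ⟨ν, A, B, h2, h3, h4, h5, h6, h7⟩ := H K' hK'
  obtain ⟨ν', A', B', h2', h3', h4', h5', h6', h7'⟩ := H' K hK
  refine ⟨K * K', ν + ν', fun w => A w * A' w, fun w => B w * B' w, Nat.mul_pos hK hK', ?_,
    h3.mul h3', h4.mul h4', freq_mul' h0 h3 h3' h5 h5', freq_mul' h0 h4 h4' h6 h6', ?_⟩
  · push_cast at h2 h2' ⊢
    rw [h2, h2']
    ring
  · filter_upwards [h7, h7'] with w g1 g2 hD hw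
    have e1 := g1 hD hw
    have e2 := g2 hD hw
    rw [mul_comm K' K] at e2
    rw [zpow_add₀ hw, mul_pow]
    calc B w * B' w * (τ w ^ (K * K') * τ' w ^ (K * K'))
        = (B w * τ w ^ (K * K')) * (B' w * τ' w ^ (K * K')) := by ring
      _ = (w 0 ^ ν * A w) * (w 0 ^ ν' * A' w) := by rw [e1, e2]
      _ = _ := by ring

theorem HasOrd.inv (h : HasOrd D w₁ τ q) (hτ : ∀ᶠ w in 𝓝 w₁, w ∈ D → w 0 ≠ 0 → τ w ≠ 0) :
    HasOrd D w₁ (fun w => (τ w)⁻¹) (-q) := by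
  obtain ⟨K, ν, A, B, h1, h2, h3, h4, h5, h6, h7⟩ := h
  refine ⟨K, -ν, B, A, h1, by push_cast; rw [h2]; ring, h4, h3, h6, h5, ?_⟩
  filter_upwards [h7, hτ] with w g1 g2 hD hw
  have e1 := g1 hD hw
  have e2 : τ w ^ K ≠ 0 := pow_ne_zero _ (g2 hD hw)
  have e3 : w 0 ^ ν ≠ 0 := zpow_ne_zero _ hw
  rw [inv_pow, zpow_neg, eq_comm]
  field_simp
  linear_combination e1

theorem HasOrd.pow (h : HasOrd D w₁ τ q) (n : ℕ) : HasOrd D w₁ (fun w => τ w ^ n) (q * n) := by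
  obtain ⟨K, ν, A, B, h1, h2, h3, h4, h5, h6, h7⟩ := h
  refine ⟨K, ν * n, fun w => A w ^ n, fun w => B w ^ n, h1, by push_cast; rw [h2]; ring,
    h3.pow n, h4.pow n, freq_pow h5 n, freq_pow h6 n, ?_⟩
  filter_upwards [h7] with w g1 hD hw
  have := congrArg (· ^ n) (g1 hD hw)
  simp only [mul_pow] at this
  rw [← pow_mul, mul_comm n K, pow_mul, this, zpow_mul, zpow_natCast]

theorem HasOrd.zpow (h : HasOrd D w₁ τ q) (hτ : ∀ᶠ w in 𝓝 w₁, w ∈ D → w 0 ≠ 0 → τ w ≠ 0)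
    (n : ℤ) : HasOrd D w₁ (fun w => τ w ^ n) (q * n) := by
  obtain ⟨n, rfl | rfl⟩ := n.eq_nat_or_neg
  · simpa using h.pow n
  · have h1 := (h.pow n).inv (hτ.mono fun w hw hD h0 => pow_ne_zero _ (hw hD h0))
    have h2 : q * ((-(n : ℤ) : ℤ) : ℚ) = -(q * n) := by push_cast; ring
    rw [h2]
    refine h1.congr (Eventually.of_forall fun w _ _ => ?_)
    simp only [zpow_neg, zpow_natCast]

theorem HasOrd.one (h0 : w₁ 0 = 0) : HasOrd D w₁ (fun _ => 1) 0 := by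
  refine ⟨1, 0, fun _ => 1, fun _ => 1, le_rfl, by simp, analyticAt_const, analyticAt_const,
    freq_one h0 continuousAt_const one_ne_zero, freq_one h0 continuousAt_const one_ne_zero,
    Eventually.of_forall fun w _ _ => by simp⟩

theorem HasOrd.prod (h0 : w₁ 0 = 0) {ι : Type} (s : Finset ι) {τ : ι → Cm 4 → ℂ} {q : ι → ℚ}
    (h : ∀ i, HasOrd D w₁ (τ i) (q i)) :
    HasOrd D w₁ (fun w => ∏ i ∈ s, τ i w) (∑ i ∈ s, q i) := by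
  classical
  induction s using Finset.induction_on with
  | empty => simpa using HasOrd.one h0
  | insert i s hi ih =>
    simp only [Finset.prod_insert hi, Finset.sum_insert hi]
    exact (h i).mul h0 ih

theorem HasOrd.of_pow {n : ℕ} (hn : 1 ≤ n) (h : HasOrd D w₁ (fun w => τ w ^ n) q) :
    HasOrd D w₁ τ (q / n) := by
  obtain ⟨K, ν, A, B, h1, h2, h3, h4, h5, h6, h7⟩ := h
  refine ⟨n * K, ν, A, B, Nat.mul_pos hn h1, ?_, h3, h4, h5, h6, ?_⟩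
  · have : (n : ℚ) ≠ 0 := by exact_mod_cast (Nat.one_le_iff_ne_zero.1 hn)
    push_cast
    rw [h2]
    field_simp
  · filter_upwards [h7] with w g1 hD hw
    rw [pow_mul]
    exact g1 hD hw

theorem HasOrd.of_unit (h0 : w₁ 0 = 0) (hτ : AnalyticAt ℂ τ w₁) (hne : τ w₁ ≠ 0) :
    HasOrd D w₁ τ 0 := by
  refine ⟨1, 0, τ, fun _ => 1, le_rfl, by simp, hτ, analyticAt_const,
    freq_one h0 hτ.continuousAt hne, freq_one h0 continuousAt_const one_ne_zero,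
    Eventually.of_forall fun w _ _ => by simp⟩

theorem HasOrd.of_analytic (h0 : w₁ 0 = 0) (hτ : AnalyticAt ℂ τ w₁)
    (hne : ¬ ∀ᶠ w in 𝓝 w₁, τ w = 0) : ∃ μ : ℕ, HasOrd D w₁ τ μ ∧
      ((∀ᶠ w in 𝓝 w₁, w 0 = 0 → τ w = 0) → 1 ≤ μ) := by
  obtain ⟨μ, F, hF, hτF, hFne⟩ := exists_max_pow hτ h0 hne
  have h1 : ∃ᶠ w in 𝓝 w₁, w 0 = 0 ∧ F w ≠ 0 := by
    rw [Filter.not_eventually] at hFne
    refine hFne.mono fun w hw => ?_
    push Not at hw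
    exact hw
  refine ⟨μ, ⟨1, μ, F, fun _ => 1, le_rfl, by simp, hF, analyticAt_const, h1,
    freq_one h0 continuousAt_const one_ne_zero, ?_⟩, ?_⟩
  · filter_upwards [hτF] with w g1 _ _
    rw [one_mul, pow_one, g1, zpow_natCast]
  · intro h2
    by_contra hμ
    have hμ0 : μ = 0 := by omega
    obtain ⟨w, ⟨k1, k2⟩, k3, k4⟩ := (h1.and_eventually (hτF.and h2)).exists
    rw [hμ0, pow_zero, one_mul] at k3
    exact k2 (k3 ▸ k4 k1)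

/-- density of `D` near `w₁` -/
def DenseNear (D : Set (Cm 4)) (w₁ : Cm 4) : Prop :=
  ∀ᶠ w in 𝓝 w₁, w ∈ closure {w | w ∈ D ∧ w 0 ≠ 0}

theorem DenseNear.freq (h : DenseNear D w₁) {p : Cm 4 → Prop} (hp : ∀ᶠ w in 𝓝 w₁, p w) :
    ∃ w, p w ∧ w ∈ D ∧ w 0 ≠ 0 := by
  obtain ⟨w, hw, hw'⟩ := mem_closure_iff_nhds.1 h.self_of_nhds _ hp
  exact ⟨w, hw, hw'⟩

/-- uniqueness of the order, up to continuous units -/
theorem HasOrd.unique' (h0 : w₁ 0 = 0) (hD : DenseNear D w₁)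
    (hτ : ∀ᶠ w in 𝓝 w₁, w ∈ D → w 0 ≠ 0 → τ w ≠ 0) (h : HasOrd D w₁ τ q)
    (h' : HasOrd D w₁ τ' q') {u : Cm 4 → ℂ} (hu : ∀ᶠ w in 𝓝 w₁, ContinuousAt u w ∧ u w ≠ 0)
    (hτu : ∀ᶠ w in 𝓝 w₁, w ∈ D → w 0 ≠ 0 → τ' w = u w * τ w) : q = q' := by
  obtain ⟨K, hK, H⟩ := h.raise
  obtain ⟨K', hK', H'⟩ := h'.raise
  obtain ⟨ν, A, B, h2, h3, h4, h5, h6, h7⟩ := H K' hK'
  obtain ⟨ν', A', B', h2', h3', h4', h5', h6', h7'⟩ := H' K hK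
  have hfr : ∃ᶠ w in 𝓝 w₁, w 0 = 0 ∧ (A w * B w) * (A' w * B' w) ≠ 0 :=
    freq_mul' h0 (h3.mul h4) (h3'.mul h4') (freq_mul' h0 h3 h4 h5 h6) (freq_mul' h0 h3' h4' h5' h6')
  obtain ⟨w₂, ⟨k0, k1⟩, k2, k3, k4, k5, k6, k7, k8, k9, k10, k11⟩ := (hfr.and_eventually
    (h3.eventually_analyticAt.and (h4.eventually_analyticAt.and (h3'.eventually_analyticAt.and
    (h4'.eventually_analyticAt.and (h7.eventually_nhds.and (h7'.eventually_nhds.and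
    (hu.and (hτu.eventually_nhds.and (hτ.eventually_nhds.and hD.eventually_nhds)))))))))).exists
  have hA : A w₂ ≠ 0 := fun h => k1 (by rw [h]; ring)
  have hB : B w₂ ≠ 0 := fun h => k1 (by rw [h]; ring)
  have hA' : A' w₂ ≠ 0 := fun h => k1 (by rw [h]; ring)
  have hB' : B' w₂ ≠ 0 := fun h => k1 (by rw [h]; ring)
  set l : Filter (Cm 4) := 𝓝 w₂ ⊓ 𝓟 {w | w ∈ D ∧ w 0 ≠ 0} with hl
  have hln : l ≤ 𝓝 w₂ := inf_le_left
  have hne : l.NeBot := mem_closure_iff_clusterPt.1 k11.self_of_nhds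
  have hlD : ∀ᶠ w in l, w ∈ D ∧ w 0 ≠ 0 :=
    (mem_inf_of_right (mem_principal_self _) : {w | w ∈ D ∧ w 0 ≠ 0} ∈ l)
  set R : Cm 4 → ℂ := fun w => A' w * B w / (u w ^ (K * K') * A w * B' w) with hR
  have hRc : ContinuousAt R w₂ := by
    refine (k4.continuousAt.mul k3.continuousAt).div (((k8.1.pow _).mul k2.continuousAt).mul
      k5.continuousAt) ?_
    exact mul_ne_zero (mul_ne_zero (pow_ne_zero _ k8.2) hA) hB'
  have hR0 : R w₂ ≠ 0 := div_ne_zero (mul_ne_zero hA' hB)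
    (mul_ne_zero (mul_ne_zero (pow_ne_zero _ k8.2) hA) hB')
  -- `w 0 ^ (ν - ν') = R w`
  have hrel : ∀ᶠ w in l, w 0 ^ (ν - ν') = R w := by
    filter_upwards [hlD, hln k6, hln k7, hln k9, hln k10,
      hln (k2.continuousAt.eventually_ne hA), hln (k5.continuousAt.eventually_ne hB'),
      hln (k8.1.eventually_ne k8.2)] with w ⟨m1, m2⟩ m3 m4 m5 m6 m7 m8 m9
    have e1 := m3 m1 m2
    have e2 := m4 m1 m2
    rw [m5 m1 m2, mul_comm K' K, mul_pow] at e2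
    have e3 := m6 m1 m2
    rw [hR, zpow_sub₀ m2]
    have e4 : w 0 ^ ν ≠ 0 := zpow_ne_zero _ m2
    have e5 : w 0 ^ ν' ≠ 0 := zpow_ne_zero _ m2
    have e6 : u w ^ (K * K') ≠ 0 := pow_ne_zero _ m9
    have e7 : τ w ^ (K * K') ≠ 0 := pow_ne_zero _ e3
    simp only
    rw [div_eq_div_iff e5 (mul_ne_zero (mul_ne_zero e6 m7) m8)]
    have e8 : w 0 ^ ν * (u w ^ (K * K') * A w * B' w) * τ w ^ (K * K') =
        A' w * B w * w 0 ^ ν' * τ w ^ (K * K') := by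
      calc w 0 ^ ν * (u w ^ (K * K') * A w * B' w) * τ w ^ (K * K')
          = (w 0 ^ ν * A w) * (B' w * (u w ^ (K * K') * τ w ^ (K * K'))) := by ring
        _ = (B w * τ w ^ (K * K')) * (w 0 ^ ν' * A' w) := by rw [e1, e2]
        _ = _ := by ring
    exact mul_right_cancel₀ e7 e8
  have ht0 : Tendsto (fun w : Cm 4 => w 0) l (𝓝[≠] 0) := by
    refine tendsto_nhdsWithin_iff.2 ⟨?_, hlD.mono fun w hw => hw.2⟩
    have := ((continuous_apply (0 : Fin 4)).tendsto w₂ : Tendsto (fun w : Cm 4 => w 0) _ _)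
    rw [k0] at this
    exact this.mono_left hln
  have hRt : Tendsto R l (𝓝 (R w₂)) := hRc.mono_left hln
  have hνν : ν = ν' := by
    rcases lt_trichotomy (ν - ν') 0 with hlt | heq | hgt
    · exfalso
      have h7 : Tendsto (fun x : ℂ => ‖x ^ (ν - ν')‖) (𝓝[≠] 0) atTop :=
        tendsto_norm_cobounded_atTop.comp (tendsto_zpow_nhdsNE_zero_cobounded hlt)
      have h8 : Tendsto (fun w : Cm 4 => ‖w 0 ^ (ν - ν')‖) l atTop := h7.comp ht0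
      have h9 : Tendsto (fun w => ‖R w‖) l (𝓝 ‖R w₂‖) := hRt.norm
      exact not_tendsto_nhds_of_tendsto_atTop h8 _
        (h9.congr' (hrel.mono fun w hw => by simp only [hw]))
    · omega
    · exfalso
      obtain ⟨n, hn⟩ : ∃ n : ℕ, ν - ν' = n := ⟨(ν - ν').toNat, by omega⟩
      have hn0 : n ≠ 0 := by omega
      have h8 : Tendsto (fun w : Cm 4 => w 0 ^ (ν - ν')) l (𝓝 0) := by
        rw [hn]
        simp only [zpow_natCast]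
        have := (tendsto_nhdsWithin_iff.1 ht0).1.pow n
        rwa [zero_pow hn0] at this
      exact hR0 (tendsto_nhds_unique hRt (h8.congr' hrel))
  have h8 : q * ((K * K' : ℕ) : ℚ) = q' * ((K * K' : ℕ) : ℚ) := by
    rw [← h2, hνν, h2', mul_comm K' K]
  have h9 : ((K * K' : ℕ) : ℚ) ≠ 0 := by
    exact_mod_cast (Nat.mul_pos hK hK').ne'
  exact mul_right_cancel₀ h9 h8

theorem HasOrd.unique (h0 : w₁ 0 = 0) (hD : DenseNear D w₁)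
    (hτ : ∀ᶠ w in 𝓝 w₁, w ∈ D → w 0 ≠ 0 → τ w ≠ 0) (h : HasOrd D w₁ τ q)
    (h' : HasOrd D w₁ τ q') : q = q' :=
  h.unique' (τ' := τ) h0 hD hτ h' (u := fun _ => 1)
    (Eventually.of_forall fun _ => ⟨continuousAt_const, one_ne_zero⟩)
    (Eventually.of_forall fun _ _ _ => (one_mul _).symm)

/-- the order is the same at the neighbouring points of `{w 0 = 0}` -/
theorem freq_eventually (h0 : w₁ 0 = 0) {A : Cm 4 → ℂ} (hA : AnalyticAt ℂ A w₁)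
    (h : ∃ᶠ w in 𝓝 w₁, w 0 = 0 ∧ A w ≠ 0) :
    ∀ᶠ w₂ in 𝓝 w₁, w₂ 0 = 0 → ∃ᶠ w in 𝓝 w₂, w 0 = 0 ∧ A w ≠ 0 := by
  obtain ⟨r, hr, hball⟩ := Metric.eventually_nhds_iff_ball.1 hA.eventually_analyticAt
  obtain ⟨w₃, ⟨h1, h2⟩, h3⟩ := (h.and_eventually (ball_mem_nhds w₁ hr)).exists
  filter_upwards [ball_mem_nhds w₁ hr] with w₂ hw₂ hw₂0
  exact freq_ne h0 hball h3 h1 hw₂ hw₂0 h2

theorem HasOrd.eventually (h0 : w₁ 0 = 0) (h : HasOrd D w₁ τ q) :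
    ∀ᶠ w in 𝓝 w₁, w 0 = 0 → HasOrd D w τ q := by
  obtain ⟨K, ν, A, B, h1, h2, h3, h4, h5, h6, h7⟩ := h
  filter_upwards [h3.eventually_analyticAt, h4.eventually_analyticAt, freq_eventually h0 h3 h5,
    freq_eventually h0 h4 h6, h7.eventually_nhds] with w g3 g4 g5 g6 g7 hw
  exact ⟨K, ν, A, B, h1, h2, g3, g4, g5 hw, g6 hw, g7⟩

/-- at a generic point the functions are units up to powers of `w 0` -/
theorem HasOrd.exists_unit (h0 : w₁ 0 = 0) {ι : Type} [Finite ι] {τ : ι → Cm 4 → ℂ} {q : ι → ℚ}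
    (h : ∀ i, HasOrd D w₁ (τ i) (q i)) : ∃ᶠ w₂ in 𝓝 w₁, w₂ 0 = 0 ∧ ∀ i, ∃ (K : ℕ) (ν : ℤ)
      (Φ : Cm 4 → ℂ), 1 ≤ K ∧ (ν : ℚ) = q i * K ∧ AnalyticAt ℂ Φ w₂ ∧ Φ w₂ ≠ 0 ∧
        ∀ᶠ w in 𝓝 w₂, w ∈ D → w 0 ≠ 0 → τ i w ^ K = w 0 ^ ν * Φ w := by
  have := Fintype.ofFinite ι
  choose K ν A B h1 h2 h3 h4 h5 h6 h7 using h
  have hfr := freq_prod h0 Finset.univ (A := fun i w => A i w * B i w)
    (fun i => (h3 i).mul (h4 i)) fun i => freq_mul' h0 (h3 i) (h4 i) (h5 i) (h6 i)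
  have hev : ∀ᶠ w₂ in 𝓝 w₁, ∀ i, AnalyticAt ℂ (A i) w₂ ∧ AnalyticAt ℂ (B i) w₂ ∧
      ∀ᶠ w in 𝓝 w₂, w ∈ D → w 0 ≠ 0 → B i w * τ i w ^ K i = w 0 ^ ν i * A i w := by
    rw [eventually_all]
    intro i
    filter_upwards [(h3 i).eventually_analyticAt, (h4 i).eventually_analyticAt,
      (h7 i).eventually_nhds] with w g1 g2 g3
    exact ⟨g1, g2, g3⟩
  refine (hfr.and_eventually hev).mono ?_
  rintro w₂ ⟨⟨g1, g2⟩, g3⟩
  refine ⟨g1, fun i => ⟨K i, ν i, fun w => A i w / B i w, h1 i, h2 i, ?_, ?_, ?_⟩⟩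
  · exact (g3 i).1.div (g3 i).2.1 (right_ne_zero_of_mul (g2 i (Finset.mem_univ i)))
  · exact div_ne_zero (left_ne_zero_of_mul (g2 i (Finset.mem_univ i)))
      (right_ne_zero_of_mul (g2 i (Finset.mem_univ i)))
  · filter_upwards [(g3 i).2.2, (g3 i).2.1.continuousAt.eventually_ne
      (right_ne_zero_of_mul (g2 i (Finset.mem_univ i)))] with w m1 m2 hD hw
    have := m1 hD hw
    field_simp
    linear_combination this

end Vale.Agent.P277.H615
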