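import Vale.Agent.P277.H615.TAc
import Vale.Agent.P277.H615.TX2c
import Vale.Agent.P277.H615.R.HasOrd

/-!
# P277, real coefficients: wedges of the flipped surfaces, the orders and the Jacobian
-/

open scoped Manifold ContDiff Topology
open Vale.Agent.P272.K Vale.Agent.P285.H281.FD Vale.Agent.P267.H175 Set Filter

noncomputable section

namespace Vale.Agent.P277.H615

open Vale.Agent.P277 Vale.Agent.P277.H19

theorem isLB_inv {Y : Type} [TopologicalSpace Y] [ChartedSpace (Cm 4) Y] {M : Bd Y}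
    (hM : IsLB 4 M) : IsLB 4 (Bd.inv M) where
  isOpen := hM.isOpen
  cover := hM.cover
  holo i j e x he hi hj := by
    have h1 := hM.holo i j e x he hi hj
    have h2 : M.g i j (e.symm (e x)) ≠ 0 := by
      rw [e.left_inv he.2]; exact hM.ne_zero i j x hi hj
    exact h1.inv h2
  ne_zero i j x hi hj := inv_ne_zero (hM.ne_zero i j x hi hj)
  cocycle i j k x hi hj hk := by
    show (M.g i j x)⁻¹ * (M.g j k x)⁻¹ = (M.g i k x)⁻¹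
    rw [← mul_inv, hM.cocycle i j k x hi hj hk]

section

variable {Y : Type} [TopologicalSpace Y] [T2Space Y] [CompactSpace Y] [ChartedSpace (Cm 4) Y]
  [IsManifold 𝓘(ℂ, Cm 4) ω Y]

/-- the wedge of the surface `S` -/
theorem exists_wedge (hTA : T2.StTAc) {X : CSp} {O : Set Y} {v : Y → X.pt}
    (hv : IsOpenEmb X O v) (hO : DimLe X 2 (v '' O)ᶜ) {S : Set X.pt} (hSan : IsAn X univ S)
    (hSO : S ⊆ (v '' O)ᶜ) (hS1 : ¬ DimLe X 1 S) (hs : DimLe X 1 {x | x ∈ S ∧ ¬ IsReg 4 X x}) :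
    ∃ (ξ : Cm 4 → X.pt) (r : ℝ), 0 < r ∧ LocIso X ξ (Metric.ball 0 r) ∧
      IsOpen {w : Cm 4 | bl w ∈ Metric.ball (0 : Cm 4) r} ∧
      (0 : Cm 4) ∈ {w : Cm 4 | bl w ∈ Metric.ball (0 : Cm 4) r} ∧
      (∀ w : Cm 4, bl w ∈ Metric.ball (0 : Cm 4) r → HolAt X (fun w => ξ (bl w)) w) ∧
      (∀ w : Cm 4, bl w ∈ Metric.ball (0 : Cm 4) r → w 0 = 0 → ξ (bl w) ∈ S) ∧
      {w : Cm 4 | bl w ∈ Metric.ball (0 : Cm 4) r} ⊆ closure {w |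
        w ∈ {w : Cm 4 | bl w ∈ Metric.ball (0 : Cm 4) r} ∧ ξ (bl w) ∈ v '' O} := by
  have hS2 : DimLe X 2 S := hO.mono hSO
  obtain ⟨ξ, r, hr, hinj, hopen, hhol, hξS⟩ := hTA X S hSan hS2 hS1 hs
  set B : Set (Cm 4) := Metric.ball 0 r with hB
  have hξ : LocIso X ξ B := ⟨Metric.isOpen_ball, hinj, hopen, hhol⟩
  have hWo : IsOpen {w : Cm 4 | bl w ∈ B} := Metric.isOpen_ball.preimage continuous_bl
  have hbl0 : bl 0 = 0 := by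
    ext i
    fin_cases i
    · rfl
    · change (0 : ℂ) * 0 = 0; ring
    · rfl
    · rfl
  have hφ : ∀ w : Cm 4, bl w ∈ B → HolAt X (fun w => ξ (bl w)) w := fun w hw =>
    (hξ.holAt hw).comp (analyticAt_bl w)
  refine ⟨ξ, r, hr, hξ, hWo, ?_, hφ, ?_, ?_⟩
  · change bl 0 ∈ B
    rw [hbl0]; exact Metric.mem_ball_self hr
  · intro w hw h0
    refine hξS _ hw ?_ ?_
    · exact h0
    · change w 0 * w 1 = 0
      rw [h0, zero_mul]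
  · intro w hw
    rw [mem_closure_iff_nhds]
    intro N hN
    obtain ⟨N', hN'N, hN'o, hwN'⟩ := mem_nhds_iff.1 (inter_mem hN (hWo.mem_nhds hw))
    obtain ⟨w', hw', hw'0⟩ := exists_ne_zero (hN'o.mem_nhds hwN')
    have h1 : IsOpen (N' ∩ {w : Cm 4 | w 0 ≠ 0}) :=
      hN'o.inter (isOpen_ne_fun (continuous_apply 0) continuous_const)
    obtain ⟨z, ⟨w'', hw'', rfl⟩, hz2⟩ := hξ.dense (by norm_num) hO
      (isOpen_image_bl h1 fun w hw => hw.2) (image_subset_iff.2 fun w hw => (hN'N hw.1).2)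
      ⟨bl w', mem_image_of_mem bl ⟨hw', hw'0⟩⟩
    exact ⟨w'', (hN'N hw''.1).1, (hN'N hw''.1).2, by simpa using hz2⟩

/-- (TXV) `T ^ K = w 0 ^ ν` up to units, the Jacobian of the lift is `w 0 ^ J` up to units: then
`ν = Q K (m (1 - J) - κ)` with an integer `κ`, and `κ ≥ 0` if `M` is nef. -/
theorem txV (hTD : StTD) (hDis : T2.StDis) {X : CSp} {O : Set Y} {v : Y → X.pt}
    (hv : IsOpenEmb X O v) (hO : DimLe X 2 (v '' O)ᶜ) {S : Set X.pt}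
    (hSO : S ⊆ (v '' O)ᶜ) {ξ : Cm 4 → X.pt} {r : ℝ} (hξ : LocIso X ξ (Metric.ball 0 r))
    (hφS : ∀ w : Cm 4, bl w ∈ Metric.ball (0 : Cm 4) r → w 0 = 0 → ξ (bl w) ∈ S)
    {M : Bd Y} (hM : IsLB 4 M) {m : ℕ} {L : Bd X.pt} (hL : IsLBx X L) {Q : ℕ} (hQ : 1 ≤ Q)
    {T : L.ι → ((((Bd.can 4 Y).pow m).mul M).pow Q).ι → Y → ℂ}
    (hT : IsIsoY O v L ((((Bd.can 4 Y).pow m).mul M).pow Q) T)
    {w₁ : Cm 4} (hw₁ : bl w₁ ∈ Metric.ball (0 : Cm 4) r) (hw₁0 : w₁ 0 = 0) {γ₀ : Cm 4 → Y}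
    {e₁ : Chart 4 Y} {a : M.ι} {i : L.ι} (hγc : ContinuousAt γ₀ w₁) (he₁ : At e₁ (γ₀ w₁))
    (ha : γ₀ w₁ ∈ M.U a) (hγa₁ : AnalyticAt ℂ (fun w => e₁ (γ₀ w)) w₁)
    (hlift : ∀ᶠ w in 𝓝 w₁, ξ (bl w) ∈ v '' O → γ₀ w ∈ O ∧ v (γ₀ w) = ξ (bl w))
    (hi : ξ (bl w₁) ∈ L.U i) {K : ℕ} (hK : 1 ≤ K) {ν : ℤ} {Φ : Cm 4 → ℂ}
    (hΦ : ContinuousAt Φ w₁) (hΦ0 : Φ w₁ ≠ 0)
    (hΦT : ∀ᶠ w in 𝓝 w₁, γ₀ w ∈ O → w 0 ≠ 0 → T i (e₁, a) (γ₀ w) ^ K = w 0 ^ ν * Φ w)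
    {J : ℕ} {ΦJ : Cm 4 → ℂ} (hΦJ : ContinuousAt ΦJ w₁) (hΦJ0 : ΦJ w₁ ≠ 0)
    (hJ : ∀ᶠ w in 𝓝 w₁, (fderiv ℂ (fun w => e₁ (γ₀ w)) w).det = w 0 ^ J * ΦJ w) :
    ∃ κ : ℤ, ν = Q * K * (m * (1 - J) - κ) ∧
      ∀ χ : Chart 4 Y → Cm 4 → Matrix (Fin 4) (Fin 4) ℂ, IsKahler χ → Nef χ M → 0 ≤ κ := by
  set B : Set (Cm 4) := Metric.ball 0 r with hB
  have hvO : IsOpen (v '' O) := hv.isOpen_image
  have hWo : IsOpen {w : Cm 4 | bl w ∈ B} := Metric.isOpen_ball.preimage continuous_bl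
  have hφ : ∀ w : Cm 4, bl w ∈ B → HolAt X (fun w => ξ (bl w)) w := fun w hw =>
    (hξ.holAt hw).comp (analyticAt_bl w)
  set y₀ : Y := γ₀ w₁ with hy₀
  set ρ : Cm 4 → Y := fun w => hv.inv y₀ (ξ w) with hρ
  -- conditions near `w₁`
  have c1 : ∀ᶠ w in 𝓝 w₁, bl w ∈ B := hWo.mem_nhds hw₁
  have c2 : ∀ᶠ w in 𝓝 w₁, ξ (bl w) ∈ L.U i := (hφ w₁ hw₁).1.eventually_mem ((hL.isOpen i).mem_nhds hi)
  have c3 : ∀ᶠ w in 𝓝 w₁, γ₀ w ∈ M.U a := hγc.eventually_mem ((hM.isOpen a).mem_nhds ha)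
  have c4 : ∀ᶠ w in 𝓝 w₁, At e₁ (γ₀ w) := by
    filter_upwards [hγc.eventually_mem (e₁.open_source.mem_nhds he₁.2)] with w hw
    exact ⟨he₁.1, hw⟩
  -- the lift is given by `ρ`
  have c7 : ∀ᶠ w in 𝓝 w₁, ξ (bl w) ∈ v '' O → γ₀ w ∈ O ∧ γ₀ w = ρ (bl w) := by
    filter_upwards [hlift] with w h1 h2
    obtain ⟨h3, h4⟩ := h1 h2
    refine ⟨h3, ?_⟩
    simp only [hρ]
    rw [← h4, hv.inv_apply y₀ h3]
  set b : ℤ := ν + m * Q * K * (J - 1) with hb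
  set Φ' : Cm 4 → ℂ := fun w => Φ w * ΦJ w ^ (m * Q * K) with hΦ'
  have hΦ'c : ContinuousAt Φ' w₁ := hΦ.mul (hΦJ.pow _)
  have hΦ'0 : Φ' w₁ ≠ 0 := mul_ne_zero hΦ0 (pow_ne_zero _ hΦJ0)
  -- the main relation
  have c8 : ∀ᶠ w in 𝓝 w₁, ξ (bl w) ∈ v '' O → w 0 ≠ 0 ∧ nf T ρ i a (bl w) ^ K = w 0 ^ b * Φ' w := by
    filter_upwards [c1, c2, c3, c4, c7.eventually_nhds, hΦT, hJ] with w d1 d2 d3 d4 d7 d8 d10 d9
    have hw0 : w 0 ≠ 0 := fun h0 => (hSO (hφS w d1 h0)) d9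
    obtain ⟨hγO, hγρ⟩ := d7.self_of_nhds d9
    have heq : (fun w => e₁ (γ₀ w)) =ᶠ[𝓝 w] fun w => e₁ (ρ (bl w)) := by
      filter_upwards [d7, (hφ w d1).1.eventually_mem (hvO.mem_nhds d9)] with w' h1 h2
      rw [(h1 h2).2]
    have hat : At e₁ (ρ (bl w)) := hγρ ▸ d4
    have hρan := hξ.rho_analyticAt hv y₀ d1 d9 hat
    have hJw : (fderiv ℂ (fun w => e₁ (γ₀ w)) w).det =
        (fderiv ℂ (fun w => e₁ (ρ w)) (bl w)).det * w 0 := by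
      rw [heq.fderiv_eq, ← det_fderiv_bl w]
      exact det_fderiv_comp (G := fun w => e₁ (ρ w)) (F := bl) hρan.differentiableAt
        (analyticAt_bl w).differentiableAt
    have hnf := nf_eq hM hL hT hξ hv y₀ d1 d9 d2 hat (hγρ ▸ d3 : ρ (bl w) ∈ M.U a)
    have hFw := d8 hγO hw0
    rw [hγρ] at hFw
    refine ⟨hw0, ?_⟩
    rw [d10] at hJw
    rw [hnf]
    have hx : w 0 ^ (m * Q * K) ≠ 0 := pow_ne_zero _ hw0
    refine mul_left_cancel₀ hx ?_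
    have e1 : w 0 ^ (m * Q * K) * w 0 ^ b = w 0 ^ ν * w 0 ^ (J * (m * Q * K)) := by
      rw [← zpow_natCast, ← zpow_natCast, ← zpow_add₀ hw0, ← zpow_add₀ hw0]
      congr 1
      push_cast
      rw [hb]
      ring
    generalize (fderiv ℂ (fun w => e₁ (ρ w)) (bl w)).det = Dd at *
    generalize T i (e₁, a) (ρ (bl w)) = t at *
    have e2 : w 0 ^ (m * Q * K) * (t * Dd ^ (m * Q)) ^ K = t ^ K * (Dd * w 0) ^ (m * Q * K) := by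
      ring
    rw [e2, hFw, ← hJw, ← mul_assoc, e1]
    simp only [hΦ']
    rw [mul_pow, ← pow_mul]
    ring
  obtain ⟨r', E₀, Ω, g, ρ', n, w₃, γ₁, τ, g1, g2, g3, g4, g5, g6, g7, g8, g9, g10, g11, g12, g13,
    g14, g15, g16, g17, g18⟩ := core_data hM hv hO hL hT hξ y₀ K hw₁0 hw₁ hi ha he₁ hγc hγa₁ c7
  have hΦ'' : ContinuousAt (fun w => Φ' (w + τ)) w₃ :=
    ContinuousAt.comp (g := Φ') (f := fun w => w + τ) (by rw [g15]; exact hΦ'c) (by fun_prop)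
  have hΦ''0 : Φ' (w₃ + τ) ≠ 0 := by rw [g15]; exact hΦ'0
  have hrel : ∀ᶠ w in 𝓝 w₃, bl w ∉ E₀ → w 0 ≠ 0 ∧ n a (bl w) = w 0 ^ b * Φ' (w + τ) := by
    filter_upwards [g17.eventually c8, g18] with w h1 h2 h3
    obtain ⟨h4, h5⟩ := h2 h3
    obtain ⟨h0, h6⟩ := h1 h4
    rw [Pi.add_apply, g16, add_zero] at h6 h0
    exact ⟨h0, by rw [h5, h6]⟩
  have hdvd : ((Q * K : ℕ) : ℤ) ∣ b := by
    rcases le_or_gt b 0 with hb0 | hb0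
    · obtain ⟨c, hc⟩ : ∃ c : ℕ, b = -c := ⟨(-b).toNat, by omega⟩
      have h1 : Q * K ∣ c := by
        refine hDis Y M hM (Q * K) (Nat.mul_pos hQ hK) r' g1 E₀ g2 Ω g g3 g4 g5 ρ' g6 n g7 g8 w₃ g9
          g10 γ₁ g11 g12 g13 a g14 c (fun w => Φ' (w + τ)) hΦ'' hΦ''0 ?_
        filter_upwards [hrel] with w h1 h3
        obtain ⟨h4, h5⟩ := h1 h3
        rw [h5, hc, zpow_neg, zpow_natCast]
        have := pow_ne_zero c h4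
        field_simp
      rw [hc]
      exact (Int.natCast_dvd_natCast.2 h1).neg_right
    · obtain ⟨c, hc⟩ : ∃ c : ℕ, b = c := ⟨b.toNat, by omega⟩
      have h1 : Q * K ∣ c := by
        refine hDis Y (Bd.inv M) (isLB_inv hM) (Q * K) (Nat.mul_pos hQ hK) r' g1 E₀ g2 Ω g g3 g4 g5
          ρ' g6 (fun i x => (n i x)⁻¹) (fun i x hx hi => ⟨(g7 i x hx hi).1.inv (g7 i x hx hi).2,
            inv_ne_zero (g7 i x hx hi).2⟩) (fun i j x hx hi hj => ?_) w₃ g9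
          g10 γ₁ g11 g12 g13 a g14 c (fun w => (Φ' (w + τ))⁻¹) (hΦ''.inv₀ hΦ''0)
          (inv_ne_zero hΦ''0) ?_
        · show (n i x)⁻¹ = (M.g i j (ρ' x))⁻¹ ^ (Q * K) * (n j x)⁻¹
          rw [g8 i j x hx hi hj, mul_inv, inv_pow]
        · filter_upwards [hrel] with w h1 h3
          obtain ⟨h4, h5⟩ := h1 h3
          rw [h5, hc, zpow_natCast, mul_inv]
          have := pow_ne_zero c h4
          field_simp
      rw [hc]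
      exact Int.natCast_dvd_natCast.2 h1
  obtain ⟨κ, hκ⟩ := hdvd
  refine ⟨-κ, ?_, fun χ hχ hNef => ?_⟩
  · push_cast at hκ
    linear_combination hκ - hb
  · by_contra hneg
    have hκ1 : 1 ≤ κ := by omega
    have hQK : (1 : ℤ) ≤ (Q * K : ℕ) := by exact_mod_cast Nat.mul_pos hQ hK
    have hb1 : 1 ≤ b := by
      rw [hκ]
      nlinarith
    obtain ⟨c, hc⟩ : ∃ c : ℕ, b = c := ⟨b.toNat, by omega⟩
    refine hTD Y χ hχ M hM hNef (Q * K) r' g1 E₀ g2 Ω g g3 g4 g5 ρ' g6 n g7 g8 w₃ g9 g10 γ₁ g11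
      g12 g13 a g14 c (by omega) (fun w => Φ' (w + τ)) hΦ'' hΦ''0 ?_
    filter_upwards [hrel] with w h1 h3
    rw [(h1 h3).2, hc, zpow_natCast]

end

end Vale.Agent.P277.H615
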