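import Vale.Agent.P277.H335.RegR
import Vale.Agent.P277.H615.Datum2
import Vale.Agent.P277.H615.R.TXV

/-!
# P277, real coefficients: the generic germ of a wedge centred in a flipped surface
-/

open scoped Manifold ContDiff Topology
open Vale.Agent.P272.K Vale.Agent.P285.H281.FD Vale.Agent.P267.H175 Set Filter Metric

noncomputable section

namespace Vale.Agent.P277.H615

open Vale.Agent.P277 Vale.Agent.P277.T2 Vale.Agent.P277.H335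
open Vale.Agent.P277.H19 (exists_max_pow analyticAt_det det_fderiv_comp)

/-- at a generic point the functions are units up to powers of `w 0` (common exponent), and the
given analytic functions do not vanish -/
theorem exists_unit'' {D : Set (Cm 4)} {w₁ : Cm 4} (h0 : w₁ 0 = 0) {ι κ : Type} [Fintype ι]
    [Fintype κ] {τ : ι → Cm 4 → ℂ} {q : ι → ℚ} (h : ∀ i, HasOrd D w₁ (τ i) (q i))
    {F : κ → Cm 4 → ℂ} (hF : ∀ j, AnalyticAt ℂ (F j) w₁)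
    (hF0 : ∀ j, ∃ᶠ w in 𝓝 w₁, w 0 = 0 ∧ F j w ≠ 0) :
    ∃ᶠ w₂ in 𝓝 w₁, w₂ 0 = 0 ∧ (∀ j, F j w₂ ≠ 0) ∧ ∃ K : ℕ, 1 ≤ K ∧ ∀ i,
      ∃ (ν : ℤ) (Φ : Cm 4 → ℂ), (ν : ℚ) = q i * K ∧ AnalyticAt ℂ Φ w₂ ∧ Φ w₂ ≠ 0 ∧
        ∀ᶠ w in 𝓝 w₂, w ∈ D → w 0 ≠ 0 → τ i w ^ K = w 0 ^ ν * Φ w := by
  choose K ν A B h1 h2 h3 h4 h5 h6 h7 using h
  have hfr1 := freq_prod h0 (Finset.univ : Finset (ι ⊕ κ))
    (A := fun i => Sum.elim (fun i w => A i w * B i w) F i)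
    (fun i => by
      rcases i with i | j
      · exact (h3 i).mul (h4 i)
      · exact hF j) (fun i => by
      rcases i with i | j
      · exact freq_mul' h0 (h3 i) (h4 i) (h5 i) (h6 i)
      · exact hF0 j)
  have hev : ∀ᶠ w₂ in 𝓝 w₁, ∀ i, AnalyticAt ℂ (A i) w₂ ∧ AnalyticAt ℂ (B i) w₂ ∧
      ∀ᶠ w in 𝓝 w₂, w ∈ D → w 0 ≠ 0 → B i w * τ i w ^ K i = w 0 ^ ν i * A i w := by
    rw [eventually_all]
    intro i
    filter_upwards [(h3 i).eventually_analyticAt, (h4 i).eventually_analyticAt,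
      (h7 i).eventually_nhds] with w g1 g2 g3
    exact ⟨g1, g2, g3⟩
  refine (hfr1.and_eventually hev).mono ?_
  rintro w₂ ⟨⟨g1, g2⟩, g3⟩
  have g4 : ∀ i, A i w₂ * B i w₂ ≠ 0 := fun i => g2 (Sum.inl i) (Finset.mem_univ _)
  have g5 : ∀ j, F j w₂ ≠ 0 := fun j => g2 (Sum.inr j) (Finset.mem_univ _)
  refine ⟨g1, g5, ∏ i, K i, Nat.one_le_iff_ne_zero.2 (Finset.prod_ne_zero_iff.2 fun i _ =>
    Nat.one_le_iff_ne_zero.1 (h1 i)), fun i => ?_⟩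
  obtain ⟨n, hn⟩ : K i ∣ ∏ i, K i := Finset.dvd_prod_of_mem _ (Finset.mem_univ i)
  refine ⟨ν i * n, fun w => (A i w / B i w) ^ n, ?_, ((g3 i).1.div (g3 i).2.1
    (right_ne_zero_of_mul (g4 i))).pow n, pow_ne_zero _ (div_ne_zero (left_ne_zero_of_mul (g4 i))
      (right_ne_zero_of_mul (g4 i))), ?_⟩
  · rw [hn]
    push_cast
    rw [h2 i]
    ring
  · filter_upwards [(g3 i).2.2, (g3 i).2.1.continuousAt.eventually_ne
      (right_ne_zero_of_mul (g4 i))] with w m1 m2 hD hw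
    have m3 : τ i w ^ K i = w 0 ^ ν i * (A i w / B i w) := by
      have := m1 hD hw
      field_simp
      linear_combination this
    rw [hn, pow_mul, m3, mul_pow, zpow_mul, zpow_natCast]

/-- division by powers of `w 0` -/
theorem exists_ord {h : Cm 4 → ℂ} {w₁ : Cm 4} (hh : AnalyticAt ℂ h w₁) (h0 : w₁ 0 = 0)
    (hz : ¬ ∀ᶠ w in 𝓝 w₁, h w = 0) : ∃ (a : ℕ) (g : Cm 4 → ℂ), AnalyticAt ℂ g w₁ ∧
      (∀ᶠ w in 𝓝 w₁, h w = w 0 ^ a * g w) ∧ ∃ᶠ w in 𝓝 w₁, w 0 = 0 ∧ g w ≠ 0 := by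
  obtain ⟨a, g, h1, h2, h3⟩ := exists_max_pow hh h0 hz
  refine ⟨a, g, h1, h2, ?_⟩
  rw [Filter.not_eventually] at h3
  refine h3.mono fun w hw => ?_
  push Not at hw
  exact hw

variable {Y : Type} [TopologicalSpace Y] [ChartedSpace (Cm 4) Y]

/-- A wedge `φ` of `X` centred in `S`, and its lift `γ` to `Y`, near a generic point `w₂`; `x` are
the orders of the functions `T e` and `J` is the order of the Jacobian. -/
structure GermV {k : ℕ} {X : CSp} {M : Fin k → Bd Y} {m : Fin k → ℕ} {L : Fin k → Bd X.pt}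
    (O : Set Y) (v : Y → X.pt)
    (T : ∀ e, (L e).ι → (((Bd.can 4 Y).pow (m e)).mul (M e)).ι → Y → ℂ) (S : Set X.pt)
    (W : Set (Cm 4)) (w₂ : Cm 4) (φ : Cm 4 → X.pt) (γ : Cm 4 → Y) (ch : Chart 4 Y)
    (μ : ∀ e, (M e).ι) (i : ∀ e, (L e).ι) (x : Fin k → ℚ) (J : ℕ) : Prop where
  isOpen : IsOpen W
  mem : w₂ ∈ W
  zero : w₂ 0 = 0
  hol : ∀ w ∈ W, HolAt X φ w
  inS : ∀ w ∈ W, w 0 = 0 → φ w ∈ S
  dense : W ⊆ closure {w | w ∈ W ∧ φ w ∈ v '' O}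
  lift : ∀ w ∈ W, ContinuousAt γ w ∧ At ch (γ w) ∧ AnalyticAt ℂ (fun w => ch (γ w)) w
  memN : ∀ w ∈ W, ∀ e, γ w ∈ (M e).U (μ e)
  memU : ∀ w ∈ W, ∀ e, φ w ∈ (L e).U (i e)
  lift1 : ∀ w ∈ W, φ w ∈ v '' O → γ w ∈ O
  lift2 : ∀ w ∈ W, γ w ∈ O → v (γ w) = φ w
  ord : ∀ w ∈ W, w 0 = 0 → ∀ e,
    HasOrd {w | γ w ∈ O} w (fun w => T e (i e) (ch, μ e) (γ w)) (x e)
  jac : ∃ ΦJ, AnalyticAt ℂ ΦJ w₂ ∧ ΦJ w₂ ≠ 0 ∧
    ∀ᶠ w in 𝓝 w₂, (fderiv ℂ (fun w => ch (γ w)) w).det = w 0 ^ J * ΦJ w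
  unit : ∃ K : ℕ, 1 ≤ K ∧ ∀ e, ∃ (ν : ℤ) (Φ : Cm 4 → ℂ), (ν : ℚ) = x e * K ∧
    AnalyticAt ℂ Φ w₂ ∧ Φ w₂ ≠ 0 ∧
    ∀ᶠ w in 𝓝 w₂, γ w ∈ O → w 0 ≠ 0 → T e (i e) (ch, μ e) (γ w) ^ K = w 0 ^ ν * Φ w

variable [T2Space Y] [CompactSpace Y] [IsManifold 𝓘(ℂ, Cm 4) ω Y]

theorem exists_germ (hTA : T2.StTAc) (hTD : StTD) (hDis : T2.StDis) {k : ℕ} {V X : CSp}
    {vV : Y → V.pt} {D : Set Y} {M : Fin k → Bd Y} {m : Fin k → ℕ}
    {L : Fin k → Bd X.pt} {c : Fin k → ℕ} {O : Set Y} {v : Y → X.pt} {P Q : Fin k → ℕ}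
    {T : ∀ e, (L e).ι → (((Bd.can 4 Y).pow (m e)).mul (M e)).ι → Y → ℂ} {ρ : Fin k → ℝ}
    {S : Set X.pt} (hk : 1 ≤ k) (hM : ∀ e, IsLB 4 (M e))
    (hTw : TwV vV D (fun e => ((Bd.can 4 Y).pow (m e)).mul (M e)) X L c O v P Q T ρ S)
    (hSan : IsAn X univ S) (hSO : S ⊆ (v '' O)ᶜ) (hS1 : ¬ DimLe X 1 S)
    (hs : DimLe X 1 {x | x ∈ S ∧ ¬ IsReg 4 X x}) {s : ℕ} {β : Fin s → Fin k}
    {sg : ∀ i, (M (β i)).ι → Y → ℂ} (hsec : ∀ i, IsSec 4 (M (β i)) (sg i))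
    (hsg : ∀ i a y, y ∈ (M (β i)).U a → ∃ᶠ y' in 𝓝 y, sg i a y' ≠ 0) :
    ∃ (W : Set (Cm 4)) (w₂ : Cm 4) (φ : Cm 4 → X.pt) (γ : Cm 4 → Y) (ch : Chart 4 Y)
      (μ : ∀ e, (M e).ι) (i : ∀ e, (L e).ι) (x : Fin k → ℚ) (J : ℕ) (κ : Fin k → ℤ)
      (g : Fin s → ℕ), GermV O v T S W w₂ φ γ ch μ i x J ∧ 0 < ∑ e, ρ e / Q e * x e ∧
      (∀ e, x e = Q e * (m e * (1 - J) - κ e)) ∧
      (∀ e, ∀ χ : Chart 4 Y → Cm 4 → Matrix (Fin 4) (Fin 4) ℂ, IsKahler χ → Nef χ (M e) →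
        0 ≤ κ e) ∧
      ∀ a, ∃ Φg, AnalyticAt ℂ Φg w₂ ∧ Φg w₂ ≠ 0 ∧
        ∀ᶠ w in 𝓝 w₂, sg a (μ (β a)) (γ w) = w 0 ^ g a * Φg w := by
  have hv : IsOpenEmb X O v := (hTw.tw ⟨0, hk⟩).emb
  have hO : DimLe X 2 (v '' O)ᶜ := (hTw.tw ⟨0, hk⟩).dim
  obtain ⟨ξ, r, hr, hξ, hWo, h0W, hφ, hφS, hφd⟩ := exists_wedge hTA hv hO hSan hSO hS1 hs
  set φ : Cm 4 → X.pt := fun w => ξ (bl w) with hφdef
  set WB : Set (Cm 4) := {w : Cm 4 | bl w ∈ ball (0 : Cm 4) r} with hWB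
  choose i hi using fun e => (hTw.lb e).cover (φ 0)
  set W' : Set (Cm 4) := {w | w ∈ WB ∧ φ w ∈ ⋂ e, (L e).U (i e)} with hW'
  have hW'o : IsOpen W' := by
    have h1 : ContinuousOn φ WB := fun w hw => (hφ w hw).1.continuousWithinAt
    exact h1.isOpen_inter_preimage hWo (isOpen_iInter_of_finite fun e => (hTw.lb e).isOpen (i e))
  have hcl' : W' ⊆ closure {w | w ∈ W' ∧ φ w ∈ v '' O} :=
    subset_closure_of_open hW'o (fun w hw => hw.1) hφd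
  have hW'i : ∀ w ∈ W', ∀ e, φ w ∈ (L e).U (i e) := fun w hw e => mem_iInter.1 hw.2 e
  obtain ⟨w₁, hw₁, hw₁0, W₁, γ, ch, cc, x, hW₁, hw₁W, hW₁W, hγ, hO1, hO2, hT, -, hpos⟩ :=
    hTw.chain W' 0 φ i hW'o ⟨h0W, mem_iInter.2 hi⟩ rfl (fun w hw => hφ w hw.1) hcl' hW'i
  have hpos := hpos fun w hw hw0 => hφS w hw.1 hw0
  obtain ⟨g1, g2, g3, g4⟩ := hγ w₁ hw₁W
  have hW₁n := hW₁.mem_nhds hw₁W
  have hdW₁ : W₁ ⊆ closure {w | w ∈ W₁ ∧ φ w ∈ v '' O} :=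
    subset_closure_of_open hW₁ hW₁W hcl'
  -- the orders in a common chart
  have hord : ∀ e, HasOrd {w | γ w ∈ O} w₁ (fun w => T e (i e) (ch, (cc e).2) (γ w)) (x e) := by
    intro e
    refine RR.hasOrd_change (hM e) (hTw.tw e).lb (hTw.tw e).iso hw₁0 g1 (φ := φ) ?_ ?_
      (e := (cc e).1) (g4 e).1 g2 (g4 e).2 g3 (hT e)
    · filter_upwards [hW₁n] with w hw using hW'i w (hW₁W hw) e
    · filter_upwards [hW₁n] with w hw using hO2 w hw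
  -- the Jacobian
  have hdet : ∀ w ∈ W₁, φ w ∈ v '' O → (fderiv ℂ (fun w => ch (γ w)) w).det ≠ 0 := by
    intro w hw hwO
    have hwB : bl w ∈ ball (0 : Cm 4) r := (hW₁W hw).1
    have hw0 : w 0 ≠ 0 := fun h0 => (hSO (hφS w hwB h0)) hwO
    set y₀ : Y := γ w with hy₀
    have h1 : ∀ᶠ z in 𝓝 w, γ z = hv.inv y₀ (ξ (bl z)) := by
      filter_upwards [hW₁.mem_nhds hw, (hφ w hwB).1.eventually_mem
        (hv.isOpen_image.mem_nhds hwO)] with z hz hzO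
      have h2 := hO1 z hz hzO
      have h3 := hO2 z hz h2
      have h4 : ξ (bl z) = v (γ z) := h3.symm
      rw [h4, hv.inv_apply y₀ h2]
    have heq : (fun w => ch (γ w)) =ᶠ[𝓝 w] fun w => ch (hv.inv y₀ (ξ (bl w))) := by
      filter_upwards [h1] with z hz
      rw [hz]
    have hat : At ch (hv.inv y₀ (ξ (bl w))) := by
      rw [← h1.self_of_nhds]; exact (hγ w hw).2.1
    have hρan := hξ.rho_analyticAt hv y₀ hwB hwO hat
    have hJw : (fderiv ℂ (fun w => ch (γ w)) w).det =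
        (fderiv ℂ (fun w => ch (hv.inv y₀ (ξ w))) (bl w)).det * w 0 := by
      rw [heq.fderiv_eq, ← H19.det_fderiv_bl w]
      exact det_fderiv_comp (G := fun w => ch (hv.inv y₀ (ξ w))) (F := bl) hρan.differentiableAt
        (H19.analyticAt_bl w).differentiableAt
    rw [hJw]
    exact mul_ne_zero (hξ.rho_det_ne_zero hv y₀ hwB hwO hat) hw0
  have hJz : ¬ ∀ᶠ w in 𝓝 w₁, (fderiv ℂ (fun w => ch (γ w)) w).det = 0 := by
    intro hz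
    obtain ⟨w, ⟨h1, h2⟩, h3, h4⟩ := mem_closure_iff_nhds.1 (hdW₁ hw₁W) _
      (hz.and (hW₁.mem_nhds hw₁W))
    exact hdet w h3 h4 h1
  obtain ⟨J, FJ, hFJ, hJFJ, hFJ0⟩ := exists_ord (analyticAt_det g3) hw₁0 hJz
  -- the sections
  have hsga : ∀ a, AnalyticAt ℂ (fun w => sg a ((cc (β a)).2) (γ w)) w₁ := by
    intro a
    exact analyticAt_comp_chart g1 g2 g3
      ((hsec a).holo _ ch _ g2 (g4 (β a)).2).analyticAt
  have hsgz : ∀ a, ¬ ∀ᶠ w in 𝓝 w₁, sg a ((cc (β a)).2) (γ w) = 0 := by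
    intro a hz
    obtain ⟨w, ⟨h1, h2⟩, h3, h4⟩ := mem_closure_iff_nhds.1 (hdW₁ hw₁W) _
      (hz.eventually_nhds.and (hW₁.mem_nhds hw₁W))
    have h5 := hdet w h3 h4
    obtain ⟨k1, k2, k3, k4⟩ := hγ w h3
    have hinj : Function.Injective (fderiv ℂ (fun w => ch (γ w)) w) := by
      have h1 : LinearMap.det (fderiv ℂ (fun w => ch (γ w)) w : Cm 4 →ₗ[ℂ] Cm 4) ≠ 0 := h5
      exact (LinearMap.equivOfDetNeZero _ h1).injective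
    obtain ⟨θ, hθ, hθs, -, -⟩ := H73.exists_localInv k3 hinj
    -- near `γ w` the section vanishes
    have h6 : ∀ᶠ y' in 𝓝 (γ w), sg a ((cc (β a)).2) y' = 0 := by
      have h7 : Tendsto (fun y' => θ.symm (ch y')) (𝓝 (γ w)) (𝓝 w) := by
        have h8 : ContinuousAt ch (γ w) := ch.continuousAt k2.2
        have h9 : ch (γ w) ∈ θ.target := by
          have := θ.map_source hθs
          rwa [hθ] at this
        have h10 : ContinuousAt θ.symm (ch (γ w)) := θ.continuousAt_symm h9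
        have h11 : Tendsto (fun y' => θ.symm (ch y')) (𝓝 (γ w)) (𝓝 (θ.symm (ch (γ w)))) :=
          (ContinuousAt.comp (g := θ.symm) (f := ch) h10 h8)
        have h12 : θ.symm (ch (γ w)) = w := by
          have := θ.left_inv hθs
          rwa [hθ] at this
        rwa [h12] at h11
      have h9 : ∀ᶠ y' in 𝓝 (γ w), ch y' ∈ θ.target := by
        refine (ch.continuousAt k2.2).eventually_mem (θ.open_target.mem_nhds ?_)
        have := θ.map_source hθs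
        rwa [hθ] at this
      filter_upwards [h7.eventually h1, h7.eventually (hW₁.mem_nhds h3), h9,
        ch.open_source.mem_nhds k2.2] with y' m1 m2 m3 m4
      have m5 : ch (γ (θ.symm (ch y'))) = ch y' := by
        have := θ.right_inv m3
        rwa [hθ] at this
      have m6 : γ (θ.symm (ch y')) = y' := ch.injOn (hγ _ m2).2.1.2 m4 m5
      rw [m6] at m1
      exact m1
    exact (hsg a _ _ (k4 (β a)).2) (h6.mono fun y' hy' => by simpa using hy')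
  choose g Fg hFg hgFg hFg0 using fun a => exists_ord (hsga a) hw₁0 (hsgz a)
  -- a generic point
  have hfr := exists_unit'' hw₁0 hord (κ := Option (Fin s))
    (F := fun o => o.elim FJ Fg) (fun o => by
      rcases o with _ | a
      · exact hFJ
      · exact hFg a) (fun o => by
      rcases o with _ | a
      · exact hFJ0
      · exact hFg0 a)
  have hev : ∀ᶠ w in 𝓝 w₁, w ∈ W₁ ∧ (∀ e, w 0 = 0 →
      HasOrd {w | γ w ∈ O} w (fun w => T e (i e) (ch, (cc e).2) (γ w)) (x e)) ∧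
      AnalyticAt ℂ FJ w ∧ (∀ᶠ z in 𝓝 w, (fderiv ℂ (fun w => ch (γ w)) z).det = z 0 ^ J * FJ z) ∧
      ∀ a, AnalyticAt ℂ (Fg a) w ∧ ∀ᶠ z in 𝓝 w, sg a ((cc (β a)).2) (γ z) = z 0 ^ g a * Fg a z := by
    refine (hW₁.eventually_mem hw₁W).and (Filter.Eventually.and ?_
      (hFJ.eventually_analyticAt.and (hJFJ.eventually_nhds.and ?_)))
    · rw [eventually_all]
      exact fun e => (hord e).eventually hw₁0
    · rw [eventually_all]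
      exact fun a => (hFg a).eventually_analyticAt.and (hgFg a).eventually_nhds
  obtain ⟨W₂, hW₂s, hW₂, hw₁W₂⟩ := _root_.mem_nhds_iff.1 hev
  obtain ⟨w₂, ⟨hw₂0, hFne, K, hK, hdat⟩, hw₂W⟩ := (hfr.and_eventually (hW₂.mem_nhds hw₁W₂)).exists
  choose ν Φ hν hΦ hΦ0 hrel using hdat
  have hw₂W₁ : w₂ ∈ W₁ := (hW₂s hw₂W).1
  obtain ⟨k1, k2, k3, k4⟩ := hγ w₂ hw₂W₁
  obtain ⟨-, -, m3, m4, m5⟩ := hW₂s hw₂W
  have hκ : ∀ e, ∃ κ : ℤ, ν e = Q e * K * (m e * (1 - J) - κ) ∧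
      ∀ χ : Chart 4 Y → Cm 4 → Matrix (Fin 4) (Fin 4) ℂ, IsKahler χ → Nef χ (M e) → 0 ≤ κ := by
    intro e
    refine txV hTD hDis hv hO hSO hξ hφS (hM e) (hTw.tw e).lb (hTw.tw e).hQ (hTw.tw e).iso
      (hW₁W hw₂W₁).1 hw₂0 k1 k2 (k4 e).2 k3 ?_ (hW'i w₂ (hW₁W hw₂W₁) e) hK (hΦ e).continuousAt
      (hΦ0 e) (hrel e) m3.continuousAt (hFne none) m4
    filter_upwards [hW₁.mem_nhds hw₂W₁] with w hw hwO
    exact ⟨hO1 w hw hwO, hO2 w hw (hO1 w hw hwO)⟩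
  choose κ hκ1 hκ2 using hκ
  refine ⟨W₂, w₂, φ, γ, ch, fun e => (cc e).2, i, x, J, κ, g, ⟨hW₂, hw₂W, hw₂0,
    fun w hw => hφ w (hW₁W (hW₂s hw).1).1, fun w hw hw0 => hφS w (hW₁W (hW₂s hw).1).1 hw0,
    subset_closure_of_open hW₂ (fun w hw => (hW₂s hw).1) hdW₁,
    fun w hw => ⟨(hγ w (hW₂s hw).1).1, (hγ w (hW₂s hw).1).2.1, (hγ w (hW₂s hw).1).2.2.1⟩,
    fun w hw e => ((hγ w (hW₂s hw).1).2.2.2 e).2, fun w hw => hW'i w (hW₁W (hW₂s hw).1),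
    fun w hw => hO1 w (hW₂s hw).1, fun w hw => hO2 w (hW₂s hw).1,
    fun w hw hw0 e => (hW₂s hw).2.1 e hw0, ⟨FJ, m3, hFne none, m4⟩,
    ⟨K, hK, fun e => ⟨ν e, Φ e, hν e, hΦ e, hΦ0 e, hrel e⟩⟩⟩, hpos, fun e => ?_, hκ2,
    fun a => ⟨Fg a, (m5 a).1, hFne (some a), (m5 a).2⟩⟩
  have h1 : (K : ℚ) ≠ 0 := by exact_mod_cast (Nat.one_le_iff_ne_zero.1 hK)
  have h2 : x e * K = Q e * (m e * (1 - J) - κ e) * K := by
    rw [← hν e, hκ1 e]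
    push_cast
    ring
  exact mul_right_cancel₀ h1 h2

end Vale.Agent.P277.H615
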