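import Vale.Agent.P277.H335.RegB
import Vale.Agent.P277.H615.R.DatumV
import Vale.Agent.P277.H615.R.WgDef

/-!
# P277, T3: the generic germ as a wedge; multiplicities of the boundary
-/

open scoped Manifold ContDiff Topology
open Vale.Agent.P272.K Vale.Agent.P285.H281.FD Vale.Agent.P267.H175 Set Filter Metric

noncomputable section

namespace Vale.Agent.P277.H615

open Vale.Agent.P277 Vale.Agent.P277.T2 Vale.Agent.P277.H335

section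
variable {Y : Type} [TopologicalSpace Y] [ChartedSpace (Cm 4) Y]

/-- a map with Jacobian `≠ 0` is open -/
theorem image_mem_nhds {W : Set (Cm 4)} (hW : IsOpen W) {γ : Cm 4 → Y} {ch : Chart 4 Y}
    (hγ : ∀ w ∈ W, ContinuousAt γ w ∧ At ch (γ w) ∧ AnalyticAt ℂ (fun w => ch (γ w)) w) {w : Cm 4}
    (hw : w ∈ W) (hdet : (fderiv ℂ (fun w => ch (γ w)) w).det ≠ 0) {U : Set (Cm 4)}
    (hU : U ∈ 𝓝 w) : γ '' U ∈ 𝓝 (γ w) := by
  obtain ⟨k1, k2, k3⟩ := hγ w hw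
  have hinj : Function.Injective (fderiv ℂ (fun w => ch (γ w)) w) := by
    have h1 : LinearMap.det (fderiv ℂ (fun w => ch (γ w)) w : Cm 4 →ₗ[ℂ] Cm 4) ≠ 0 := hdet
    exact (LinearMap.equivOfDetNeZero _ h1).injective
  obtain ⟨θ, hθ, hθs, -, -⟩ := H73.exists_localInv k3 hinj
  have h7 : Tendsto (fun y' => θ.symm (ch y')) (𝓝 (γ w)) (𝓝 w) := by
    have h8 : ContinuousAt ch (γ w) := ch.continuousAt k2.2
    have h9 : ch (γ w) ∈ θ.target := by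
      have := θ.map_source hθs
      rwa [hθ] at this
    have h10 : ContinuousAt θ.symm (ch (γ w)) := θ.continuousAt_symm h9
    have h11 : Tendsto (fun y' => θ.symm (ch y')) (𝓝 (γ w)) (𝓝 (θ.symm (ch (γ w)))) :=
      (ContinuousAt.comp (g := θ.symm) (f := ch) h10 h8)
    have h12 : θ.symm (ch (γ w)) = w := by
      have := θ.left_inv hθs
      rwa [hθ] at this
    rwa [h12] at h11
  have h9 : ∀ᶠ y' in 𝓝 (γ w), ch y' ∈ θ.target := by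
    refine (ch.continuousAt k2.2).eventually_mem (θ.open_target.mem_nhds ?_)
    have := θ.map_source hθs
    rwa [hθ] at this
  filter_upwards [h7.eventually_mem hU, h7.eventually (hW.mem_nhds hw), h9,
    ch.open_source.mem_nhds k2.2] with y' m1 m2 m3 m4
  have m5 : ch (γ (θ.symm (ch y'))) = ch y' := by
    have := θ.right_inv m3
    rwa [hθ] at this
  exact ⟨_, m1, ch.injOn (hγ _ m2).2.1.2 m4 m5⟩

theorem _root_.Vale.Agent.P277.H615.TwV.mono {k : ℕ} {V X : CSp} {vV : Y → V.pt} {D : Set Y}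
    {N : Fin k → Bd Y} {L : Fin k → Bd X.pt} {c : Fin k → ℕ} {O : Set Y} {v : Y → X.pt}
    {P Q : Fin k → ℕ} {T : ∀ e, (L e).ι → (N e).ι → Y → ℂ} {ρ : Fin k → ℝ} {S S' : Set X.pt}
    (h : TwV vV D N X L c O v P Q T ρ S) (hS : S' ⊆ S) : TwV vV D N X L c O v P Q T ρ S' where
  tw := h.tw
  lb := h.lb
  mult := h.mult
  chain := by
    intro W w₀ γ' i hW hw₀ h0 hγ' hcl hU
    obtain ⟨w₁, hw₁, hw₁0, W₁, γ₀, ch, c, q, h1, h2, h3, h4, h5, h6, h7, h8, h9⟩ :=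
      h.chain W w₀ γ' i hW hw₀ h0 hγ' hcl hU
    exact ⟨w₁, hw₁, hw₁0, W₁, γ₀, ch, c, q, h1, h2, h3, h4, h5, h6, h7, h8,
      fun h => h9 fun w hw hw0 => hS (h w hw hw0)⟩

variable {k : ℕ} {X : CSp} {M : Fin k → Bd Y} {m : Fin k → ℕ} {L : Fin k → Bd X.pt}
  {O : Set Y} {v : Y → X.pt} {T : ∀ e, (L e).ι → (((Bd.can 4 Y).pow (m e)).mul (M e)).ι → Y → ℂ}
  {S : Set X.pt} {W : Set (Cm 4)} {w₂ : Cm 4} {φ : Cm 4 → X.pt} {γ : Cm 4 → Y} {ch : Chart 4 Y}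
  {μ : ∀ e, (M e).ι} {i : ∀ e, (L e).ι} {x : Fin k → ℚ} {J : ℕ}

theorem GermV.freqO (h : GermV O v T S W w₂ φ γ ch μ i x J) (hSO : S ⊆ (v '' O)ᶜ) {w : Cm 4}
    (hw : w ∈ W) : ∃ᶠ w' in 𝓝 w, γ w' ∈ O ∧ w' 0 ≠ 0 := by
  rw [Filter.frequently_iff]
  intro U hU
  obtain ⟨w', ⟨h1, h2⟩, h3, h4⟩ := mem_closure_iff_nhds.1 (h.dense hw) _
    (inter_mem hU (h.isOpen.mem_nhds hw))
  exact ⟨w', h1, h.lift1 w' h2 h4, fun h6 => hSO (h.inS w' h2 h6) h4⟩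

/-- the centre is not contained in `O` -/
theorem GermV.notMem (h : GermV O v T S W w₂ φ γ ch μ i x J) (hSO : S ⊆ (v '' O)ᶜ) {w : Cm 4}
    (hw : w ∈ W) (hw0 : w 0 = 0) : γ w ∉ O := fun hwO =>
  hSO (h.inS w hw hw0) ⟨γ w, hwO, h.lift2 w hw hwO⟩

/-- the germ is a wedge, and nice -/
theorem GermV.exists_wg (h : GermV O v T S W w₂ φ γ ch μ i x J)
    [IsManifold 𝓘(ℂ, Cm 4) ω Y] : ∃ r, 0 < r ∧ ball w₂ r ⊆ W ∧
      IsWg γ (ball w₂ r) ∧ NiceW O v T γ (ball w₂ r) w₂ r φ i (fun e => (ch, μ e)) x := by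
  obtain ⟨ΦJ, hΦ1, hΦ2, hΦ3⟩ := h.jac
  obtain ⟨r, hr, hball⟩ := Metric.eventually_nhds_iff_ball.1
    ((h.isOpen.eventually_mem h.mem).and (hΦ3.and (hΦ1.continuousAt.eventually_ne hΦ2)))
  have hs : ball w₂ r ⊆ W := fun w hw => (hball w hw).1
  refine ⟨r, hr, hs, ⟨isOpen_ball, ⟨w₂, mem_ball_self hr, h.zero⟩, ?_,
    fun w hw => (h.lift w (hs hw)).1, fun w hw e he => ?_, ?_⟩, ⟨h.zero, hr, subset_rfl,
      fun w hw => h.hol w (hs hw), fun w hw => h.memU w (hs hw),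
      fun w hw e => ⟨(h.lift w (hs hw)).2.1, h.memN w (hs hw) e⟩,
      fun w hw hwO => (h.lift2 w (hs hw) hwO).symm, fun w hw => h.ord w (hs hw)⟩⟩
  · have h1 : Convex ℝ {w | w ∈ ball w₂ r ∧ w 0 = 0} := by
      have h2 : Convex ℝ {w : Cm 4 | w 0 = 0} := by
        intro a ha b hb s t _ _ _
        have ha' : a 0 = 0 := ha
        have hb' : b 0 = 0 := hb
        show (s • a + t • b) 0 = 0
        simp [ha', hb']
      exact (convex_ball w₂ r).inter h2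
    exact h1.isPreconnected
  · obtain ⟨k1, k2, k3⟩ := h.lift w (hs hw)
    exact H19.analyticAt_change k1 k2 he k3
  · intro O' hO' hd w hw
    rw [mem_closure_iff_nhds]
    intro U hU
    obtain ⟨w', hw', hw'0⟩ := H19.exists_ne_zero (interior_mem_nhds.2
      (inter_mem hU (isOpen_ball.mem_nhds hw)))
    have h1 : w' ∈ ball w₂ r := (interior_subset hw').2
    have hdet : (fderiv ℂ (fun w => ch (γ w)) w').det ≠ 0 := by
      rw [(hball w' h1).2.1]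
      exact mul_ne_zero (pow_ne_zero _ hw'0) (hball w' h1).2.2
    have h2 := image_mem_nhds h.isOpen h.lift (hs h1) hdet
      (isOpen_interior.mem_nhds hw')
    obtain ⟨_, ⟨z, hz, rfl⟩, hzO⟩ := mem_closure_iff_nhds.1 (hd (γ w')) _ h2
    have h3 := interior_subset hz
    exact ⟨z, h3.1, h3.2, hzO⟩

end

/-- strict version of `RR.ord_le_of_rel` -/
theorem ord_lt_of_rel {D : Set (Cm 4)} {w₂ : Cm 4} (h0 : w₂ 0 = 0)
    (hD : ∃ᶠ w in 𝓝 w₂, w ∈ D ∧ w 0 ≠ 0) {τ η Φ A : Cm 4 → ℂ} {K Q g : ℕ} {ν : ℤ} (hK : 1 ≤ K)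
    (hΦ : ContinuousAt Φ w₂) (hη : ContinuousAt η w₂) (hη0 : η w₂ = 0) (hA : ContinuousAt A w₂)
    (hA0 : A w₂ ≠ 0)
    (h1 : ∀ᶠ w in 𝓝 w₂, w ∈ D → w 0 ≠ 0 → τ w ^ K = w 0 ^ ν * Φ w)
    (h2 : ∀ᶠ w in 𝓝 w₂, w ∈ D → τ w * η w = (w 0 ^ g * A w) ^ Q) :
    ν < Q * K * g := by
  by_contra hlt
  push Not at hlt
  obtain ⟨n, hn⟩ : ∃ n : ℕ, ν = ((Q * K * g + n : ℕ) : ℤ) :=
    ⟨(ν - Q * K * g).toNat, by push_cast; omega⟩
  have hG : ContinuousAt (fun w : Cm 4 => w 0 ^ n * Φ w * η w ^ K - A w ^ (Q * K)) w₂ :=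
    (((continuous_apply (0 : Fin 4)).continuousAt.pow n |>.mul hΦ).mul (hη.pow K)).sub
      (hA.pow (Q * K))
  have hG0 : w₂ 0 ^ n * Φ w₂ * η w₂ ^ K - A w₂ ^ (Q * K) ≠ 0 := by
    rw [hη0, zero_pow (by omega), mul_zero, zero_sub]
    exact neg_ne_zero.2 (pow_ne_zero _ hA0)
  obtain ⟨w, ⟨hwD, hw0⟩, k1, k2, k3⟩ :=
    (hD.and_eventually (h1.and (h2.and (hG.eventually_ne hG0)))).exists
  refine k3 ?_
  have e1 := k1 hwD hw0
  have e2 := congrArg (· ^ K) (k2 hwD)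
  simp only [mul_pow] at e2
  rw [e1, hn, zpow_natCast] at e2
  have e3 : w 0 ^ (Q * K * g) ≠ 0 := pow_ne_zero _ hw0
  refine mul_left_cancel₀ e3 ?_
  rw [mul_zero, mul_sub, sub_eq_zero]
  calc w 0 ^ (Q * K * g) * (w 0 ^ n * Φ w * η w ^ K)
      = w 0 ^ (Q * K * g + n) * Φ w * η w ^ K := by rw [pow_add]; ring
    _ = ((w 0 ^ g) ^ Q) ^ K * (A w ^ Q) ^ K := e2
    _ = w 0 ^ (Q * K * g) * A w ^ (Q * K) := by
      rw [← pow_mul, ← pow_mul, ← pow_mul]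
      congr 2
      ring

section
variable {Y : Type} [TopologicalSpace Y] [ChartedSpace (Cm 4) Y]
  {k : ℕ} {X : CSp} {M : Fin k → Bd Y} {m : Fin k → ℕ} {L : Fin k → Bd X.pt}
  {O : Set Y} {v : Y → X.pt} {T : ∀ e, (L e).ι → (((Bd.can 4 Y).pow (m e)).mul (M e)).ι → Y → ℂ}
  {S : Set X.pt} {W : Set (Cm 4)} {w₂ : Cm 4} {φ : Cm 4 → X.pt} {γ : Cm 4 → Y} {ch : Chart 4 Y}
  {μ : ∀ e, (M e).ι} {i : ∀ e, (L e).ι} {x : Fin k → ℚ} {J : ℕ}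

/-- the multiplicity of the boundary component `e` along the germ -/
theorem GermV.mult (h : GermV O v T S W w₂ φ γ ch μ i x J) (hSO : S ⊆ (v '' O)ᶜ) {e : Fin k}
    {P Q : ℕ} (hQ : 1 ≤ Q) {κ : ℤ} (hx : x e = Q * -κ) {sg : (M e).ι → Y → ℂ} {η : (L e).ι → X.pt → ℂ}
    (hη : IsSecx X univ ((L e).pow P) η)
    (hrel : ∀ y ∈ O, ∀ a b, v y ∈ (L e).U a → y ∈ (((Bd.can 4 Y).pow (m e)).mul (M e)).U b →
      T e a b y * η a (v y) = sg b.2 y ^ Q) {g : ℕ} {Φg : Cm 4 → ℂ} (hΦg : AnalyticAt ℂ Φg w₂)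
    (hΦg0 : Φg w₂ ≠ 0) (hg : ∀ᶠ w in 𝓝 w₂, sg (μ e) (γ w) = w 0 ^ g * Φg w) :
    0 ≤ g + κ ∧ (η (i e) (φ w₂) = 0 → 1 ≤ g + κ) := by
  obtain ⟨K, hK, hun⟩ := h.unit
  obtain ⟨ν, Φ, hν, hΦ, hΦ0, hT⟩ := hun e
  have hηc : ContinuousAt (fun w => η (i e) (φ w)) w₂ :=
    ((h.hol w₂ h.mem).2 _ (hη.holo _ _ (mem_univ _) (h.memU w₂ h.mem e))).continuousAt
  have h2 : ∀ᶠ w in 𝓝 w₂, w ∈ {w | γ w ∈ O} →
      T e (i e) (ch, μ e) (γ w) * η (i e) (φ w) = (w 0 ^ g * Φg w) ^ Q := by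
    filter_upwards [h.isOpen.mem_nhds h.mem, hg] with w hw h1 hwO
    have h3 := hrel (γ w) hwO (i e) (ch, μ e) (by rw [h.lift2 w hw hwO]; exact h.memU w hw e)
      ⟨(h.lift w hw).2.1, h.memN w hw e⟩
    rw [h.lift2 w hw hwO] at h3
    rw [h3, h1]
  have hνκ : ν = Q * K * -κ := by
    have h3 : (ν : ℚ) = Q * K * -κ := by rw [hν, hx]; ring
    exact_mod_cast h3
  have hQK : (0 : ℤ) < Q * K := by exact_mod_cast Nat.mul_pos hQ hK
  constructor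
  · have h3 := RR.ord_le_of_rel (D := {w | γ w ∈ O}) h.zero (h.freqO hSO h.mem) hΦ.continuousAt
      hηc hΦg.continuousAt hΦg0 hT h2
    rw [hνκ] at h3
    have h4 := le_of_mul_le_mul_left h3 hQK
    linarith
  · intro h0
    have h3 := ord_lt_of_rel (D := {w | γ w ∈ O}) h.zero (h.freqO hSO h.mem) hK hΦ.continuousAt
      hηc h0 hΦg.continuousAt hΦg0 hT h2
    rw [hνκ] at h3
    have h4 := lt_of_mul_lt_mul_left h3 hQK.le
    omega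

end

end Vale.Agent.P277.H615
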