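import Vale.Agent.P277.H29.Cls
import Vale.Agent.P277.H371.C.FinB
import Vale.Agent.P277.H335.RegB
import Vale.Agent.P277.H615.R.AdDef
import Vale.Agent.P277.H615.R.GermB

/-!
# P277, T3: the places which dominate the flipped surfaces
-/

open scoped Manifold ContDiff Topology
open Vale.Agent.P272.K Vale.Agent.P285.H281.FD Vale.Agent.P267.H175 Set Filter Metric

noncomputable section

namespace Vale.Agent.P277.H615

open Vale.Agent.P277 Vale.Agent.P277.T2 Vale.Agent.P277.H335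

variable {Y : Type} [TopologicalSpace Y] [T2Space Y] [CompactSpace Y] [ChartedSpace (Cm 4) Y]
  [IsManifold 𝓘(ℂ, Cm 4) ω Y]

omit [T2Space Y] [CompactSpace Y] [IsManifold 𝓘(ℂ, Cm 4) ω Y] in
/-- the section does not vanish identically -/
theorem bd_freq {H : Type} [TopologicalSpace H] [ChartedSpace (Cm 3) H] {ι : H → Y} {E : Bd Y}
    {s : E.ι → Y → ℂ} (h : T3.IsBd ι E s) (a : E.ι) (y : Y) (hy : y ∈ E.U a) :
    ∃ᶠ y' in 𝓝 y, s a y' ≠ 0 := by
  intro hz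
  have hz' : ∀ᶠ y' in 𝓝 y, s a y' = 0 := hz.mono fun y' hy' => not_not.1 hy'
  set e : Chart 4 Y := chartAt (Cm 4) y with he
  have hat : At e y := H19.at_chartAt y
  refine h.mult a y hy hz'.self_of_nhds e hat ?_
  have h1 : ContinuousAt e.symm (e y) := e.continuousAt_symm (e.map_source hat.2)
  have h2 : (fun z => s a (e.symm z)) =ᶠ[𝓝 (e y)] fun _ => 0 := by
    have h3 : Tendsto e.symm (𝓝 (e y)) (𝓝 y) := by
      have := h1.tendsto
      rwa [e.left_inv hat.2] at this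
    exact h3.eventually hz'
  rw [h2.fderiv_eq, fderiv_fun_const]
  rfl

/-- The places which dominate a flipped surface `S`. -/
theorem germ_bd [Nonempty Y] (hTA : T2.StTAc) (hTD : StTD) (hDis : T2.StDis) {k s : ℕ}
    {V X : CSp} {vV : Y → V.pt} (hvV : IsOpenEmb V univ vV) (hsurj : Function.Surjective vV)
    {n : ℕ} {G : Fin n → Set Y} (hG : ∀ l, IsHyp (G l)) (hcl : ∀ l, IsClosed (G l))
    {M : Fin (k + s) → Bd Y} {m : Fin (k + s) → ℕ} (hM : ∀ e, IsLB 4 (M e))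
    (hm0 : ∀ i : Fin s, m (Fin.natAdd k i) = 0) {ρ : Fin (k + s) → ℝ} (hρ : ∀ e, 0 < ρ e)
    (hsum : ∑ e, ρ e * m e = 1) (hlt : ∀ i : Fin s, ρ (Fin.natAdd k i) < 1)
    {χ : Chart 4 Y → Cm 4 → Matrix (Fin 4) (Fin 4) ℂ} (hχ : IsKahler χ)
    (hnef : ∀ e : Fin k, Nef χ (M (Fin.castAdd s e)))
    {H : Fin s → Type} [∀ i, TopologicalSpace (H i)] [∀ i, ConnectedSpace (H i)]
    [∀ i, ChartedSpace (Cm 3) (H i)] {ι : ∀ i, H i → Y}
    {sg : ∀ i : Fin s, (M (Fin.natAdd k i)).ι → Y → ℂ}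
    (hbd : ∀ i, T3.IsBd (ι i) (M (Fin.natAdd k i)) (sg i))
    (hdis : Pairwise fun i j => Disjoint (range (ι i)) (range (ι j)))
    (hne : ∀ i, ¬ range (ι i) ⊆ ⋃ l, G l)
    {L : Fin (k + s) → Bd X.pt} {c : Fin (k + s) → ℕ} {O : Set Y} {v : Y → X.pt}
    {P Q : Fin (k + s) → ℕ}
    {T : ∀ e, (L e).ι → (((Bd.can 4 Y).pow (m e)).mul (M e)).ι → Y → ℂ}
    {S S₀ : Set X.pt}
    (hTw : TwV vV (⋃ l, G l) (fun e => ((Bd.can 4 Y).pow (m e)).mul (M e)) X L c O v P Q T ρ S₀)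
    {σ : ∀ i : Fin s, (L (Fin.natAdd k i)).ι → X.pt → ℂ}
    (hσ : ∀ i, IsSecx X univ (L (Fin.natAdd k i)) (σ i))
    (hrel : ∀ i : Fin s, ∀ y ∈ O, ∀ a b, v y ∈ (L (Fin.natAdd k i)).U a →
      y ∈ (((Bd.can 4 Y).pow (m (Fin.natAdd k i))).mul (M (Fin.natAdd k i))).U b →
      T (Fin.natAdd k i) a b y * σ i a (v y) ^ P (Fin.natAdd k i) =
        sg i b.2 y ^ Q (Fin.natAdd k i))
    (hSS : S ⊆ S₀) (hSan : IsAn X univ S) (hSO : S ⊆ (v '' O)ᶜ) (hS1 : ¬ DimLe X 1 S)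
    (hreg : DimLe X 1 {x | x ∈ S ∧ ¬ IsReg 4 X x}) :
    ∃ (x : Fin (k + s) → ℚ) (N : Fin (k + s) → ℕ) (Γ : Cm 4 → Y) (D : Set (Cm 4)) (w₀ : Cm 4)
      (r : ℝ) (φ : Cm 4 → X.pt) (i : ∀ e, (L e).ι)
      (a : ∀ e, (((Bd.can 4 Y).pow (m e)).mul (M e)).ι), IsWg Γ D ∧
      NiceW O v T Γ D w₀ r φ i a x ∧ (∀ w ∈ ball w₀ r, w 0 = 0 → φ w ∈ S) ∧
      0 < ∑ e, ρ e / Q e * x e ∧
      (∀ i, S ⊆ T3.zer (L (Fin.natAdd k i)) (σ i) → 1 ≤ N (Fin.natAdd k i)) ∧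
      ((∑ e, ρ e / Q e * x e = 1 - ∑ e, ρ e * N e ∧ ∃ l w₁ r₁, IsPar (G l) Γ w₁ r₁ ∧ w₁ ∈ D) ∨
        ∃ (b : Fin s) (g : ℕ), 1 ≤ g ∧ (1 - ρ (Fin.natAdd k b)) * g < 1 ∧
          ∑ e, ρ e / Q e * x e = 1 - (1 - ρ (Fin.natAdd k b)) * g - ∑ e, ρ e * N e ∧
          ∃ w₁ ∈ D, w₁ 0 = 0 ∧ ∃ Ψ c r w', IsPar (range (ι b)) Ψ c r ∧ c 1 = 0 ∧
            T3.bet g w' = c ∧ w' 0 = 0 ∧ WgRel Γ (fun w => Ψ (T3.bet g w)) w₁ w' ∧
            ∀ z ∈ ball c r, z 0 = 0 → z 1 = 0 → Ψ z ∉ O) := by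
  have hk : 1 ≤ k + s := by
    rcases Nat.eq_zero_or_pos (k + s) with h0 | h0
    · have : ∀ e : Fin (k + s), False := fun e => by rw [h0] at e; exact e.elim0
      rw [Finset.sum_eq_zero fun e _ => (this e).elim] at hsum
      exact absurd hsum zero_ne_one
    · exact h0
  obtain ⟨W, w₂, φ, γ, ch, μ, i, x, J, κ, g, hg, hpos, hx, hκ, hsg⟩ := exists_germ hTA hTD hDis hk
    hM (hTw.mono hSS) hSan hSO hS1 hreg (β := Fin.natAdd k) (sg := sg) (fun i => (hbd i).sec)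
    (fun i a y hy => bd_freq (hbd i) a y hy)
  have hQ1 : ∀ e, 1 ≤ Q e := fun e => (hTw.tw e).hQ
  have hQ0 : ∀ e, (0 : ℝ) < Q e := fun e => by exact_mod_cast hQ1 e
  -- the multiplicities
  choose Φg hΦg hΦg0 hgg using hsg
  have hmult : ∀ b : Fin s, 0 ≤ g b + κ (Fin.natAdd k b) ∧
      (σ b (i (Fin.natAdd k b)) (φ w₂) = 0 → 1 ≤ g b + κ (Fin.natAdd k b)) := by
    intro b
    have h1 := hg.mult hSO (e := Fin.natAdd k b) (P := P (Fin.natAdd k b)) (hQ1 _)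
      (κ := κ (Fin.natAdd k b)) (by rw [hx, hm0 b]; push_cast; ring) (sg := sg b)
      (η := fun a x => σ b a x ^ P (Fin.natAdd k b))
      ⟨fun a x hx ha => by
        have h2 := (hσ b).holo a x hx ha
        have h3 : ∀ n : ℕ, X.Hol (fun x => σ b a x ^ n) x := by
          intro n
          induction n with
          | zero => simpa using hol_const (1 : ℂ) x
          | succ n ih =>
            have h4 := hol_mul ih h2
            refine hol_congr h4 (Eventually.of_forall fun z => ?_)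
            exact (pow_succ _ _)
        exact h3 _,
        fun a a' x hx ha ha' => by
          show σ b a x ^ _ = (L (Fin.natAdd k b)).g a a' x ^ _ * σ b a' x ^ _
          rw [(hσ b).change a a' x hx ha ha', mul_pow]⟩
      (fun y hy a b' ha hb' => hrel b y hy a b' ha hb') (hΦg b) (hΦg0 b) (hgg b)
    refine ⟨h1.1, fun h0 => h1.2 ?_⟩
    show σ b (i (Fin.natAdd k b)) (φ w₂) ^ P (Fin.natAdd k b) = 0
    rw [h0, zero_pow (Nat.one_le_iff_ne_zero.1 (hTw.tw (Fin.natAdd k b)).hP)]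
  have hκ0 : ∀ e : Fin k, 0 ≤ κ (Fin.castAdd s e) := fun e => hκ _ χ hχ (hnef e)
  set N : Fin (k + s) → ℕ := Fin.append (fun e : Fin k => (κ (Fin.castAdd s e)).toNat)
    (fun b : Fin s => (g b + κ (Fin.natAdd k b)).toNat) with hN
  have hN1 : ∀ e : Fin k, ((N (Fin.castAdd s e) : ℕ) : ℝ) = κ (Fin.castAdd s e) := by
    intro e
    rw [hN, Fin.append_left]
    have : (((κ (Fin.castAdd s e)).toNat : ℤ) : ℝ) = κ (Fin.castAdd s e) := by
      rw [Int.toNat_of_nonneg (hκ0 e)]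
    exact_mod_cast this
  have hN2 : ∀ b : Fin s, ((N (Fin.natAdd k b) : ℕ) : ℝ) = g b + κ (Fin.natAdd k b) := by
    intro b
    rw [hN, Fin.append_right]
    have : (((g b + κ (Fin.natAdd k b)).toNat : ℤ) : ℝ) = ((g b + κ (Fin.natAdd k b) : ℤ) : ℝ) := by
      rw [Int.toNat_of_nonneg (hmult b).1]
    rw [← Int.cast_natCast (R := ℝ), this]
    push_cast
    rfl
  have hN3 : ∀ b, S ⊆ T3.zer (L (Fin.natAdd k b)) (σ b) → 1 ≤ N (Fin.natAdd k b) := by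
    intro b hb
    have h1 := (hmult b).2 (hb (hg.inS w₂ hg.mem hg.zero) _ (hg.memU w₂ hg.mem _))
    rw [hN, Fin.append_right]
    omega
  have hval : ∑ e, ρ e / Q e * x e = 1 - J + ∑ b : Fin s, ρ (Fin.natAdd k b) * g b -
      ∑ e, ρ e * N e := by
    have h2 : ∀ e, ρ e / Q e * (x e : ℝ) = ρ e * m e * (1 - J) - ρ e * κ e := by
      intro e
      rw [hx e]
      have := hQ0 e
      push_cast
      field_simp
    simp only [h2]
    rw [Finset.sum_sub_distrib, ← Finset.sum_mul, hsum, one_mul, Fin.sum_univ_add (fun e => ρ e * (κ e : ℝ)),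
      Fin.sum_univ_add (fun e => ρ e * (N e : ℝ))]
    simp only [hN1, hN2, mul_add]
    rw [Finset.sum_add_distrib]
    ring
  have hNnn : 0 ≤ ∑ e, ρ e * (N e : ℝ) := Finset.sum_nonneg fun e _ =>
    mul_nonneg (hρ e).le (Nat.cast_nonneg _)
  obtain ⟨r, hr, hrW, hwg, hnice⟩ := hg.exists_wg
  have hfin : IsWg γ (ball w₂ r) ∧ NiceW O v T γ (ball w₂ r) w₂ r φ i (fun e => (ch, μ e)) x ∧
      (∀ w ∈ ball w₂ r, w 0 = 0 → φ w ∈ S) := ⟨hwg, hnice, fun w hw hw0 => hg.inS w (hrW hw) hw0⟩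
  refine ⟨x, N, γ, ball w₂ r, w₂, r, φ, i, fun e => (ch, μ e), hfin.1, hfin.2.1, hfin.2.2, hpos,
    hN3, ?_⟩
  obtain ⟨ΦJ, hΦ1, hΦ2, hΦ3⟩ := hg.jac
  have hcy := hg.lift w₂ hg.mem
  by_cases hall : ∀ b, g b = 0
  · -- the centre is an exceptional divisor
    left
    have hs0 : ∑ b : Fin s, ρ (Fin.natAdd k b) * (g b : ℝ) = 0 :=
      Finset.sum_eq_zero fun b _ => by rw [hall b, Nat.cast_zero, mul_zero]
    rw [hs0, add_zero] at hval
    rw [hval] at hpos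
    have hJ : J = 0 := by
      by_contra hJ
      have h3 : (1 : ℝ) ≤ J := by exact_mod_cast Nat.one_le_iff_ne_zero.2 hJ
      linarith
    subst hJ
    have hdet : (fderiv ℂ (fun w => ch (γ w)) w₂).det ≠ 0 := by
      rw [hΦ3.self_of_nhds, pow_zero, one_mul]
      exact hΦ2
    obtain ⟨l, w₃, hw₃, hw₃0, r₃, hs₃, hpar⟩ := exists_par hvV hsurj hG hcl
      (hTw.tw ⟨0, hk⟩).thin isOpen_ball (mem_ball_self hr) hg.zero
      (fun w hw => hg.lift w (hrW hw)) hdet (fun w hw hw0 => hg.notMem hSO (hrW hw) hw0)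
    refine ⟨?_, l, w₃, r₃, hpar, hw₃⟩
    rw [hval, Nat.cast_zero, sub_zero]
  · right
    push Not at hall
    obtain ⟨b, hb⟩ := hall
    have hb1 : 1 ≤ g b := Nat.one_le_iff_ne_zero.2 hb
    have hmem : ∀ b, 1 ≤ g b → γ w₂ ∈ range (ι b) := by
      intro b hb
      refine ((hbd b).zero _ _ (hg.memN w₂ hg.mem (Fin.natAdd k b))).1 ?_
      rw [(hgg b).self_of_nhds, hg.zero, zero_pow (by omega), zero_mul]
    have hs0 : ∑ b' : Fin s, ρ (Fin.natAdd k b') * (g b' : ℝ) = ρ (Fin.natAdd k b) * g b := by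
      refine Finset.sum_eq_single b (fun b' _ hbb => ?_) fun h => absurd (Finset.mem_univ b) h
      have h2 : g b' = 0 := by
        by_contra h3
        exact disjoint_left.1 (hdis hbb) (hmem b' (by omega)) (hmem b hb1)
      rw [h2, Nat.cast_zero, mul_zero]
    rw [hs0] at hval
    rw [hval] at hpos
    have hhyp : IsHyp (range (ι b)) := RR.isHyp_of_bd (hM _) (hbd b)
    have hdn : range (ι b) ⊆ closure (range (ι b) ∩ O) :=
      (RR.hyp_dense hvV hG hcl hhyp (isPreconnected_range (hbd b).sub.cont)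
        (fun l hl => hne b (hl.trans (subset_iUnion G l)))
        (hTw.tw ⟨0, hk⟩).emb.isOpen (hTw.tw ⟨0, hk⟩).thin).2.1
    have hgJ : g b ≤ J := RR.order_le_jac (hbd b) (fun μ => (hM _).isOpen μ) hdn hg.zero hcy.1
      hcy.2.1 hcy.2.2 (by
        filter_upwards [hg.isOpen.mem_nhds hg.mem] with w hw hw0 using hg.notMem hSO hw hw0)
      (hg.memN w₂ hg.mem _) (hΦg b) (hΦg0 b) hΦ1 hΦ2 (hgg b) hΦ3
    have hgb : (1 : ℝ) ≤ g b := by exact_mod_cast hb1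
    have hJg : J = g b := by
      by_contra hJ
      have h1 : g b + 1 ≤ J := by omega
      have h2 : (g b : ℝ) + 1 ≤ J := by exact_mod_cast h1
      nlinarith [hlt b]
    have hval' : ∑ e, ρ e / Q e * x e = 1 - (1 - ρ (Fin.natAdd k b)) * g b - ∑ e, ρ e * N e := by
      rw [hval, hJg]
      ring
    refine ⟨b, g b, hb1, ?_, hval', ?_⟩
    · rw [hJg] at hpos
      linarith
    · have hζ : IsLEq (range (ι b)) (γ w₂) (sg b (μ (Fin.natAdd k b))) := by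
        have hU := hg.memN w₂ hg.mem (Fin.natAdd k b)
        refine ⟨?_, fun e he => ⟨((hbd b).sec.holo _ e _ he hU).analyticAt,
          fun h0 => (hbd b).mult _ _ hU h0 e he⟩⟩
        filter_upwards [((hM _).isOpen _).mem_nhds hU] with y' hy'
        exact (hbd b).zero _ _ hy'
      obtain ⟨-, -, h3⟩ := stClass Y (range (ι b)) O hhyp (hTw.tw ⟨0, hk⟩).emb.isOpen (ball w₂ r)
        isOpen_ball w₂ (mem_ball_self hr) hg.zero γ ch (fun w hw => hg.lift w (hrW hw))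
        (fun w hw hw0 => hg.notMem hSO (hrW hw) hw0) J (g b) hb1 ΦJ (Φg b) _ hζ hΦ1 hΦ2 (hΦg b)
        (hΦg0 b) hΦ3 (hgg b)
      exact h3 hJg

end Vale.Agent.P277.H615
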