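import Vale.Agent.P277.H615.OrdStep
import Vale.Agent.P277.H615.R.NiceV
import Vale.Agent.P277.H615.R.BaseV

/-!
# P277, real coefficients: the order vectors of the exceptional divisors, and flips
-/

open scoped Manifold ContDiff Topology
open Vale.Agent.P272.K Vale.Agent.P285.H281.FD Vale.Agent.P267.H175 Set Filter Metric

noncomputable section

namespace Vale.Agent.P277.H615

open Vale.Agent.P277 Vale.Agent.P277.T2 Vale.Agent.P277.H335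

variable {Y : Type} [TopologicalSpace Y] [ChartedSpace (Cm 4) Y]

/-- the points of `G` near which the map to `X` extends, and the orders are defined -/
def NSV {k : ℕ} {X : CSp} {N : Fin k → Bd Y} {L : Fin k → Bd X.pt} (O : Set Y) (v : Y → X.pt)
    (T : ∀ e, (L e).ι → (N e).ι → Y → ℂ) (G : Set Y) : Set Y :=
  {y | y ∈ G ∧ ∃ ξ w₀ r γ i n x, NiceAtV O v T G ξ w₀ r γ i n x ∧ ξ w₀ = y}

section
variable {k : ℕ} {V X : CSp} {vV : Y → V.pt} {D : Set Y} {N : Fin k → Bd Y}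
  {L : Fin k → Bd X.pt} {c : Fin k → ℕ} {O : Set Y}
  {v : Y → X.pt} {P Q : Fin k → ℕ} {T : ∀ e, (L e).ι → (N e).ι → Y → ℂ} {ρ : Fin k → ℝ}
  {S : Set X.pt} {G : Set Y} {ξ ξ' : Cm 4 → Y} {w₀ w₀' : Cm 4} {r r' : ℝ}
  {γ γ' : Cm 4 → X.pt} {i i' : ∀ e, (L e).ι} {n n' : ∀ e, (N e).ι} {x x' : Fin k → ℚ}

theorem NiceAtV.image_sub (h : NiceAtV O v T G ξ w₀ r γ i n x) :
    ξ '' ball w₀ r ∩ G ⊆ NSV O v T G := by
  rintro _ ⟨⟨w, hw, rfl⟩, hG⟩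
  obtain ⟨r₁, -, h1⟩ := h.at hw hG
  exact ⟨hG, _, _, _, _, _, _, _, h1, rfl⟩

/-- the order vector is constant if the set of good points is connected -/
theorem NiceAtV.const (hO : Dense O) (hOG : Disjoint O G) (hTw : TwV vV D N X L c O v P Q T ρ S)
    (hN : ∀ e, CtBd (N e)) (hconn : IsPreconnected (NSV O v T G))
    (h : NiceAtV O v T G ξ w₀ r γ i n x)
    (h' : NiceAtV O v T G ξ' w₀' r' γ' i' n' x') : x = x' := by
  by_contra hne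
  let U : Set Y := {y | ∃ ξ₁ w₁ r₁ γ₁ i₁ n₁ x₁, NiceAtV O v T G ξ₁ w₁ r₁ γ₁ i₁ n₁ x₁ ∧
    x = x₁ ∧ y ∈ ξ₁ '' ball w₁ r₁}
  let W : Set Y := {y | ∃ ξ₁ w₁ r₁ γ₁ i₁ n₁ x₁, NiceAtV O v T G ξ₁ w₁ r₁ γ₁ i₁ n₁ x₁ ∧
    x ≠ x₁ ∧ y ∈ ξ₁ '' ball w₁ r₁}
  have hU : IsOpen U := by
    have : U = ⋃ (ξ₁) (w₁) (r₁) (γ₁) (i₁) (n₁) (x₁)
        (_ : NiceAtV O v T G ξ₁ w₁ r₁ γ₁ i₁ n₁ x₁ ∧ x = x₁), ξ₁ '' ball w₁ r₁ := by
      ext y
      simp only [U, mem_ofPred_eq, mem_iUnion, exists_prop, and_assoc]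
    rw [this]
    iterate 7 refine isOpen_iUnion fun _ => ?_
    exact isOpen_iUnion fun h1 => h1.1.isOpen_image
  have hW : IsOpen W := by
    have : W = ⋃ (ξ₁) (w₁) (r₁) (γ₁) (i₁) (n₁) (x₁)
        (_ : NiceAtV O v T G ξ₁ w₁ r₁ γ₁ i₁ n₁ x₁ ∧ x ≠ x₁), ξ₁ '' ball w₁ r₁ := by
      ext y
      simp only [W, mem_ofPred_eq, mem_iUnion, exists_prop, and_assoc]
    rw [this]
    iterate 7 refine isOpen_iUnion fun _ => ?_
    exact isOpen_iUnion fun h1 => h1.1.isOpen_image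
  have hcov : NSV O v T G ⊆ U ∪ W := by
    rintro y ⟨-, ξ₁, w₁, r₁, γ₁, i₁, n₁, x₁, h1, rfl⟩
    by_cases hc : x = x₁
    · exact Or.inl ⟨_, _, _, _, _, _, _, h1, hc, w₁, mem_ball_self h1.par.pos, rfl⟩
    · exact Or.inr ⟨_, _, _, _, _, _, _, h1, hc, w₁, mem_ball_self h1.par.pos, rfl⟩
  have hw₀ := mem_ball_self (x := w₀) h.par.pos
  have hw₀' := mem_ball_self (x := w₀') h'.par.pos
  have h1 : (NSV O v T G ∩ U).Nonempty := ⟨ξ w₀, ⟨(h.par.mem _ hw₀).2 h.par.zero, _, _, _, _, _,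
    _, _, h, rfl⟩, _, _, _, _, _, _, _, h, rfl, w₀, hw₀, rfl⟩
  have h2 : (NSV O v T G ∩ W).Nonempty := ⟨ξ' w₀', ⟨(h'.par.mem _ hw₀').2 h'.par.zero, _, _, _, _,
    _, _, _, h', rfl⟩, _, _, _, _, _, _, _, h', hne, w₀', hw₀', rfl⟩
  obtain ⟨y, ⟨hyG, -⟩, ⟨ξ₁, w₁, r₁, γ₁, i₁, n₁, x₁, g1, g2, w, hw, hwy⟩,
    ξ₂, w₂, r₂, γ₂, i₂, n₂, x₂, k1, k2, w', hw', hwy'⟩ := hconn U W hU hW hcov h1 h2
  obtain ⟨s₁, -, m1⟩ := g1.at hw (hwy ▸ hyG)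
  obtain ⟨s₂, -, m2⟩ := k1.at hw' (hwy' ▸ hyG)
  exact k2 (g2.trans (m1.unique hO hOG hTw hN m2 (hwy.trans hwy'.symm)))

end

/-- the order vectors `α l` of the exceptional divisors `G l` -/
structure OrdDV {k : ℕ} {V : CSp} (vV : Y → V.pt) {n : ℕ} (G : Fin n → Set Y) {X : CSp}
    {N : Fin k → Bd Y} {L : Fin k → Bd X.pt} (O : Set Y) (v : Y → X.pt)
    (T : ∀ e, (L e).ι → (N e).ι → Y → ℂ) (Q : Fin k → ℕ) (α : Fin n → Fin k → ℚ) : Prop where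
  thin : ∀ l, DimLe V 2 (vV '' (G l \ NSV O v T (G l)))
  ord : ∀ l ξ w₀ r γ i c x, NiceAtV O v T (G l) ξ w₀ r γ i c x → ∀ e, x e = α l e * Q e

section conn

variable [T2Space Y] [CompactSpace Y] [IsManifold 𝓘(ℂ, Cm 4) ω Y]

theorem set_conn (hConn : StConn) [Nonempty Y] {V : CSp} {vV : Y → V.pt}
    (hvV : IsOpenEmb V univ vV) {G A : Set Y} (hG : IsHyp G) (hGc : IsPreconnected G)
    (hAG : A ⊆ G) (h : DimLe V 2 (vV '' (G \ A)))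
    (hopen : ∀ y ∈ A, ∃ U, IsOpen U ∧ y ∈ U ∧ U ∩ G ⊆ A) :
    G ⊆ closure A ∧ IsPreconnected A := by
  have h1 : G ∩ Aᶜ = G \ A := rfl
  have h2 : G \ Aᶜ = A := by
    ext y
    simp only [Set.mem_sdiff, mem_compl_iff, not_not]
    exact ⟨fun h => h.2, fun h => ⟨hAG h, h⟩⟩
  obtain ⟨k1, k2⟩ := hConn Y G hG hGc Aᶜ (by rw [h1]; exact thinY_of_dimLe hvV h)
  rw [h2] at k1 k2
  refine ⟨k1, k2 fun y hy => ?_⟩
  obtain ⟨U, hU, hyU, hUA⟩ := hopen y hy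
  exact ⟨U, hU, hyU, by rw [compl_compl]; exact hUA⟩

theorem NSV_conn (hConn : StConn) [Nonempty Y] {k : ℕ} {X V : CSp} {vV : Y → V.pt}
    {N : Fin k → Bd Y} {L : Fin k → Bd X.pt} {O : Set Y} {v : Y → X.pt}
    {T : ∀ e, (L e).ι → (N e).ι → Y → ℂ} {G : Set Y}
    (hvV : IsOpenEmb V univ vV) (hG : IsHyp G) (hGc : IsPreconnected G)
    (h : DimLe V 2 (vV '' (G \ NSV O v T G))) :
    G ⊆ closure (NSV O v T G) ∧ IsPreconnected (NSV O v T G) := by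
  refine set_conn hConn hvV hG hGc (fun y hy => hy.1) h ?_
  rintro y ⟨hy, ξ, w₀, r, γ, i, n, x, hn, rfl⟩
  exact ⟨ξ '' ball w₀ r, hn.isOpen_image, ⟨w₀, mem_ball_self hn.par.pos, rfl⟩, hn.image_sub⟩

end conn

section step

variable [T2Space Y] [CompactSpace Y] [IsManifold 𝓘(ℂ, Cm 4) ω Y] {k : ℕ} {V X Z X' : CSp}
  {vV : Y → V.pt} {D : Set Y} {N : Fin k → Bd Y}
  {L : Fin k → Bd X.pt} {L' : Fin k → Bd X'.pt} {c c' : Fin k → ℕ} {O : Set Y}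
  {v : Y → X.pt} {P Q : Fin k → ℕ} {T : ∀ e, (L e).ι → (N e).ι → Y → ℂ} {ρ : Fin k → ℝ}
  {S : Set X.pt} {f : X.pt → Z.pt} {f' : X'.pt → Z.pt} {p q : Fin k → ℕ}
  {s : ∀ e, (L e).ι → (L' e).ι → Z.pt → ℂ} {a : Fin k → ℤ}

omit [T2Space Y] [CompactSpace Y] [IsManifold 𝓘(ℂ, Cm 4) ω Y] in
theorem thin_upV [Nonempty V.pt] (hvV : IsOpenEmb V univ vV) (hk : 1 ≤ k)
    (hTw : TwV vV D N X L c O v P Q T ρ S)
    (hf : FlipD f f' L L' p q s a) {d : ℕ} (hd : 1 ≤ d)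
    (hda : ∀ e, (a e : ℝ) ≤ d * (ρ e / (c e * p e)) ∧ d * (ρ e / (c e * p e)) ≤ a e + 1)
    {b : ∀ e, X.pt → (L e).ι} (hb : ∀ e x, x ∈ (L e).U (b e x))
    (hO' : Dense {y | y ∈ O ∧ f (v y) ∉ Amin f}) {G : Set Y}
    (h : DimLe V 2 (vV '' (G \ NSV O v T G))) :
    DimLe V 2 (vV '' (G \ NSV {y | y ∈ O ∧ f (v y) ∉ Amin f} (fun y => hf.small'.sec (f (v y)))
      (fun e => stT v f (P e) (p e) (T e) (s e) (b e)) G)) := by
  set NS' := NSV {y | y ∈ O ∧ f (v y) ∉ Amin f} (fun y => hf.small'.sec (f (v y)))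
      (fun e => stT v f (P e) (p e) (T e) (s e) (b e)) G with hNS'
  have h1 : DimLe V 2 (vV '' ((G \ NS') ∩ NSV O v T G)) := by
    apply dimLe_of_local
    rintro _ ⟨_, ⟨-, hyG, ξ, w₀, r, γ, i, n, x, hn, rfl⟩, rfl⟩
    obtain ⟨r₁, g, hr₁, hs1, hg, hne, hgood⟩ := nice_upV hk hTw hf hd hda hb hO' hn
    refine ⟨vV '' (ξ '' ball w₀ r₁), hvV.isOpenMap _ (subset_univ _)
      (hn.par.openMap _ hs1 isOpen_ball), ⟨_, ⟨w₀, mem_ball_self hr₁, rfl⟩, rfl⟩, ?_⟩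
    refine (dimLe_zero hvV hn.par hs1 hg hne).mono ?_
    rintro _ ⟨⟨_, ⟨w, hw, rfl⟩, rfl⟩, y, ⟨⟨hy1, hy2⟩, -⟩, hyw⟩
    have hyw' : y = ξ w := hvV.inj (mem_univ _) (mem_univ _) hyw
    subst hyw'
    have hw0 : w 0 = 0 := (hn.par.mem w (hs1 hw)).1 hy1
    refine ⟨w, ⟨hw, hw0, ?_⟩, rfl⟩
    by_contra hgw
    obtain ⟨r₂, γ₁, j, x₁, hs2, hn', -, -, -⟩ := hgood w hw hw0 hgw
    exact hy2 ⟨hy1, _, _, _, _, _, _, _, hn', rfl⟩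
  refine (h.union h1).mono ?_
  rintro _ ⟨y, ⟨hy1, hy2⟩, rfl⟩
  by_cases hy : y ∈ NSV O v T G
  · exact Or.inr ⟨y, ⟨⟨hy1, hy2⟩, hy⟩, rfl⟩
  · exact Or.inl ⟨y, ⟨hy1, hy⟩, rfl⟩

theorem OrdDV.step (hConn : StConn) [Nonempty Y] (hvV : IsOpenEmb V univ vV) {n : ℕ}
    {G : Fin n → Set Y} (hG : ∀ l, IsHyp (G l)) (hGc : ∀ l, IsPreconnected (G l))
    (hGD : ∀ l, G l ⊆ D) (hN : ∀ e, CtBd (N e)) (hk : 1 ≤ k)
    (h : TwV vV D N X L c O v P Q T ρ S)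
    (hf : FlipD f f' L L' p q s a) {d : ℕ} (hd : 1 ≤ d)
    (hc : ∀ e, c e * p e = c' e * q e)
    (hda : ∀ e, (a e : ℝ) ≤ d * (ρ e / (c e * p e)) ∧ d * (ρ e / (c e * p e)) ≤ a e + 1)
    {b : ∀ e, X.pt → (L e).ι} (hb : ∀ e x, x ∈ (L e).U (b e x))
    (hO' : Dense {y | y ∈ O ∧ f (v y) ∉ Amin f}) {α : Fin n → Fin k → ℚ}
    (ho : OrdDV vV G O v T Q α) :
    ∃ α' : Fin n → Fin k → ℚ, OrdDV vV G {y | y ∈ O ∧ f (v y) ∉ Amin f}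
      (fun y => hf.small'.sec (f (v y))) (fun e => stT v f (P e) (p e) (T e) (s e) (b e))
      (fun e => Q e * p e) α' ∧
      (∀ l, ∑ e, ρ e * α l e ≤ ∑ e, ρ e * α' l e) ∧
      ∀ l ξ w₀ r γ i n x, NiceAtV {y | y ∈ O ∧ f (v y) ∉ Amin f}
        (fun y => hf.small'.sec (f (v y))) (fun e => stT v f (P e) (p e) (T e) (s e) (b e)) (G l)
          ξ w₀ r γ i n x → (∀ w ∈ ball w₀ r, w 0 = 0 → f' (γ w) ∈ Amin f) →
        ∑ e, ρ e * α l e < ∑ e, ρ e * α' l e := by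
  have hne : Nonempty V.pt := ⟨vV (Classical.arbitrary Y)⟩
  have h' := h.step hk (fun e => (hN e).isOpen) hvV hf hd hc hda hb
  set O' : Set Y := {y | y ∈ O ∧ f (v y) ∉ Amin f} with hO'def
  set v' : Y → X'.pt := fun y => hf.small'.sec (f (v y)) with hv'
  set T' : ∀ e, (L' e).ι → (N e).ι → Y → ℂ :=
    fun e => stT v f (P e) (p e) (T e) (s e) (b e) with hT'
  have hthin : ∀ l, DimLe V 2 (vV '' (G l \ NSV O' v' T' (G l))) := fun l =>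
    thin_upV hvV hk h hf hd hda hb hO' (ho.thin l)
  have hcon := fun l => NSV_conn hConn hvV (hG l) (hGc l) (hthin l)
  have hcon₀ := fun l => NSV_conn hConn hvV (hG l) (hGc l) (ho.thin l)
  have hOG : ∀ l, Disjoint O (G l) := fun l =>
    disjoint_left.2 fun y hy hyG => (h.tw ⟨0, hk⟩).sub hy (hGD l hyG)
  have hOG' : ∀ l, Disjoint O' (G l) := fun l => (hOG l).mono_left fun y hy => hy.1
  have hQ0 : ∀ e, (0 : ℝ) < Q e := fun e => by exact_mod_cast (h.tw e).hQ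
  have hp0 : ∀ e, (0 : ℝ) < p e := fun e => by exact_mod_cast hf.hp e
  -- definition of `α'`
  have hex : ∀ l, ∃ α' : Fin k → ℚ, ∀ ξ w₀ r γ i n x, NiceAtV O' v' T' (G l) ξ w₀ r γ i n x →
      ∀ e, x e = α' e * ((Q e * p e : ℕ) : ℚ) := by
    intro l
    by_cases hn : ∃ ξ w₀ r γ i n x, NiceAtV O' v' T' (G l) ξ w₀ r γ i n x
    · obtain ⟨ξ, w₀, r, γ, i, n, x, hn⟩ := hn
      refine ⟨fun e => x e / ((Q e * p e : ℕ) : ℚ), ?_⟩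
      intro ξ₁ w₁ r₁ γ₁ i₁ n₁ x₁ hn₁ e
      have h1 := hn.const hO' (hOG' l) h' hN (hcon l).2 hn₁
      have h3 : ((Q e * p e : ℕ) : ℚ) ≠ 0 := by
        have := (h'.tw e).hQ
        exact_mod_cast (Nat.one_le_iff_ne_zero.1 this)
      rw [← h1, div_mul_cancel₀ _ h3]
    · push Not at hn
      exact ⟨0, fun ξ w₀ r γ i n x h => (hn ξ w₀ r γ i n x h).elim⟩
  choose α₀ hα₀ using hex
  have hsumα : ∀ l ξ w₀ r γ i n x, NiceAtV O' v' T' (G l) ξ w₀ r γ i n x →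
      ∑ e, ρ e / ((Q e * p e : ℕ) : ℝ) * x e = ∑ e, ρ e * α₀ l e := by
    intro l ξ w₀ r γ i n x hn
    refine Finset.sum_congr rfl fun e _ => ?_
    rw [hα₀ l _ _ _ _ _ _ _ hn e]
    have h1 := hQ0 e
    have h2 := hp0 e
    push_cast
    field_simp
  have hsumα' : ∀ l ξ w₀ r γ i n x, NiceAtV O v T (G l) ξ w₀ r γ i n x →
      ∑ e, ρ e / (Q e : ℝ) * x e = ∑ e, ρ e * α l e := by
    intro l ξ w₀ r γ i n x hn
    refine Finset.sum_congr rfl fun e _ => ?_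
    rw [ho.ord l _ _ _ _ _ _ _ hn e]
    have h1 := hQ0 e
    push_cast
    field_simp
  -- comparison
  have hcmp : ∀ l y, y ∈ NSV O v T (G l) → ∀ (U : Set Y), IsOpen U → y ∈ U →
      (∀ ξ w₀ r γ i n x, NiceAtV O v T (G l) ξ w₀ r γ i n x → ξ '' ball w₀ r ⊆ U →
        ∀ w ∈ ball w₀ r, w 0 = 0 → f (γ w) ∈ Amin f) →
      ∑ e, ρ e * α l e < ∑ e, ρ e * α₀ l e := by
    rintro l y ⟨hyG, ξ, w₀, r, γ, i, n, x, hn, rfl⟩ U hU hyU hall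
    obtain ⟨r', hr', hs'⟩ : ∃ r' > 0, ball w₀ r' ⊆ ball w₀ r ∩ ξ ⁻¹' U := by
      have h1 : ∀ᶠ w in 𝓝 w₀, w ∈ ball w₀ r ∧ ξ w ∈ U :=
        (isOpen_ball.eventually_mem (mem_ball_self hn.par.pos)).and
          ((hn.par.cont _ (mem_ball_self hn.par.pos)).eventually_mem (hU.mem_nhds hyU))
      obtain ⟨r', hr', h2⟩ := Metric.eventually_nhds_iff_ball.1 h1
      exact ⟨r', hr', h2⟩
    have hn' := hn.restrict hn.par.zero hr' (hs'.trans inter_subset_left)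
    have hn'A := hall _ _ _ _ _ _ _ hn' (image_subset_iff.2 (hs'.trans inter_subset_right))
    obtain ⟨r₁, g, hr₁, hs1, hg, ⟨w₁, hw₁, hw₁0, hgw₁⟩, hgood⟩ :=
      nice_upV hk h hf hd hda hb hO' hn'
    obtain ⟨r₂, γ₁, j, x₁, hs2, hn₂, -, -, hlt⟩ := hgood w₁ hw₁ hw₁0 hgw₁
    rw [← hsumα l _ _ _ _ _ _ _ hn₂, ← hsumα' l _ _ _ _ _ _ _ hn']
    exact hlt hn'A
  have hcmp' : ∀ l y, y ∈ NSV O v T (G l) → ∑ e, ρ e * α l e ≤ ∑ e, ρ e * α₀ l e := by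
    rintro l y ⟨hyG, ξ, w₀, r, γ, i, n, x, hn, rfl⟩
    obtain ⟨r₁, g, hr₁, hs1, hg, ⟨w₁, hw₁, hw₁0, hgw₁⟩, hgood⟩ :=
      nice_upV hk h hf hd hda hb hO' hn
    obtain ⟨r₂, γ₁, j, x₁, hs2, hn₂, -, hle, -⟩ := hgood w₁ hw₁ hw₁0 hgw₁
    rw [← hsumα l _ _ _ _ _ _ _ hn₂, ← hsumα' l _ _ _ _ _ _ _ hn]
    exact hle
  classical
  refine ⟨fun l => if (G l).Nonempty then α₀ l else α l, ⟨hthin, ?_⟩, ?_, ?_⟩
  · intro l ξ w₀ r γ i n x hn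
    have h1 : (G l).Nonempty := ⟨ξ w₀, (hn.par.mem _ (mem_ball_self hn.par.pos)).2 hn.par.zero⟩
    simp only [h1, if_true]
    exact hα₀ l _ _ _ _ _ _ _ hn
  · intro l
    by_cases hl : (G l).Nonempty
    · simp only [hl, if_true]
      obtain ⟨y, hy⟩ := hl
      have h1 : (NSV O v T (G l)).Nonempty := by
        have h2 := (hcon₀ l).1 hy
        rw [mem_closure_iff_nhds] at h2
        obtain ⟨z, -, hz⟩ := h2 univ univ_mem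
        exact ⟨z, hz⟩
      obtain ⟨z, hz⟩ := h1
      exact hcmp' l z hz
    · simp only [hl, if_false, le_refl]
  · intro l ξ w₀ r γ i n x hn hnA
    have hG0 : ξ w₀ ∈ G l := (hn.par.mem _ (mem_ball_self hn.par.pos)).2 hn.par.zero
    have h1 : (G l).Nonempty := ⟨_, hG0⟩
    simp only [h1, if_true]
    -- a point of `NSV` near `ξ w₀`
    obtain ⟨y, hyU, hy⟩ := mem_closure_iff_nhds.1 ((hcon₀ l).1 hG0) (ξ '' ball w₀ r)
      (hn.isOpen_image.mem_nhds ⟨w₀, mem_ball_self hn.par.pos, rfl⟩)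
    refine hcmp l y hy (ξ '' ball w₀ r) hn.isOpen_image hyU ?_
    intro ξ₁ w₁ r₁ γ₁ i₁ n₁ x₁ hn₁ hsub w hw hw0
    obtain ⟨w', hw', hww'⟩ := hsub ⟨w, hw, rfl⟩
    have hwG : ξ₁ w ∈ G l := (hn₁.par.mem w hw).2 hw0
    have hw'0 : w' 0 = 0 := (hn.par.mem w' hw').1 (by rw [hww']; exact hwG)
    obtain ⟨s₁, hs₁, m₁⟩ := hn₁.at hw hwG
    obtain ⟨s₂, hs₂, m₂⟩ := hn.at hw' (by rw [hww']; exact hwG)
    have key : f (γ₁ w) = f' (γ w') := by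
      refine lim_eq (b := fun z => f (γ₁ z)) (b' := fun z => f' (γ z)) hO' m₁.par m₂.par hww'.symm
        ((hf.small.cont.continuousAt).comp (hn₁.hol w hw).1)
        ((hf.small'.cont.continuousAt).comp (hn.hol w' hw').1) ?_
      intro z hz z' hz' hzz' hzO
      show f (γ₁ z) = f' (γ z')
      rw [m₁.eq z hz hzO.1, m₂.eq z' hz' (by rw [← hzz']; exact hzO), ← hzz']
      exact (hf.small'.sec_eq _).symm
    rw [key]
    exact hnA w' hw' hw'0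

end step

end Vale.Agent.P277.H615
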