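import Vale.Agent.P277.H615.P7
import Vale.Agent.P277.H615.R.OrdV

/-!
# P277, real coefficients: the order vectors at the beginning
-/

open scoped Manifold ContDiff Topology
open Vale.Agent.P272.K Vale.Agent.P285.H281.FD Vale.Agent.P267.H175 Set Filter Metric

noncomputable section

namespace Vale.Agent.P277.H615

open Vale.Agent.P277 Vale.Agent.P277.T2 Vale.Agent.P277.H335
open Vale.Agent.P277.H19 (at_chartAt)

variable {Y : Type} [TopologicalSpace Y] [ChartedSpace (Cm 4) Y]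

/-- the orders at the beginning -/
theorem OrdDV.base {k : ℕ} {W X : CSp} [Nonempty W.pt] {r : ℕ} {v : Y → W.pt}
    {p : W.pt → X.pt} {P : Bd W.pt} {G : Fin r → Set Y} (hR : IsRes v p P G) {N : Fin k → Bd Y}
    (hN : ∀ e, CtBd (N e)) {L : Fin k → Bd X.pt} {c : Fin k → ℕ}
    {n : Fin k → Fin r → ℤ} {t : ∀ e, (L e).ι → (N e).ι → Y → ℂ}
    (ht : IsCmpV (fun y => p (v y)) L (fun e => (N e).pow (c e)) G n t) {ρ : Fin k → ℝ}
    (h : TwV v (⋃ l, G l) N X L c (⋃ l, G l)ᶜ (fun y => p (v y)) (fun _ => 1) c t ρ ∅)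
    (hO : Dense (⋃ l, G l)ᶜ) :
    ∃ α, OrdDV v G (⋃ l, G l)ᶜ (fun y => p (v y)) t c α := by
  have hOG : ∀ l, Disjoint (⋃ l, G l)ᶜ (G l) := fun l =>
    disjoint_left.2 fun y hy hyG => hy (mem_iUnion.2 ⟨l, hyG⟩)
  have hNS : ∀ l, NSV (⋃ l, G l)ᶜ (fun y => p (v y)) t (G l) = G l := by
    intro l
    refine Subset.antisymm (fun y hy => hy.1) fun y hy => ⟨hy, ?_⟩
    obtain ⟨ξ, w₀, r₀, hpar, rfl⟩ := hR.hyp l y hy
    have hw₀ := mem_ball_self (x := w₀) hpar.pos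
    choose i hi using fun e => (h.lb e).cover (p (v (ξ w₀)))
    choose j hj using fun e => (hN e).cover (ξ w₀)
    have hhol : ∀ w ∈ ball w₀ r₀, HolAt X (fun w => p (v (ξ w))) w := by
      intro w hw
      have h1 := holAt_par hR.emb hpar hw
      refine ⟨ContinuousAt.comp (g := p) hR.cont.continuousAt h1.1, fun g hg => ?_⟩
      exact h1.2 _ (hR.holo _ g hg)
    obtain ⟨ζ, hζ, hu⟩ := ht.div (ξ w₀)
    have hξc : ContinuousAt ξ w₀ := hpar.cont w₀ hw₀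
    set ch : Chart 4 Y := chartAt (Cm 4) (ξ w₀) with hch
    have hat : At ch (ξ w₀) := at_chartAt _
    have hξa := (hpar.an w₀ hw₀ ch hat).1
    have hζa : ∀ l, AnalyticAt ℂ (fun w => ζ l (ξ w)) w₀ := fun l =>
      analyticAt_comp_chart hξc hat hξa ((hζ l).2 ch hat).1
    have hζne : ∀ l, ∀ᶠ w in 𝓝 w₀, w ∈ {w | ξ w ∈ (⋃ l, G l)ᶜ} → w 0 ≠ 0 → ζ l (ξ w) ≠ 0 := by
      intro l
      filter_upwards [hξc.eventually (hζ l).1] with w hw hwO _ h0
      exact hwO (mem_iUnion.2 ⟨l, hw.1 h0⟩)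
    have hζnz : ∀ l, ¬ ∀ᶠ w in 𝓝 w₀, ζ l (ξ w) = 0 := by
      intro l hz
      obtain ⟨w, ⟨h1, h2⟩, -, h3⟩ := IsPar.dense hpar hO hw₀ (hz.and (hξc.eventually (hζ l).1))
      exact h3 (mem_iUnion.2 ⟨l, h2.1 h1⟩)
    choose μ hμ hμ1 using fun l => HasOrd.of_analytic (D := {w | ξ w ∈ (⋃ l, G l)ᶜ}) hpar.zero
      (hζa l) (hζnz l)
    have hord : ∀ e, HasOrd {w | ξ w ∈ (⋃ l, G l)ᶜ} w₀ (fun w => t e (i e) (j e) (ξ w))
        (∑ l, μ l * n e l) := by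
      intro e
      obtain ⟨u, hu0, hua, htu⟩ := hu e (i e) (j e) (hi e) (hj e)
      have h1 : HasOrd {w | ξ w ∈ (⋃ l, G l)ᶜ} w₀ (fun w => u (ξ w)) 0 :=
        HasOrd.of_unit hpar.zero (analyticAt_comp_chart hξc hat hξa (hua ch hat)) hu0
      have h2 := HasOrd.prod hpar.zero Finset.univ fun l => (hμ l).zpow (hζne l) (n e l)
      have h3 := h1.mul hpar.zero h2
      rw [zero_add] at h3
      refine h3.congr ?_
      filter_upwards [hξc.eventually htu] with w hw hwO _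
      exact hw hwO
    have hev : ∀ᶠ w in 𝓝 w₀, w ∈ ball w₀ r₀ ∧ (∀ e, p (v (ξ w)) ∈ (L e).U (i e)) ∧
        (∀ e, ξ w ∈ (N e).U (j e)) ∧ ∀ e, w 0 = 0 → HasOrd {w | ξ w ∈ (⋃ l, G l)ᶜ} w
          (fun w => t e (i e) (j e) (ξ w)) (∑ l, μ l * n e l) := by
      refine (isOpen_ball.eventually_mem hw₀).and (Filter.Eventually.and ?_
        (Filter.Eventually.and ?_ ?_))
      · rw [eventually_all]
        exact fun e => (hhol w₀ hw₀).1.eventually_mem (((h.lb e).isOpen (i e)).mem_nhds (hi e))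
      · rw [eventually_all]
        exact fun e => hξc.eventually_mem (((hN e).isOpen (j e)).mem_nhds (hj e))
      · rw [eventually_all]
        exact fun e => (hord e).eventually hpar.zero
    obtain ⟨r₁, hr₁, hball⟩ := Metric.eventually_nhds_iff_ball.1 hev
    have hs : ball w₀ r₁ ⊆ ball w₀ r₀ := fun w hw => (hball w hw).1
    exact ⟨ξ, w₀, r₁, fun w => p (v (ξ w)), i, j, _, ⟨hpar.restrict hpar.zero hr₁ hs,
      fun w hw => hhol w (hs hw), fun w hw => (hball w hw).2.1, fun w hw => (hball w hw).2.2.1,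
      fun w _ _ => rfl, fun w hw h0 e => (hball w hw).2.2.2 e h0⟩, rfl⟩
  have hex : ∀ l, ∃ α' : Fin k → ℚ, ∀ ξ w₀ r₀ γ i n x,
      NiceAtV (⋃ l, G l)ᶜ (fun y => p (v y)) t (G l) ξ w₀ r₀ γ i n x →
      ∀ e, x e = α' e * (c e : ℚ) := by
    intro l
    by_cases hn : ∃ ξ w₀ r₀ γ i n x,
      NiceAtV (⋃ l, G l)ᶜ (fun y => p (v y)) t (G l) ξ w₀ r₀ γ i n x
    · obtain ⟨ξ, w₀, r₀, γ, i, n, x, hn⟩ := hn
      refine ⟨fun e => x e / c e, ?_⟩
      intro ξ₁ w₁ r₁ γ₁ i₁ n₁ x₁ hn₁ e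
      have h1 := hn.const hO (hOG l) h hN (by rw [hNS]; exact hR.conn l) hn₁
      have h3 : (c e : ℚ) ≠ 0 := by
        have := (h.tw e).hQ
        exact_mod_cast (Nat.one_le_iff_ne_zero.1 this)
      rw [← h1, div_mul_cancel₀ _ h3]
    · push Not at hn
      exact ⟨0, fun ξ w₀ r γ i n x h => (hn ξ w₀ r γ i n x h).elim⟩
  choose α hα using hex
  refine ⟨α, fun l => ?_, hα⟩
  rw [hNS, Set.sdiff_self, image_empty]
  exact dimLe_empty

end Vale.Agent.P277.H615
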