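import Vale.Agent.P277.H615.P7c
import Vale.Agent.P277.H615.R.OrdB
import Vale.Agent.P277.H615.R.DatumV

/-!
# P277, T2R: the number of flips with a flipped locus of dimension two (NQC pairs)
-/

open scoped Manifold ContDiff Topology
open Vale.Agent.P272.K Vale.Agent.P285.H281.FD Vale.Agent.P267.H175 Set Filter Metric

noncomputable section

namespace Vale.Agent.P277.H615

open Vale.Agent.P277 Vale.Agent.P277.T2 Vale.Agent.P277.H335

variable {Y : Type} [TopologicalSpace Y] [T2Space Y] [CompactSpace Y] [ChartedSpace (Cm 4) Y]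
  [IsManifold 𝓘(ℂ, Cm 4) ω Y]

/-- a flipped surface is the centre of one of the exceptional divisors -/
theorem exists_datumV (hTA : T2.StTAc) (hTD : StTD) (hDis : T2.StDis) {k : ℕ} {V X : CSp}
    {vV : Y → V.pt} (hvV : IsOpenEmb V univ vV) (hsurj : Function.Surjective vV) {n : ℕ}
    {G : Fin n → Set Y} (hG : ∀ l, IsHyp (G l)) (hcl : ∀ l, IsClosed (G l))
    {χ : Chart 4 Y → Cm 4 → Matrix (Fin 4) (Fin 4) ℂ} (hχ : IsKahler χ)
    {M : Fin k → Bd Y} (hnef : ∀ e, Nef χ (M e)) {m : Fin k → ℕ}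
    {L : Fin k → Bd X.pt} {c : Fin k → ℕ} {O : Set Y} {v : Y → X.pt} {P Q : Fin k → ℕ}
    {T : ∀ e, (L e).ι → (((Bd.can 4 Y).pow (m e)).mul (M e)).ι → Y → ℂ} {ρ : Fin k → ℝ}
    (hρ : ∀ e, 0 < ρ e) (hsum : ∑ e, ρ e * m e = 1)
    {S : Set X.pt} (hk : 1 ≤ k) (hM : ∀ e, IsLB 4 (M e))
    (hTw : TwV vV (⋃ l, G l) (fun e => ((Bd.can 4 Y).pow (m e)).mul (M e)) X L c O v P Q T ρ S)
    (hSan : IsAn X univ S) (hSO : S ⊆ (v '' O)ᶜ) (hS1 : ¬ DimLe X 1 S)
    (hs : DimLe X 1 {x | x ∈ S ∧ ¬ IsReg 4 X x}) :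
    ∃ l ξ w₀ r γ i n x, NiceAtV O v T (G l) ξ w₀ r γ i n x ∧
      (∀ w ∈ ball w₀ r, w 0 = 0 → γ w ∈ S) ∧
      ∃ κ : Fin k → ℕ, (∀ e, x e = Q e * (m e - κ e)) ∧ ∑ e, ρ e * κ e < 1 := by
  obtain ⟨W, w₂, φ, γ, ch, μ, i, x, J, κ, g, hg, hpos, hx, hκ, -⟩ := exists_germ hTA hTD hDis hk hM
    hTw hSan hSO hS1 hs (s := 0) (β := Fin.elim0) (sg := fun i => i.elim0) (fun i => i.elim0)
    (fun i => i.elim0)
  have hκ0 : ∀ e, 0 ≤ κ e := fun e => hκ e χ hχ (hnef e)
  have hQ0 : ∀ e, (0 : ℝ) < Q e := fun e => by exact_mod_cast (hTw.tw e).hQ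
  have h1 : ∑ e, ρ e / Q e * x e = (1 - J) - ∑ e, ρ e * κ e := by
    have h2 : ∀ e, ρ e / Q e * (x e : ℝ) = ρ e * m e * (1 - J) - ρ e * κ e := by
      intro e
      rw [hx e]
      have := hQ0 e
      push_cast
      field_simp
    simp only [h2]
    rw [Finset.sum_sub_distrib, ← Finset.sum_mul, hsum, one_mul]
  rw [h1] at hpos
  have h2 : 0 ≤ ∑ e, ρ e * (κ e : ℝ) := Finset.sum_nonneg fun e _ =>
    mul_nonneg (hρ e).le (by exact_mod_cast hκ0 e)
  have hJ : J = 0 := by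
    by_contra hJ
    have h3 : (1 : ℝ) ≤ J := by exact_mod_cast Nat.one_le_iff_ne_zero.2 hJ
    linarith
  subst hJ
  obtain ⟨ΦJ, hΦ1, hΦ2, hΦ3⟩ := hg.jac
  have hdet : (fderiv ℂ (fun w => ch (γ w)) w₂).det ≠ 0 := by
    rw [hΦ3.self_of_nhds, pow_zero, one_mul]
    exact hΦ2
  obtain ⟨l, w₃, hw₃, hw₃0, r₃, hs₃, hpar⟩ := exists_par hvV hsurj hG hcl (hTw.tw ⟨0, hk⟩).thin
    hg.isOpen hg.mem hg.zero hg.lift hdet (by
      intro w hw hw0 hwO
      exact hSO (hg.inS w hw hw0) ⟨γ w, hwO, hg.lift2 w hw hwO⟩)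
  refine ⟨l, γ, w₃, r₃, φ, i, fun e => (ch, μ e), x, ⟨hpar, fun w hw => hg.hol w (hs₃ hw),
    fun w hw => hg.memU w (hs₃ hw), fun w hw e => ⟨(hg.lift w (hs₃ hw)).2.1,
      hg.memN w (hs₃ hw) e⟩, fun w hw hwO => (hg.lift2 w (hs₃ hw) hwO).symm,
    fun w hw hw0 e => hg.ord w (hs₃ hw) hw0 e⟩, fun w hw hw0 => hg.inS w (hs₃ hw) hw0,
    fun e => (κ e).toNat, fun e => ?_, ?_⟩
  · have h4 : ((κ e).toNat : ℚ) = κ e := by
      have : (((κ e).toNat : ℤ) : ℚ) = κ e := by rw [Int.toNat_of_nonneg (hκ0 e)]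
      exact_mod_cast this
    rw [h4, hx e]
    push_cast
    ring
  · have h4 : ∀ e, ((κ e).toNat : ℝ) = κ e := by
      intro e
      have : (((κ e).toNat : ℤ) : ℝ) = κ e := by rw [Int.toNat_of_nonneg (hκ0 e)]
      exact_mod_cast this
    simp only [h4]
    push_cast at hpos
    linarith

/-- the vectors `κ` with `∑ e, ρ e * κ e < 1` -/
theorem finite_kap {k : ℕ} {ρ : Fin k → ℝ} (hρ : ∀ e, 0 < ρ e) :
    {κ : Fin k → ℕ | ∑ e, ρ e * κ e < 1}.Finite := by
  refine (Set.finite_Iic (fun e => ⌊1 / ρ e⌋₊ : Fin k → ℕ)).subset fun κ hκ e => ?_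
  have h1 : ρ e * κ e ≤ ∑ e, ρ e * (κ e : ℝ) :=
    Finset.single_le_sum (f := fun e => ρ e * (κ e : ℝ))
      (fun e _ => mul_nonneg (hρ e).le (Nat.cast_nonneg _)) (Finset.mem_univ e)
  have h2 : ∑ e, ρ e * (κ e : ℝ) < 1 := hκ
  refine Nat.le_floor ?_
  rw [le_div_iff₀ (hρ e)]
  linarith

/-- the number of values below `x` -/
def below (V : Finset ℝ) (x : ℝ) : ℕ := (V.filter (· ≤ x)).card

theorem below_mono (V : Finset ℝ) {x y : ℝ} (h : x ≤ y) : below V x ≤ below V y :=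
  Finset.card_le_card fun v hv => by
    rw [Finset.mem_filter] at hv ⊢
    exact ⟨hv.1, hv.2.trans h⟩

theorem below_lt {V : Finset ℝ} {x y : ℝ} (h : x < y) (hy : y ∈ V) : below V x < below V y := by
  refine Finset.card_lt_card ⟨fun v hv => ?_, fun hsub => ?_⟩
  · rw [Finset.mem_filter] at hv ⊢
    exact ⟨hv.1, hv.2.trans h.le⟩
  · have h1 := hsub (Finset.mem_filter.2 ⟨hy, le_rfl⟩)
    rw [Finset.mem_filter] at h1
    exact absurd h1.2 (not_le.2 h)

/-- (P7R) -/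
theorem stP7R_of (hL0 : StL0) (hTA : T2.StTAc) (hTD : StTD) (hDis : T2.StDis) (hConn : StConn)
    (hReg : T2.StRegR) : T2.StP7R := by
  intro Y _ _ _ _ _ χ hχ k M hM hnef m hm ρ hρ hsum N W X Z hX0 r v p P G hR f f' A L c hc hL
    hflip
  have hreg := hReg Y χ hχ k M hM hnef m hm ρ hρ hsum N W X Z hX0 r v p P G hR f f' A L c hc hL
    hflip
  rcases Nat.eq_zero_or_pos N with rfl | hNpos
  · simp
  have hk : 1 ≤ k := by
    rcases Nat.eq_zero_or_pos k with rfl | h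
    · simp at hsum
    · exact h
  set NB : Fin k → Bd Y := fun e => ((Bd.can 4 Y).pow (m e)).mul (M e) with hNB
  have hN : ∀ e, CtBd (NB e) := fun e => ctBd (hM e) (m e)
  have hneX : Nonempty (X 0).pt := by
    have h1 := (hflip 0 hNpos).ninj
    rw [Function.Injective] at h1
    push Not at h1
    obtain ⟨x, -⟩ := h1
    exact ⟨x⟩
  have hneW : Nonempty W.pt := by
    obtain ⟨x⟩ := hneX
    obtain ⟨w, -⟩ := hR.psurj x
    exact ⟨w⟩
  have hneY : Nonempty Y := by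
    obtain ⟨w⟩ := hneW
    obtain ⟨y, -⟩ := hR.surj w
    exact ⟨y⟩
  have hDd : Dense (⋃ l, G l)ᶜ := dense_compl_iUnion_hyp hR.hyp hR.closed
  have hDc : IsClosed (⋃ l, G l) := isClosed_iUnion_of_finite hR.closed
  have hkfin := finite_kap hρ
  set V : Finset ℝ := hkfin.toFinset.image fun κ => 1 - ∑ e, ρ e * (κ e : ℝ) with hV
  have hVcard : V.card ≤ {κ : Fin k → ℕ | ∑ e, ρ e * κ e < 1}.ncard := by
    rw [ncard_eq_toFinset_card _ hkfin]
    exact Finset.card_image_le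
  have key : ∀ j ≤ N, ∃ (O : Set Y) (v' : Y → (X j).pt) (P' Q' : Fin k → ℕ)
      (T : ∀ e, (L j e).ι → (NB e).ι → Y → ℂ) (α : Fin r → Fin k → ℚ) (S : Set (X j).pt),
      TwV v (⋃ l, G l) NB (X j) (L j) (c j) O v' P' Q' T ρ S ∧
      OrdDV v G O v' T Q' α ∧
      {i | i < j ∧ ¬ DimLe (X (i + 1)) 1 (f' i ⁻¹' Amin (f i))}.ncard ≤
        ∑ l, below V (∑ e, ρ e * α l e) := by
    intro j
    induction j with
    | zero =>
      intro _
      obtain ⟨n, t, ht, hn⟩ := hL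
      have h1 := TwV.base hL0 hX0 hR hneW (N := NB) (fun e => (hN e).isOpen)
        (fun e => (hN e).cover) (hflip 0 hNpos).lb (hc 0) ht hn
      obtain ⟨α, hα⟩ := OrdDV.base hR hN ht h1 hDd
      exact ⟨_, _, _, _, _, α, _, h1, hα, by simp⟩
    | succ j ih =>
      intro hj
      obtain ⟨O, v', P', Q', T, α, S, hTw, hOrd, hcount⟩ := ih (by omega)
      obtain ⟨pp, qq, s, d, a, hd, hcpq, hf, hda⟩ := exists_flipD (hflip j (by omega)) (hc j)
      choose b hb using fun e => (hf.lb e).cover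
      have hb' : ∀ e x, x ∈ (L j e).U (b e x) := hb
      have hTw' := hTw.step hk (fun e => (hN e).isOpen) hR.emb hf hd hcpq hda hb'
      have hdO' : Dense {y | y ∈ O ∧ f j (v' y) ∉ Amin (f j)} :=
        (hTw'.tw ⟨0, hk⟩).dense hR.emb hR.surj hDd hDc
      obtain ⟨α', hOrd', hle, hlt⟩ := hOrd.step hConn hR.emb hR.hyp hR.conn
        (fun l => subset_iUnion G l) hN hk hTw hf hd hcpq hda hb' hdO'
      refine ⟨_, _, _, _, _, α', _, hTw', hOrd', ?_⟩
      have hmono : ∀ l, below V (∑ e, ρ e * α l e) ≤ below V (∑ e, ρ e * α' l e) := fun l =>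
        below_mono V (hle l)
      by_cases hJ : DimLe (X (j + 1)) 1 (f' j ⁻¹' Amin (f j))
      · have h1 : {i | i < j + 1 ∧ ¬ DimLe (X (i + 1)) 1 (f' i ⁻¹' Amin (f i))} =
            {i | i < j ∧ ¬ DimLe (X (i + 1)) 1 (f' i ⁻¹' Amin (f i))} := by
          ext i
          constructor
          · rintro ⟨h1, h2⟩
            refine ⟨lt_of_le_of_ne (Nat.lt_succ_iff.1 h1) ?_, h2⟩
            rintro rfl
            exact h2 hJ
          · rintro ⟨h1, h2⟩
            exact ⟨h1.trans (Nat.lt_succ_self _), h2⟩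
        rw [h1]
        exact hcount.trans (Finset.sum_le_sum fun l _ => hmono l)
      · -- a flipped surface
        have hSO : f' j ⁻¹' Amin (f j) ⊆ ((fun y => hf.small'.sec (f j (v' y))) ''
            {y | y ∈ O ∧ f j (v' y) ∉ Amin (f j)})ᶜ := by
          rintro x' hx' ⟨y, hy, rfl⟩
          have h1 : f' j (hf.small'.sec (f j (v' y))) ∈ Amin (f j) := hx'
          rw [hf.small'.sec_eq] at h1
          exact hy.2 h1
        obtain ⟨l, ξ, w₀, r', γ, i, n, x, hn, hnS, κ, hxκ, hκ⟩ := exists_datumV hTA hTD hDis hR.emb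
          hR.surj hR.hyp hR.closed hχ hnef hρ hsum hk hM hTw'
          (hf.small'.an.preimage (V := univ) fun x => hf.small'.holMap x) hSO hJ
          (hreg j (by omega))
        have hlt' := hlt l ξ w₀ r' γ i n x hn hnS
        have hord := hOrd'.ord l ξ w₀ r' γ i n x hn
        have hval : ∑ e, ρ e * (α' l e : ℝ) = 1 - ∑ e, ρ e * (κ e : ℝ) := by
          have h1 : ∀ e, (α' l e : ℝ) = m e - κ e := by
            intro e
            have h2 : ((Q' e * pp e : ℕ) : ℚ) ≠ 0 := by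
              have := (hTw'.tw e).hQ
              exact_mod_cast (Nat.one_le_iff_ne_zero.1 this)
            have h3 := (hord e).symm.trans (hxκ e)
            rw [mul_comm] at h3
            have h4 := mul_left_cancel₀ h2 h3
            rw [h4]
            push_cast
            ring
          simp only [h1, mul_sub]
          rw [Finset.sum_sub_distrib, hsum]
        have hmemV : ∑ e, ρ e * (α' l e : ℝ) ∈ V := by
          rw [hval, hV]
          exact Finset.mem_image_of_mem _ (hkfin.mem_toFinset.2 hκ)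
        have hlt2 := below_lt hlt' hmemV
        have h1 : {i | i < j + 1 ∧ ¬ DimLe (X (i + 1)) 1 (f' i ⁻¹' Amin (f i))} ⊆
            insert j {i | i < j ∧ ¬ DimLe (X (i + 1)) 1 (f' i ⁻¹' Amin (f i))} := by
          rintro i ⟨h1, h2⟩
          rcases eq_or_ne i j with rfl | hij
          · exact Or.inl rfl
          · exact Or.inr ⟨lt_of_le_of_ne (Nat.lt_succ_iff.1 h1) hij, h2⟩
        have hfin : {i | i < j ∧ ¬ DimLe (X (i + 1)) 1 (f' i ⁻¹' Amin (f i))}.Finite :=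
          (Set.finite_lt_nat j).subset fun i hi => hi.1
        have h2 := (ncard_le_ncard h1 (hfin.insert j)).trans (ncard_insert_le _ _)
        have h3 : ∑ l, below V (∑ e, ρ e * α l e) < ∑ l, below V (∑ e, ρ e * α' l e) :=
          Finset.sum_lt_sum (fun l _ => hmono l) ⟨l, Finset.mem_univ _, hlt2⟩
        omega
  obtain ⟨O, v', P', Q', T, α, S, -, -, hcount⟩ := key N le_rfl
  refine hcount.trans ?_
  calc ∑ l : Fin r, below V (∑ e, ρ e * α l e) ≤ ∑ _l : Fin r, V.card :=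
        Finset.sum_le_sum fun l _ => Finset.card_filter_le _ _
    _ = r * V.card := by simp
    _ ≤ _ := Nat.mul_le_mul_left _ hVcard

/-- (P7R) -/
theorem stP7R : T2.StP7R :=
  stP7R_of H884.stL0 stTAc_final (H19.stTD_of_core TD.stCore) H884.stDis H884.stConn RR.stRegR

end Vale.Agent.P277.H615
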