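import Vale.Agent.P277.H371.C.FinR
import Vale.Agent.P277.H615.R.P7R

/-!
# P277, Theorem T2R: flips of NQC generalized canonical pairs
-/

namespace Vale.Agent.P277.H615

/-- Theorem T2R -/
theorem stT2R : T2.StT2R := H371.C.stT2R_of stP7R H335.RR.stRegR

end Vale.Agent.P277.H615
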