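import Vale.Agent.P277.H371.C.WrapF
import Vale.Agent.P277.H619.T3.Fin6
import Vale.Agent.P277.H615.R.P7B

/-!
# P277, Theorem T3: flips of NQC generalized canonical pairs with boundary
-/

namespace Vale.Agent.P277.H615

/-- Theorem T3 -/
theorem stT3 : T3.StT3 := H371.C.stT3_of T3.stContr H335.RR.stRegB stP7B

/-- Theorem T3, final form -/
theorem stT3F : T3.StT3F := H371.C.stT3F_of stT3

end Vale.Agent.P277.H615
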